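import Vale.Agent.P134C.BAND

/-! # P134C, row THK -/

set_option linter.all false

open MeasureTheory Metric Filter Topology Set
open scoped ContDiff RealInnerProductSpace
open Vale.Agent.P366.Stmt (E)

noncomputable section

namespace Vale.Agent.P134C

open Vale.Agent.P134B

namespace Thk3

variable {n : ℕ} {C : ℝ} {u : E n → ℝ} {x : E n}

theorem mu_le (m0 : 0 ≤ mu u x) (q0 : 0 ≤ qq u x) (a : ph u x ≤ 1 / 2)
    (b : |ps u x| * ph u x ≤ 1 / 2) : mu u x ≤ 2 * ph u x := by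
  have d0 : mu u x ≤ max (th u x + ps u x * mu u x) (mu u x) := le_max_right _ _
  have p0 : 0 ≤ ph u x := div_nonneg m0 (m0.trans d0)
  rcases m0.eq_or_lt with k | k
  · linarith
  have e : mu u x = ph u x * max (th u x + ps u x * mu u x) (mu u x) :=
    (div_mul_cancel₀ _ (k.trans_le d0).ne').symm
  have t1 : th u x ≤ 1 := by rw [th]; linarith
  rcases max_choice (th u x + ps u x * mu u x) (mu u x) with c | c <;> rw [c] at e
  · have h1 : ps u x * mu u x ≤ |ps u x| * mu u x :=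
      mul_le_mul_of_nonneg_right (le_abs_self _) k.le
    have h2 : ph u x * (th u x + ps u x * mu u x) ≤ ph u x * (1 + |ps u x| * mu u x) :=
      mul_le_mul_of_nonneg_left (by linarith) p0
    nlinarith
  · nlinarith

theorem f2 (h : Ok C u) (x : E n) : ff u x ^ 2 ≤ 8 * Real.exp (-(8 / 3 * |ps u x|)) := by
  have s2 : (4 / 3 : ℝ) ≤ √2 := Real.le_sqrt_of_sq_le (by norm_num)
  calc ff u x ^ 2 ≤ (2 * √2 * Real.exp (-(√2 * |ps u x|))) ^ 2 :=
        pow_le_pow_left₀ (le_trans (by positivity) (h.flo x)) (h.fhi x) 2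
    _ = 8 * Real.exp (2 * -(√2 * |ps u x|)) := by
        rw [mul_pow, mul_pow, Real.sq_sqrt (by norm_num), ← Real.exp_nat_mul]; norm_num
    _ ≤ _ := by
        gcongr
        nlinarith [abs_nonneg (ps u x)]

theorem gam (mu' : P134W.MU) (sym : SYM) (h : Ok C u) {g : ℝ} (a : GG u x ≤ g) (g1 : g ≤ 1 / 2)
    (b : |ps u x| * g ≤ 1 / 2) : Gam u x ≤ 2 * g ∧
      ∀ y, |ps u y - ps u x - ⟪pp u x, y - x⟫| ≤ ‖y - x‖ ^ 2 * g := by
  obtain ⟨⟨e1, -, e2, -, e3, -⟩, ok', -⟩ := sym.1 n u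
  have h' := ok' C h
  obtain ⟨a0, -⟩ := Band.ph_bd mu' h x
  obtain ⟨b0, -⟩ := Band.ph_bd mu' h' x
  have s : ph u x + ph (-u) x ≤ g := (le_max_left _ _).trans a
  have p := abs_nonneg (ps u x)
  have m0 : 0 ≤ mu u x := (mu' n C u h).2.1 x
  have m1 : 0 ≤ mu (-u) x := (mu' n C _ h').2.1 x
  have c1 := mu_le m0 (h.q0 x) (by linarith)
    (le_trans (mul_le_mul_of_nonneg_left (by linarith) p) b)
  have c2 := mu_le m1 (h'.q0 x) (by linarith) (by
    rw [e1, Pi.neg_apply, abs_neg]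
    exact le_trans (mul_le_mul_of_nonneg_left (by linarith) p) b)
  refine ⟨by rw [Gam]; linarith, fun y => ?_⟩
  have d1 : ps u x + ⟪pp u x, y - x⟫ - mu u x * ‖y - x‖ ^ 2 / 2 ≤ ps u (x + (y - x)) :=
    (mu' n C u h).2.2.2.1 x (y - x)
  have d2 : ps (-u) x + ⟪pp (-u) x, y - x⟫ - mu (-u) x * ‖y - x‖ ^ 2 / 2 ≤
      ps (-u) (x + (y - x)) := (mu' n C _ h').2.2.2.1 x (y - x)
  simp only [e1, e2, Pi.neg_apply, inner_neg_left, add_sub_cancel] at d1 d2
  have k1 := mul_le_mul_of_nonneg_right (show mu u x ≤ 2 * g by linarith) (sq_nonneg ‖y - x‖)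
  have k2 := mul_le_mul_of_nonneg_right (show mu (-u) x ≤ 2 * g by linarith) (sq_nonneg ‖y - x‖)
  rw [abs_le]; constructor <;> linarith

theorem eight {e a b c σ p : ℝ} (e0 : 0 ≤ e) (a0 : 0 ≤ a) (b0 : 0 ≤ b) (σ1 : 1 ≤ σ)
    (h1 : e ≤ a / σ ^ 60 * Real.exp (-(8 / 3 * p))) (h2 : e ≤ b / σ ^ 78) :
    e ≤ (a + 1) * (b + 1) / σ ^ 71 * Real.exp (-p) := by
  have σ0 : 0 < σ := by linarith
  refine (pow_le_pow_iff_left₀ e0 (by positivity) (show 8 ≠ 0 by norm_num)).1 ?_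
  have x : Real.exp (-(8 / 3 * p)) ^ 3 = Real.exp (-p) ^ 8 := by
    rw [← Real.exp_nat_mul, ← Real.exp_nat_mul]; congr 1; push_cast; ring
  calc e ^ 8 = e ^ 3 * e ^ 5 := by ring
    _ ≤ (a / σ ^ 60 * Real.exp (-(8 / 3 * p))) ^ 3 * (b / σ ^ 78) ^ 5 := by gcongr
    _ = a ^ 3 * b ^ 5 / σ ^ 570 * Real.exp (-p) ^ 8 := by rw [mul_pow, x]; field_simp
    _ ≤ (a + 1) ^ 8 * (b + 1) ^ 8 / σ ^ 568 * Real.exp (-p) ^ 8 := by
        gcongr
        · exact (pow_le_pow_left₀ a0 (by linarith) 3).trans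
            (pow_le_pow_right₀ (by linarith) (by norm_num))
        · exact (pow_le_pow_left₀ b0 (by linarith) 5).trans
            (pow_le_pow_right₀ (by linarith) (by norm_num))
        · norm_num
    _ = _ := by field_simp

theorem num {c a k σ X : ℝ} (c0 : 0 ≤ c) (a0 : 0 ≤ a) (k0 : 0 ≤ k) (X0 : 0 ≤ X) (σ1 : 1 ≤ σ)
    (h : c * (a + k + 16) ≤ σ) :
    c * (a / σ ^ 60 * (σ ^ 39) ^ 7 / σ ^ 39 + 8 / σ ^ 240 * (σ ^ 39) ^ 7) * X +
      c * (k / σ ^ 71 * (σ ^ 41) ^ 7 / σ ^ 39 + 8 / σ ^ 240 * (σ ^ 41) ^ 7) * X ≤ σ ^ 178 * X := by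
  have σ0 : 0 < σ := by linarith
  have p : ∀ j, j ≤ 177 → σ ^ j ≤ σ ^ 177 := fun j hj => pow_le_pow_right₀ σ1 hj
  calc _ = c * (a * σ ^ 174 + k * σ ^ 177 + 8 * σ ^ 33 + 8 * σ ^ 47) * X := by field_simp; ring
    _ ≤ c * (a * σ ^ 177 + k * σ ^ 177 + 8 * σ ^ 177 + 8 * σ ^ 177) * X := by
        gcongr <;> first | exact σ1 | norm_num
    _ = c * (a + k + 16) * σ ^ 177 * X := by ring
    _ ≤ σ * σ ^ 177 * X := by gcongr
    _ = _ := by ring

theorem pt (mu' : P134W.MU) (sym : SYM) (h : Ok C u) {A γ₀ M σ : ℝ}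
    (qg : ∀ γ, 0 < γ → γ ≤ γ₀ → Gam u x ≤ γ → |ps u x| ≤ 4 * lg γ → qq u x ≤ A * (γ * √γ))
    (M1 : 1 ≤ M) (a1 : 240 * M ≤ σ) (a2 : 2 * M ≤ γ₀ * σ) (a3 : 2 * (4 * M ^ 2 * |A|) ≤ σ)
    (g : GG u x ≤ M / σ ^ 40) (p : |ps u x| ≤ 120 * Real.log σ) :
    qq u x ≤ 4 * M ^ 2 * |A| / σ ^ 60 ∧ 1 / 2 ≤ ‖pp u x‖ ∧
      ∀ y, |ps u y - ps u x - ⟪pp u x, y - x⟫| ≤ ‖y - x‖ ^ 2 / σ ^ 39 := by
  have σ1 : 1 ≤ σ := by linarith
  have σ0 : 0 < σ := by linarith
  have b1 : M / σ ^ 40 ≤ M / σ ^ 2 := by gcongr <;> first | exact σ1 | norm_num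
  have b2 : σ * (M / σ ^ 2) ≤ 1 / 240 := by
    rw [show σ * (M / σ ^ 2) = M / σ by field_simp, div_le_iff₀ σ0]; linarith
  have b3 : M / σ ^ 2 ≤ σ * (M / σ ^ 2) := le_mul_of_one_le_left (by positivity) σ1
  have b4 : |ps u x| * (M / σ ^ 40) ≤ 1 / 2 := by
    have := Real.log_le_sub_one_of_pos σ0
    calc _ ≤ 120 * σ * (M / σ ^ 2) := by gcongr; linarith
      _ ≤ _ := by linarith
  obtain ⟨c1, c2⟩ := gam mu' sym h g (by linarith) b4
  have d1 : 2 * (M / σ ^ 40) ≤ γ₀ := by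
    have : M / σ ^ 40 ≤ M / σ ^ 1 := by gcongr <;> first | exact σ1 | norm_num
    have k : 2 * M / σ ≤ γ₀ := (div_le_iff₀ σ0).2 a2
    rw [pow_one] at this
    rw [mul_div_assoc] at k
    linarith
  have d2 : |ps u x| ≤ 4 * lg (2 * (M / σ ^ 40)) := by
    have := Real.log_le_log (show 0 < 2 * M by linarith) (show 2 * M ≤ σ by linarith)
    have l0 := Real.log_nonneg σ1
    rw [lg, ← mul_div_assoc, Real.log_div (by positivity) (by positivity), Real.log_pow]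
    push_cast; linarith
  have d3 : √(2 * (M / σ ^ 40)) ≤ 2 * M / σ ^ 20 := by
    refine Real.sqrt_le_iff.2 ⟨by positivity, ?_⟩
    rw [div_pow, ← pow_mul, ← mul_div_assoc]
    gcongr; nlinarith
  have q : qq u x ≤ 4 * M ^ 2 * |A| / σ ^ 60 := by
    calc _ ≤ _ := qg _ (by positivity) d1 c1 d2
      _ ≤ |A| * (2 * (M / σ ^ 40) * (2 * M / σ ^ 20)) := by gcongr; exact le_abs_self _
      _ = _ := by field_simp; ring
  refine ⟨q, ?_, fun y => (c2 y).trans ?_⟩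
  · have : 4 * M ^ 2 * |A| / σ ^ 60 ≤ 1 / 2 := by
      rw [div_le_iff₀ (by positivity)]
      have := le_self_pow₀ σ1 (show 60 ≠ 0 by norm_num)
      linarith
    rw [qq] at q
    nlinarith [norm_nonneg (pp u x)]
  · rw [div_eq_mul_inv (‖y - x‖ ^ 2)]
    refine mul_le_mul_of_nonneg_left ?_ (sq_nonneg _)
    rw [div_le_iff₀ (by positivity), show (σ ^ 39)⁻¹ * σ ^ 40 = σ by field_simp]; linarith

theorem off (h : Ok C u) {σ : ℝ} (σ1 : 1 ≤ σ) (p : 120 * Real.log σ ≤ |ps u x|) :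
    EE u x ≤ 8 / σ ^ 240 := by
  have q1 : qq u x ≤ 1 := by rw [qq]; nlinarith [sq_nonneg ‖pp u x‖]
  calc EE u x ≤ ff u x ^ 2 := mul_le_of_le_one_right (sq_nonneg _) q1
    _ ≤ _ := f2 h x
    _ ≤ 8 * Real.exp (-((240 : ℕ) * Real.log σ)) := by
        refine mul_le_mul_of_nonneg_left (Real.exp_le_exp.2 ?_) (by norm_num)
        push_cast; linarith [abs_nonneg (ps u x)]
    _ = _ := by
        rw [Real.exp_neg, Real.exp_nat_mul, Real.exp_log (by linarith), div_eq_mul_inv]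

end Thk3

open Thk3 in
theorem thk3 : rTHK := by
  intro mu' sym dt qg dir C δ u h M M1
  obtain ⟨A, γ₀, γ0, qg⟩ := qg 7 C 4
  obtain ⟨c, c0, dir⟩ := dir 7
  have C1 := h.ok.C1
  obtain ⟨Z, z1, z2, z3, z4⟩ : ∃ Z : ℝ, 240 * M ≤ Z ∧ 2 * M / γ₀ ≤ Z ∧ 2 * (4 * M ^ 2 * |A|) ≤ Z ∧
      c * (8 * (4 * M ^ 2 * |A|) + (8 * (4 * M ^ 2 * |A|) + 1) * (C + 1) + 16) ≤ Z :=
    ⟨max (max _ _) (max _ _), (le_max_left _ _).trans (le_max_left _ _),
      (le_max_right _ _).trans (le_max_left _ _), (le_max_left _ _).trans (le_max_right _ _),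
      (le_max_right _ _).trans (le_max_right _ _)⟩
  have Z0 : 0 < Z := by linarith
  refine ⟨Z ^ 40, fun s hs => ?_⟩
  have s0 : 0 < s := (pow_pos Z0 40).trans_le hs
  obtain ⟨σ, σZ, rfl⟩ : ∃ σ : ℝ, Z ≤ σ ∧ s = σ ^ 40 := by
    refine ⟨s ^ (((40 : ℕ) : ℝ)⁻¹), ?_, (Real.rpow_inv_natCast_pow s0.le (by norm_num)).symm⟩
    calc Z = (Z ^ 40) ^ (((40 : ℕ) : ℝ)⁻¹) := (Real.pow_rpow_inv_natCast Z0.le (by norm_num)).symm
      _ ≤ _ := Real.rpow_le_rpow (by positivity) hs (by positivity)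
  have σ2 : 2 ≤ σ := by linarith
  have σ1 : 1 ≤ σ := by linarith
  have σ0 : 0 < σ := by linarith
  have e1 : (σ ^ 40) ^ (41 / 40 : ℝ) = σ ^ 41 := by
    rw [← Real.rpow_natCast, ← Real.rpow_mul σ0.le, ← Real.rpow_natCast]; norm_num
  have e2 : (σ ^ 40) ^ (89 / 20 : ℝ) = σ ^ 178 := by
    rw [← Real.rpow_natCast, ← Real.rpow_mul σ0.le, ← Real.rpow_natCast]; norm_num
  have r1 : σ ^ 39 ≤ σ ^ 41 := pow_le_pow_right₀ σ1 (by norm_num)
  have r2 : 2 ≤ σ ^ 39 := σ2.trans (le_self_pow₀ σ1 (by norm_num))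
  refine ⟨1 / (σ ^ 41 + 2), by positivity, fun l ζ l0 l1 w => ?_⟩
  rw [le_div_iff₀ (by positivity)] at l1
  rw [e1, e2]
  have D := dt 7 C u h.ok
  have cG := D.lG.continuous
  have cψ := h.ok.smp.continuous
  have cd : Continuous (dd δ u) := continuous_infDist_pt _
  have cE : Continuous (EE u) := by
    have cu := h.ok.sm.continuous
    have cp := (P366W.smooth_gradient h.ok.smp).continuous
    unfold EE ff qq pp; fun_prop
  have E0 : ∀ x, 0 ≤ EE u x := fun x => mul_nonneg (sq_nonneg _) (h.ok.q0 x)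
  have P := fun x => pt (x := x) mu' sym h.ok (fun γ => qg u x γ h.ok h.st) M1 (z1.trans σZ)
    ((div_le_iff₀' γ0).1 (z2.trans σZ)) (z3.trans σZ)
  have mS : MeasurableSet {x | GG u x ≤ M / σ ^ 40} := (isClosed_le cG continuous_const).measurableSet
  have mA : MeasurableSet {x | GG u x ≤ M / σ ^ 40 ∧ |ps u x| ≤ 120 * Real.log σ} :=
    mS.inter (isClosed_le cψ.abs continuous_const).measurableSet
  have mD : MeasurableSet {x | σ ^ 39 < dd δ u x} := (isOpen_lt continuous_const cd).measurableSet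
  have k0 : ∀ x, GG u x ≤ M / σ ^ 40 → |ps u x| ≤ 120 * Real.log σ →
      EE u x ≤ 8 * (4 * M ^ 2 * |A|) / σ ^ 60 * Real.exp (-(8 / 3 * |ps u x|)) := fun x a b => by
    calc EE u x ≤ 8 * Real.exp (-(8 / 3 * |ps u x|)) * (4 * M ^ 2 * |A| / σ ^ 60) :=
          mul_le_mul (f2 h.ok x) (P x a b).1 (h.ok.q0 x) (by positivity)
      _ = _ := by ring
  have i1 := dir (Bad δ u) _ _ (ps u) (EE u) ζ (pp u) (σ ^ 39) (σ ^ 39) l
    (8 * (4 * M ^ 2 * |A|) / σ ^ 60) (8 / σ ^ 240) h.ne w l0.le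
    (le_trans (mul_le_mul_of_nonneg_left (by linarith) l0.le) l1) (by positivity) le_rfl r2
    (by positivity) (by positivity) cψ cE E0 mA mS (fun x hx => (P x hx.1 hx.2).2) fun x hx => by
      rcases le_total |ps u x| (120 * Real.log σ) with k | k
      · refine .inr ⟨⟨hx, k⟩, (k0 x hx k).trans ?_⟩
        gcongr; linarith [abs_nonneg (ps u x)]
      · exact .inl (off h.ok σ1 k)
  have i2 := dir (Bad δ u) _ _ (ps u) (EE u) ζ (pp u) (σ ^ 39) (σ ^ 41) l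
    ((8 * (4 * M ^ 2 * |A|) + 1) * (C + 1) / σ ^ 71) (8 / σ ^ 240) h.ne w l0.le l1 (by positivity)
    r1 (r2.trans r1) (by positivity) (by positivity) cψ cE E0 mA (mS.inter mD)
    (fun x hx => (P x hx.1 hx.2).2) fun x hx => by
      rcases le_total |ps u x| (120 * Real.log σ) with k | k
      · refine .inr ⟨⟨hx.1, k⟩, eight (c := 0) (E0 x) (by positivity) (by linarith) σ1
          (k0 x hx.1 k) ?_⟩
        rw [le_div_iff₀ (by positivity)]
        refine le_trans (mul_le_mul_of_nonneg_left ?_ (E0 x)) (h.rt x)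
        rw [show σ ^ 78 = (σ ^ 39) ^ 2 by ring]
        exact pow_le_pow_left₀ (by positivity) (le_of_lt hx.2) 2
      · exact .inl (off h.ok σ1 k)
  have I := Band.int_bd w cE E0 (K := 8) fun x => by
    simpa using off (x := x) h.ok le_rfl (by simp)
  refine le_trans ?_ ((add_le_add i1 i2).trans (num c0.le (by positivity) (by positivity)
    (integral_nonneg fun _ => sq_nonneg _) σ1 (z4.trans σZ)))
  rw [← setIntegral_union _ ((mS.inter mD).inter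
    (isClosed_le (continuous_infDist_pt (Bad δ u)) continuous_const).measurableSet)
    I.integrableOn I.integrableOn]
  · refine setIntegral_mono_set I.integrableOn
      (ae_of_all _ fun x => mul_nonneg (E0 x) (sq_nonneg _)) (HasSubset.Subset.eventuallyLE ?_)
    rintro x ⟨a, b⟩
    rcases le_or_gt (dd δ u x) (σ ^ 39) with k | k
    · exact .inl ⟨a, k⟩
    · exact .inr ⟨⟨a, k⟩, b⟩
  · exact disjoint_left.2 fun x a b =>
      absurd (show dd δ u x ≤ σ ^ 39 from a.2) (not_le.2 (show σ ^ 39 < dd δ u x from b.1.2))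

end Vale.Agent.P134C
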