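import Vale.Agent.P134C.Top

/-!
# P134C: the gain in the band is small
-/

open MeasureTheory Metric Filter Topology Set
open scoped ContDiff RealInnerProductSpace
open Vale.Agent.P366.Stmt (E)

noncomputable section

namespace Vale.Agent.P134C

open Vale.Agent.P134B Vale.Agent.P134T

namespace Band

variable {n : ℕ} {C : ℝ} {u : E n → ℝ}

theorem hs0 (A : E n →L[ℝ] E n) : 0 ≤ hs A := Finset.sum_nonneg fun _ _ => sq_nonneg _

theorem hs_le (h : Ok C u) (x : E n) : hs (SS u x) ≤ n * C ^ 2 * qq u x := by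
  have h1 : ‖SS u x‖ ^ 2 ≤ C ^ 2 * qq u x := by
    have := pow_le_pow_left₀ (norm_nonneg _) (h.S0 x) 2
    rwa [mul_pow, Real.sq_sqrt (h.q0 x)] at this
  have h2 : ∀ i : Fin n, ‖SS u x (EuclideanSpace.single i 1)‖ ^ 2 ≤ C ^ 2 * qq u x := fun i => by
    refine (pow_le_pow_left₀ (norm_nonneg _) ?_ 2).trans h1
    simpa using (SS u x).le_opNorm (EuclideanSpace.single i 1)
  have := Finset.sum_le_card_nsmul Finset.univ _ _ fun i _ => h2 i
  simpa [hs, mul_assoc] using this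

theorem PP_bd (h : Ok C u) (x : E n) : 0 ≤ PP u x ∧ PP u x ≤ qq u x := by
  have f0 := h.tff_pos x
  have q0 := h.q0 x
  have e : √2 * ff u x = 1 - u x ^ 2 := by unfold ff; field_simp
  refine ⟨by unfold PP; positivity, ?_⟩
  rw [PP, e]
  nlinarith [sq_nonneg (u x)]

theorem hP (h : Ok C u) (x : E n) : 0 ≤ hh u x * Pt u x ∧ hh u x * Pt u x ≤ gn u x ∧
    gn u x ≤ (n * C ^ 2 + 1) * EE u x := by
  have q0 := h.q0 x
  have q1 := qq_le u x
  obtain ⟨p0, p1⟩ := PP_bd h x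
  have s0 := hs0 (SS u x)
  have s1 := hs_le h x
  have t0 : 0 < th u x := by unfold th; linarith
  have t1 : th u x ≤ 1 := by unfold th; linarith
  have e : hh u x * Pt u x = ff u x ^ 2 * (th u x * (hs (SS u x) + PP u x * qq u x / 2)) := by
    unfold hh Pt ft
    field_simp
  have k : th u x * (hs (SS u x) + PP u x * qq u x / 2) ≤ PP u x + hs (SS u x) :=
    (mul_le_of_le_one_left (by positivity) t1).trans (by nlinarith)
  rw [e, gn, EE]
  exact ⟨by positivity, mul_le_mul_of_nonneg_left k (sq_nonneg _), by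
    nlinarith [mul_le_mul_of_nonneg_left (add_le_add p1 s1) (sq_nonneg (ff u x))]⟩

theorem ph_bd (mu' : P134W.MU) (h : Ok C u) (x : E n) : 0 ≤ ph u x ∧ ph u x ≤ 1 := by
  have m0 : 0 ≤ mu u x := (mu' n C u h).2.1 x
  have d0 : 0 ≤ max (th u x + ps u x * mu u x) (mu u x) := m0.trans (le_max_right _ _)
  exact ⟨div_nonneg m0 d0, div_le_one_of_le₀ (le_max_right _ _) d0⟩

theorem df_bd (mu' : P134W.MU) (h : Ok C u) (h' : Ok C (-u)) (x : E n) :
    0 ≤ df u x ∧ df u x ≤ |ps u x| ∧ df u x ≤ |ps u x| * GG u x := by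
  obtain ⟨a0, a1⟩ := ph_bd mu' h x
  obtain ⟨b0, b1⟩ := ph_bd mu' h' x
  have g : ph u x + ph (-u) x ≤ GG u x := le_max_left _ _
  have k : ps u x * (ph (-u) x - ph u x) ≤ |ps u x| * |ph (-u) x - ph u x| := by
    rw [← abs_mul]; exact le_abs_self _
  have p := abs_nonneg (ps u x)
  refine ⟨le_max_left _ _, max_le p (k.trans (mul_le_of_le_one_right p ?_)),
    max_le (mul_nonneg p (by linarith)) (k.trans (mul_le_mul_of_nonneg_left ?_ p))⟩ <;>
    rw [abs_le] <;> constructor <;> linarith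

theorem g_le (dt : Dt (hh u) (Pt u) (Xd u) (Gn u) (GG u)) {x : E n} {a : ℝ} (d0 : 0 ≤ df u x)
    (d1 : df u x ≤ a) : hh u x * (Pt u x + Xd u x) ≤ (1 + 2 * a) * (hh u x * Pt u x) := by
  have h0 := dt.h0 x
  have v0 := dt.V0 x
  have : Xd u x ≤ 2 * a * Pt u x := by
    unfold Xd
    split_ifs
    · exact mul_le_mul_of_nonneg_right (by linarith) v0
    · exact mul_nonneg (by linarith) v0
  nlinarith [mul_le_mul_of_nonneg_left this h0]

theorem EE_le (h : Ok C u) (x : E n) : EE u x * (1 + 2 * |ps u x|) * Real.exp (2 * |ps u x|) ≤ 24 := by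
  have p := abs_nonneg (ps u x)
  have s2 : (7 / 5 : ℝ) ≤ √2 := Real.le_sqrt_of_sq_le (by norm_num)
  have f2 : ff u x ^ 2 ≤ 8 * Real.exp (-(14 / 5 * |ps u x|)) := by
    have h1 := pow_le_pow_left₀ (h.tff_pos x).le (h.fhi x) 2
    rw [mul_pow, mul_pow, Real.sq_sqrt zero_le_two, ← Real.exp_nat_mul] at h1
    refine h1.trans (mul_le_mul (by norm_num) (Real.exp_le_exp.2 ?_) (by positivity) (by norm_num))
    push_cast
    nlinarith
  have e1 : EE u x ≤ 8 * Real.exp (-(14 / 5 * |ps u x|)) :=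
    (mul_le_of_le_one_right (sq_nonneg _) (qq_le u x)).trans f2
  have e2 : 1 + 2 * |ps u x| ≤ 3 * Real.exp (4 / 5 * |ps u x|) := by
    linarith [Real.add_one_le_exp (4 / 5 * |ps u x|)]
  have e3 : Real.exp (-(14 / 5 * |ps u x|)) * Real.exp (4 / 5 * |ps u x|) *
      Real.exp (2 * |ps u x|) = 1 := by
    rw [← Real.exp_add, ← Real.exp_add, ← Real.exp_zero]; congr 1; ring
  calc _ ≤ 8 * Real.exp (-(14 / 5 * |ps u x|)) * (3 * Real.exp (4 / 5 * |ps u x|)) *
        Real.exp (2 * |ps u x|) := by gcongr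
    _ = 24 := by linear_combination 24 * e3

theorem int_bd {l K : ℝ} {ζ F : E n → ℝ} (w : Wt l ζ) (hF : Continuous F) (h0 : ∀ x, 0 ≤ F x)
    (h1 : ∀ x, F x ≤ K) : Integrable fun x => F x * ζ x ^ 2 := by
  refine (w.int.const_mul K).mono' (hF.mul (w.sm.continuous.pow 2)).aestronglyMeasurable
    (ae_of_all _ fun x => ?_)
  have := w.pos x
  have := w.le x
  have := h0 x
  rw [Real.norm_of_nonneg (by positivity)]
  exact mul_le_mul (h1 x) (by nlinarith) (by positivity) ((h0 x).trans (h1 x))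

theorem far (mu' : P134W.MU) (ok : Ok C u) (ok' : Ok C (-u))
    (D : Dt (hh u) (Pt u) (Xd u) (Gn u) (GG u)) {x : E n} {d d₀ : ℝ} (d1 : 1 < d₀) (d0 : 0 ≤ d)
    (hx : d ≤ d₀ ∨ 20 * Real.log d ≤ |ps u x|) : hh u x * (Pt u x + Xd u x) * (1 + d) ^ 40 ≤
      (n * C ^ 2 + 1) * 24 * ((1 + d₀) ^ 40 + 2 ^ 40) := by
  obtain ⟨e0, e1, -⟩ := df_bd mu' ok ok' x
  obtain ⟨-, p1, p2⟩ := hP ok x
  have p := abs_nonneg (ps u x)
  have k1 := (g_le D e0 e1).trans (mul_le_mul_of_nonneg_left (p1.trans p2) (by positivity))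
  have k2 : (1 + d) ^ 40 ≤ ((1 + d₀) ^ 40 + 2 ^ 40) * Real.exp (2 * |ps u x|) := by
    have x1 : 1 ≤ Real.exp (2 * |ps u x|) := Real.one_le_exp (by positivity)
    by_cases h1 : d ≤ d₀
    · refine (pow_le_pow_left₀ (by positivity) (by linarith : _ ≤ 1 + d₀) 40).trans ?_
      exact (le_add_of_nonneg_right (by positivity)).trans
        (le_mul_of_one_le_right (by positivity) x1)
    · have h2 := hx.resolve_left h1
      have h3 : d ^ 40 ≤ Real.exp (2 * |ps u x|) := by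
        rw [← Real.exp_log (show 0 < d by linarith), ← Real.exp_nat_mul]
        exact Real.exp_le_exp.2 (by push_cast; linarith)
      refine (pow_le_pow_left₀ (by positivity) (by linarith : _ ≤ 2 * d) 40).trans ?_
      rw [mul_pow]
      exact mul_le_mul (le_add_of_nonneg_left (by positivity)) h3 (by positivity)
        (by positivity)
  have k3 := EE_le ok x
  have E0 := ok.tEE_nn x
  calc _ ≤ (1 + 2 * |ps u x|) * ((n * C ^ 2 + 1) * EE u x) *
        (((1 + d₀) ^ 40 + 2 ^ 40) * Real.exp (2 * |ps u x|)) :=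
      mul_le_mul k1 k2 (by positivity) (by positivity)
    _ = (n * C ^ 2 + 1) * (EE u x * (1 + 2 * |ps u x|) * Real.exp (2 * |ps u x|)) *
        ((1 + d₀) ^ 40 + 2 ^ 40) := by ring
    _ ≤ _ := by gcongr

theorem near (mu' : P134W.MU) (ok : Ok C u) (ok' : Ok C (-u))
    (D : Dt (hh u) (Pt u) (Xd u) (Gn u) (GG u)) {x : E n} {a c : ℝ} (c0 : 0 < c)
    (h3 : |ps u x| ≤ 20 * a) (h5 : GG u x * (c * a) ≤ 1) :
    hh u x * (Pt u x + Xd u x) ≤ (1 + 2 * (20 / c)) * (n * C ^ 2 + 1) * EE u x ∧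
    hh u x * (Pt u x + Xd u x) ≤ (1 + 2 * (20 / c)) * (n * C ^ 2 + 1) * gn u x := by
  obtain ⟨e0, -, e2⟩ := df_bd mu' ok ok' x
  have e3 : df u x ≤ 20 / c := by
    rw [le_div_iff₀ c0]
    have := mul_le_mul_of_nonneg_right h3 (D.G0 x)
    nlinarith
  obtain ⟨p0, p1, p2⟩ := hP ok x
  have k1 := g_le D e0 e3
  have c2 : 0 ≤ 1 + 2 * (20 / c) := by positivity
  rw [mul_assoc, mul_assoc]
  exact ⟨k1.trans (mul_le_mul_of_nonneg_left (p1.trans p2) c2),
    k1.trans (mul_le_mul_of_nonneg_left (p1.trans (le_mul_of_one_le_left (p0.trans p1)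
      (le_add_of_nonneg_left (by positivity)))) c2)⟩

theorem fin {a K s η X I₁ I₂ I₃ : ℝ} (a0 : 0 ≤ a) (K0 : 0 ≤ K) (s1 : 1 ≤ s) (η0 : 0 < η)
    (X0 : 0 ≤ X) (h : (a + 2 * K) / η ≤ s ^ (1 / 20 : ℝ)) (b1 : I₁ ≤ a * X)
    (b2 : I₂ ≤ s ^ (89 / 20 : ℝ) * X) (b3 : I₃ ≤ s ^ (22 / 5 : ℝ) * X) :
    I₁ + (K * I₂ + K * I₃) ≤ η * s ^ (2 * (9 / 4) : ℝ) * X := by
  have r1 : 1 ≤ s ^ (89 / 20 : ℝ) := Real.one_le_rpow s1 (by norm_num)
  have r2 : s ^ (22 / 5 : ℝ) ≤ s ^ (89 / 20 : ℝ) :=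
    Real.rpow_le_rpow_of_exponent_le s1 (by norm_num)
  have r3 : s ^ (2 * (9 / 4) : ℝ) = s ^ (1 / 20 : ℝ) * s ^ (89 / 20 : ℝ) := by
    rw [← Real.rpow_add (by linarith)]; norm_num
  rw [div_le_iff₀' η0] at h
  have r5 := mul_le_mul_of_nonneg_right h (mul_nonneg (zero_le_one.trans r1) X0)
  have r6 := mul_le_mul_of_nonneg_left b2 K0
  have r7 := mul_le_mul_of_nonneg_left (b3.trans (mul_le_mul_of_nonneg_right r2 X0)) K0
  have r8 := mul_le_mul_of_nonneg_left r1 (mul_nonneg a0 X0)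
  rw [r3]
  linarith

end Band

open Band

theorem band : rBAND := by
  intro mu' sym dt cnt supp thk te bd C δ u R M M1 η η0
  have ok := R.ok
  have ok' : Ok C (-u) := (sym.1 7 u).2.1 C ok
  have D := dt 7 C u ok
  obtain ⟨C₁, c1, hC⟩ := cnt 7
  obtain ⟨c, c0, d₀, d1, hS⟩ := supp 6 C δ 20
  obtain ⟨T₀, T0, hT⟩ := te C δ u R
  obtain ⟨M', M1', s₁, hB⟩ := bd 6 C δ T₀ M T0 M1
  obtain ⟨s₂, hT⟩ := hT M' M1'
  obtain ⟨s₃, hK⟩ := thk C δ u R M M1
  set K : ℝ := (7 : ℕ) * C ^ 2 + 1 with hKd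
  have K1 : 1 ≤ K := by rw [hKd]; nlinarith [sq_nonneg C]
  set A : ℝ := K * 24 * ((1 + d₀) ^ 40 + 2 ^ 40) with hA
  have A0 : 0 ≤ A := by positivity
  set K₂ : ℝ := (1 + 2 * (20 / c)) * K with hK₂
  have K2 : 0 ≤ K₂ := by positivity
  obtain ⟨s₄, h4⟩ := eventually_atTop.1 ((tendsto_rpow_atTop
    (show (0 : ℝ) < 1 / 20 by norm_num)).eventually_ge_atTop ((C₁ * A + 2 * K₂) / η))
  refine ⟨max (max (max s₁ s₂) (max s₃ s₄)) 1, fun s hs => ?_⟩
  simp only [ge_iff_le, max_le_iff] at hs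
  obtain ⟨⟨⟨a1, a2⟩, a3, a4⟩, a5⟩ := hs
  obtain ⟨l₂, l2, hT⟩ := hT s a2
  obtain ⟨l₃, l3, hK⟩ := hK s a3
  refine ⟨min l₂ l₃, lt_min l2 l3, fun l ζ l0 l1 w => ?_⟩
  have cG := D.lG.continuous
  have cd : Continuous (dd δ u) := continuous_infDist_pt _
  have cp := ok.smp.continuous
  have g0 : ∀ x, 0 ≤ hh u x * (Pt u x + Xd u x) := fun x =>
    mul_nonneg (D.h0 x) (add_nonneg (D.V0 x) (D.X0 x))
  set S₁ := {x | dd δ u x ≤ d₀ ∨ 20 * Real.log (dd δ u x) ≤ |ps u x|} with hS₁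
  set S₂ := {x | GG u x ≤ M / s ∧ dd δ u x ≤ s ^ (41 / 40 : ℝ)} with hS₂
  set S₃ := bnd (GG u) (1 / (M * s)) (M / s) ∩ {x | s ^ (41 / 40 : ℝ) ≤ dd δ u x} with hS₃
  have mb : MeasurableSet (bnd (GG u) (1 / (M * s)) (M / s)) :=
    ((isClosed_le continuous_const cG).inter (isClosed_le cG continuous_const)).measurableSet
  have m1 : MeasurableSet S₁ := (isClosed_le cd continuous_const).measurableSet.union
    (measurableSet_le (cd.measurable.log.const_mul _) cp.abs.measurable)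
  have m2 : MeasurableSet S₂ :=
    ((isClosed_le cG continuous_const).inter (isClosed_le cd continuous_const)).measurableSet
  have m3 : MeasurableSet S₃ := mb.inter (isClosed_le continuous_const cd).measurableSet
  obtain ⟨i1, b1⟩ := hC (Bad δ u) l A ζ (S₁.indicator fun x => hh u x * (Pt u x + Xd u x)) R.ne w
    (fun x => indicator_nonneg (fun x _ => g0 x) x)
    ((D.ch.measurable.mul (D.cV.measurable.add D.mX)).indicator m1).aestronglyMeasurable
    (ae_of_all _ fun x => by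
      by_cases hx : x ∈ S₁
      swap
      · rw [indicator_of_notMem hx, zero_mul]; exact A0
      rw [indicator_of_mem hx]
      exact far mu' ok ok' D d1 infDist_nonneg hx)
  have b2 := hK l ζ l0 (l1.trans (min_le_right _ _)) w
  have b3 := hT l ζ S₃ l0 (l1.trans (min_le_left _ _)) w m3 fun x hx =>
    ⟨hx.2, hB u x s R a1 hx.2 hx.1⟩
  have E1 : ∀ x, EE u x ≤ 1 := fun x => mul_le_one₀ (pow_le_one₀ (ok.tff_pos x).le (ff_le u x))
    (ok.q0 x) (qq_le u x)
  have cf := ok.tcf.continuous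
  have cq : Continuous (qq u) := by have := ok.tcp.continuous; unfold qq; fun_prop
  have cS : Continuous (SS u) := ok.tcp.continuous_fderiv (by simp)
  have n0 : ∀ x, 0 ≤ gn u x := fun x => (hP ok x).1.trans (hP ok x).2.1
  have i2 := (int_bd w (F := EE u) (by unfold EE; fun_prop) ok.tEE_nn E1).indicator m2
  have i3 := (int_bd w (F := gn u) (K := K) (by unfold gn PP hs; fun_prop) n0 fun x =>
    (hP ok x).2.2.trans (mul_le_of_le_one_right (by positivity) (E1 x))).indicator m3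
  rw [← integral_indicator m2] at b2
  rw [← integral_indicator m3] at b3
  rw [← integral_indicator mb]
  have X0 : 0 ≤ Xi (Bad δ u) ζ := integral_nonneg fun x => sq_nonneg _
  refine (integral_mono_of_nonneg (ae_of_all _ fun x => indicator_nonneg
    (fun x _ => mul_nonneg (g0 x) (sq_nonneg _)) x)
    (i1.add ((i2.const_mul K₂).add (i3.const_mul K₂))) (ae_of_all _ fun x => ?_)).trans ?_
  · have z := sq_nonneg (ζ x)
    have j1 : 0 ≤ S₁.indicator (fun x => hh u x * (Pt u x + Xd u x)) x * ζ x ^ 2 :=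
      mul_nonneg (indicator_nonneg (fun x _ => g0 x) x) z
    have j2 : 0 ≤ K₂ * S₂.indicator (fun x => EE u x * ζ x ^ 2) x := mul_nonneg K2
      (indicator_nonneg (fun x _ => mul_nonneg (ok.tEE_nn x) (sq_nonneg _)) x)
    have j3 : 0 ≤ K₂ * S₃.indicator (fun x => gn u x * ζ x ^ 2) x := mul_nonneg K2
      (indicator_nonneg (fun x _ => mul_nonneg (n0 x) (sq_nonneg _)) x)
    simp only [Pi.add_apply]
    by_cases hb : x ∈ bnd (GG u) (1 / (M * s)) (M / s)
    swap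
    · rw [indicator_of_notMem hb]; positivity
    rw [indicator_of_mem hb]
    by_cases h1 : x ∈ S₁
    · rw [indicator_of_mem h1]
      exact le_add_of_nonneg_right (add_nonneg j2 j3)
    obtain ⟨h2, h3⟩ := not_or.1 h1
    obtain ⟨k2, k3⟩ := near mu' ok ok' D c0 (not_le.1 h3).le
      (hS u x R (not_le.1 h2).le (not_le.1 h3).le)
    by_cases h6 : dd δ u x ≤ s ^ (41 / 40 : ℝ)
    · rw [indicator_of_mem (show x ∈ S₂ from ⟨hb.2, h6⟩), ← mul_assoc]
      exact (mul_le_mul_of_nonneg_right k2 z).trans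
        ((le_add_of_nonneg_right j3).trans (le_add_of_nonneg_left j1))
    · rw [indicator_of_mem (show x ∈ S₃ from ⟨hb, (not_le.1 h6).le⟩), ← mul_assoc]
      exact (mul_le_mul_of_nonneg_right k3 z).trans
        ((le_add_of_nonneg_left j2).trans (le_add_of_nonneg_left j1))
  · rw [integral_add' i1 ((i2.const_mul K₂).add (i3.const_mul K₂)),
      integral_add' (i2.const_mul K₂) (i3.const_mul K₂), integral_const_mul, integral_const_mul]
    exact fin (mul_nonneg c1.le A0) K2 a5 η0 X0 (h4 s a4) b1 b2 b3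

end Vale.Agent.P134C
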