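import Vale.Agent.P134C.Top

/-!
# P134C, block (c): the row BD (the gaps at the feet of the points of the band)
-/

open MeasureTheory Metric Filter Topology Set
open scoped ContDiff RealInnerProductSpace
open Vale.Agent.P366.Stmt (E)

noncomputable section

namespace Vale.Agent.P134C

open Vale.Agent.P134B

namespace BdX

variable {n : ℕ}

theorem norm_nu_le (u : E n → ℝ) (y : E n) : ‖nu u y‖ ≤ 1 := by
  rw [nu, norm_smul, norm_inv, norm_norm]
  exact inv_mul_le_one_of_le₀ le_rfl (norm_nonneg _)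

theorem pos_mono {u : E n → ℝ} {y : E n} {a b : ℝ} (hab : a ≤ b) (h : Pos u y b) : Pos u y a :=
  fun t ht => h t ⟨ht.1, ht.2.trans hab⟩

theorem ph_le {u : E n → ℝ} {x : E n} (h0 : 0 ≤ mu u x) (h : |ps u x| * mu u x ≤ 1 / 4) :
    0 ≤ ph u x ∧ ph u x ≤ 4 * mu u x := by
  have h1 : 1 / 2 ≤ th u x := by
    have := sq_nonneg ‖pp u x‖
    unfold th qq
    linarith
  have h2 : -(|ps u x| * mu u x) ≤ ps u x * mu u x := by
    have := neg_abs_le (ps u x)
    nlinarith
  have h3 : 1 / 4 ≤ max (th u x + ps u x * mu u x) (mu u x) :=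
    le_max_of_le_left (by linarith)
  unfold ph
  refine ⟨div_nonneg h0 (by linarith), ?_⟩
  rw [div_le_iff₀ (by linarith)]
  nlinarith

end BdX

open BdX

/-- Row c.BD. -/
theorem bd : rBD := by
  intro hMU hSYM hSUPP hLOWG hISO m C δ T M hT hM
  obtain ⟨A, hA, d₀, hL⟩ := hLOWG m C δ T
  obtain ⟨c, hc, d₁, hd₁, hS⟩ := hSUPP m C δ (T + 1)
  obtain ⟨B, hB1, hB2⟩ : ∃ B : ℝ, 4 * (T + 1) * M / c ≤ B ∧ 5 * M ≤ B :=
    ⟨max _ _, le_max_left _ _, le_max_right _ _⟩
  have hB : 0 < B := by linarith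
  obtain ⟨M₂, hM₂, s₂, hI⟩ := hISO m C δ T B hB
  refine ⟨max M₂ (A * M + 1), le_max_of_le_left hM₂, max (max s₂ d₀) (max d₁ 3), ?_⟩
  intro u x s hR hs hd hx y t hF
  have s1 : s₂ ≤ s := le_trans (le_max_of_le_left (le_max_left _ _)) hs
  have s2 : d₀ ≤ s := le_trans (le_max_of_le_left (le_max_right _ _)) hs
  have s3 : d₁ ≤ s := le_trans (le_max_of_le_right (le_max_left _ _)) hs
  have s4 : 3 ≤ s := le_trans (le_max_of_le_right (le_max_right _ _)) hs
  have s0 : 0 < s := by linarith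
  have hsd : s ≤ dd δ u x := by
    refine le_trans ?_ hd
    have := Real.rpow_le_rpow_of_exponent_le (x := s) (by linarith) (by norm_num : (1 : ℝ) ≤ 41 / 40)
    rwa [Real.rpow_one] at this
  have hlog : 1 ≤ Real.log (dd δ u x) := by
    rw [Real.le_log_iff_exp_le (by linarith)]
    have := Real.exp_one_lt_d9
    linarith
  obtain ⟨g1, g2⟩ := hx
  have hM' : 0 < max M₂ (A * M + 1) := lt_max_of_lt_left (by linarith)
  obtain ⟨p1, p2⟩ := hL u x y t (s / max M₂ (A * M + 1)) hR (s2.trans hsd) hF (by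
    have h1 : A * (s / max M₂ (A * M + 1)) * GG u x ≤ A * (s / max M₂ (A * M + 1)) * (M / s) :=
      mul_le_mul_of_nonneg_left g2 (by positivity)
    have h2 : A * (s / max M₂ (A * M + 1)) * (M / s) = A * M / max M₂ (A * M + 1) := by
      field_simp
    have h3 : A * M / max M₂ (A * M + 1) < 1 := by
      rw [div_lt_one hM']
      exact lt_max_of_lt_right (by linarith)
    linarith)
  refine ⟨p1, p2, fun ⟨q1, q2⟩ => ?_⟩
  have hms : M₂ * s ≤ max M₂ (A * M + 1) * s := mul_le_mul_of_nonneg_right (le_max_left _ _) s0.le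
  have hps : |ps u x| ≤ (T + 1) * Real.log (dd δ u x) := by
    have h1 := hR.ok.tlip y x
    have h2 : ‖x - y‖ ≤ |t| := by
      rw [hF.eq, add_sub_cancel_left, norm_smul, Real.norm_eq_abs]
      exact mul_le_of_le_one_right (abs_nonneg _) (norm_nu_le u y)
    have h3 := abs_add_le (ps u x - ps u y) (ps u y)
    rw [sub_add_cancel] at h3
    linarith [hF.lo, hF.le]
  have hl : Real.log (dd δ u x) ≤ M * s / c := by
    have h1 := hS u x hR (s3.trans hsd) hps
    have h2 : 1 / (M * s) * (c * Real.log (dd δ u x)) ≤ 1 :=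
      (mul_le_mul_of_nonneg_right g1 (by positivity)).trans h1
    rw [div_mul_eq_mul_div, div_le_one (by positivity)] at h2
    rw [le_div_iff₀ hc]
    linarith
  have hk : 4 * ((T + 1) * Real.log (dd δ u x)) ≤ B * s := by
    have h1 : 4 * (T + 1) * Real.log (dd δ u x) ≤ 4 * (T + 1) * (M * s / c) :=
      mul_le_mul_of_nonneg_left hl (by positivity)
    have h2 : 4 * (T + 1) * M / c * s ≤ B * s := mul_le_mul_of_nonneg_right hB1 s0.le
    have h3 : 4 * (T + 1) * (M * s / c) = 4 * (T + 1) * M / c * s := by ring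
    linarith
  have ht : |t| ≤ B * s := by
    have := hF.le
    nlinarith
  have hG := hI u x y t s hR s1 hd hF ht (pos_mono hms q1) (pos_mono hms q2)
  obtain ⟨⟨e1, -⟩, e2, -⟩ := hSYM.1 _ u
  have m1 : 0 ≤ mu u x := (hMU _ C u hR.ok).2.1 x
  have m2 : 0 ≤ mu (-u) x := (hMU _ C (-u) (e2 C hR.ok)).2.1 x
  have hBs : 0 < B * s := by positivity
  have hG' : B * s * (mu u x + mu (-u) x) ≤ 1 := by
    rw [Gam, le_div_iff₀ hBs] at hG
    linarith
  have hp4 : 4 * |ps u x| ≤ B * s := by linarith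
  have a0 := abs_nonneg (ps u x)
  obtain ⟨f1, f2⟩ := ph_le m1 (by nlinarith)
  obtain ⟨f3, f4⟩ := ph_le m2 (by
    rw [e1, Pi.neg_apply, abs_neg]
    nlinarith)
  have hGG : GG u x ≤ 101 / 100 * (4 * (mu u x + mu (-u) x)) := by
    unfold GG
    refine max_le (by linarith) (mul_le_mul_of_nonneg_left (max_le ?_ ?_) (by norm_num)) <;> linarith
  have h5 : 5 * M * s ≤ B * s := mul_le_mul_of_nonneg_right hB2 s0.le
  rw [div_le_iff₀ (by positivity)] at g1
  have h6 : GG u x * (M * s) ≤ 101 / 100 * (4 * (mu u x + mu (-u) x)) * (M * s) :=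
    mul_le_mul_of_nonneg_right hGG (by positivity)
  have h7 : 5 * M * s * (mu u x + mu (-u) x) ≤ B * s * (mu u x + mu (-u) x) :=
    mul_le_mul_of_nonneg_right h5 (by linarith)
  nlinarith

end Vale.Agent.P134C
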