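import Vale.Agent.P134C.D0

/-!
# P134C, block (c): the two-point function and the pointwise interfaces
-/

open MeasureTheory Metric Filter Topology Set
open scoped ContDiff RealInnerProductSpace
open Vale.Agent.P366.Stmt (E)

noncomputable section

namespace Vale.Agent.P134C

open Vale.Agent.P134B

variable {n : ℕ}

def th (u : E n → ℝ) (x : E n) : ℝ := 1 - qq u x / 2
/-- the base function of the main test -/
def ft (u : E n → ℝ) (x : E n) : ℝ := ff u x * th u x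
/-- the potential of `ft` -/
def Pt (u : E n → ℝ) (x : E n) : ℝ := (hs (SS u x) + PP u x * qq u x / 2) / th u x
/-- the Laplacian with the weight `ft²` -/
def Lt (u φ : E n → ℝ) (x : E n) : ℝ :=
  Lf u φ x + 2 / th u x * ⟪gradient (th u) x, gradient φ x⟫
/-- the two-point quotient -/
def Zq (u : E n → ℝ) (x z : E n) : ℝ :=
  2 * (ps u x + ⟪pp u x, z⟫ - ps u (x + z)) / ‖z‖ ^ 2
/-- the opening of the paraboloid which touches `ps u` from below at `x` -/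
def mu (u : E n → ℝ) (x : E n) : ℝ := ⨆ z, Zq u x z
/-- `1 / om`, `om = ps + th / mu`, cut at `1` -/
def ph (u : E n → ℝ) (x : E n) : ℝ := mu u x / max (th u x + ps u x * mu u x) (mu u x)
/-- the two-point function -/
def GG (u : E n → ℝ) (x : E n) : ℝ :=
  max (ph u x + ph (-u) x) (101 / 100 * max (ph u x) (ph (-u) x))
def Gam (u : E n → ℝ) (x : E n) : ℝ := mu u x + mu (-u) x
/-- the defect -/
def df (u : E n → ℝ) (x : E n) : ℝ := max 0 (ps u x * (ph (-u) x - ph u x))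
/-- the distance to the bad set -/
def dd (δ : ℝ) (u : E n → ℝ) (x : E n) : ℝ := infDist x (Bad δ u)
/-- the gain density -/
def Gn (u : E n → ℝ) (x : E n) : ℝ :=
  ff u x ^ 2 * hs (SS u x) + ff u x ^ 2 * PP u x + EE u x / (1 + ps u x ^ 2)
/-- the unit normal -/
def nu (u : E n → ℝ) (x : E n) : E n := ‖pp u x‖⁻¹ • pp u x

/-- the standing hypotheses of block (c) -/
structure Rt (C δ : ℝ) (u : E n → ℝ) : Prop where
  ok : Ok C u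
  st : Stab u
  d0 : 0 < δ
  ne : (Bad δ u).Nonempty
  rt : ∀ x, EE u x * dd δ u x ^ 2 ≤ C

/-- lower supports of `GG u` at the points with `0 < GG ≤ g₀` -/
def Sup (ι g₀ : ℝ) (u : E n → ℝ) : Prop := ∀ x, 0 < GG u x → GG u x ≤ g₀ → ∀ η > (0 : ℝ),
  ∃ φ : E n → ℝ, ContDiffAt ℝ 2 φ x ∧ φ x = GG u x ∧ (∀ᶠ y in 𝓝 x, φ y ≤ GG u y) ∧
    -(Pt u x * GG u x * (1 + ι + 100 / 99 * df u x)) + 99 / 50 * ‖gradient φ x‖ ^ 2 / GG u x - η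
      ≤ Lt u φ x

/-- local Lipschitz bound -/
def Lip (A : ℝ) (u : E n → ℝ) : Prop := ∀ x y, ‖x - y‖ ≤ 1 →
  |GG u x - GG u y| ≤ A * (1 + |ps u x|) ^ 3 * ‖x - y‖

/-- local semiconvexity -/
def Scv (u : E n → ℝ) : Prop := ∀ x₀, GG u x₀ < 1 / 2 → ∃ r > (0 : ℝ), ∃ A : ℝ,
  ∀ x ∈ ball x₀ r, ∀ h : E n, ‖h‖ ≤ r →
    -(A * ‖h‖ ^ 2) ≤ GG u (x + h) + GG u (x - h) - 2 * GG u x

/-- **SUP** (E1, E2, E3) -/
def SUP : Prop := ∀ (n : ℕ) (C ι : ℝ), 0 < ι → ∃ g₀ > (0 : ℝ), ∀ u : E n → ℝ, Ok C u → Stab u →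
  Sup ι g₀ u
/-- **LIP** -/
def LIP : Prop := ∀ (n : ℕ) (C : ℝ), ∃ A : ℝ, ∀ u : E n → ℝ, Ok C u → Lip A u
/-- **SCV** -/
def SCV : Prop := ∀ (n : ℕ) (C : ℝ) (u : E n → ℝ), Ok C u → Scv u
/-- **QG** -/
def QG : Prop := ∀ (n : ℕ) (C M : ℝ), ∃ A : ℝ, ∃ γ₀ > (0 : ℝ), ∀ (u : E n → ℝ) (x : E n) (γ : ℝ),
  Ok C u → Stab u → 0 < γ → γ ≤ γ₀ → Gam u x ≤ γ → |ps u x| ≤ M * lg γ →
  qq u x ≤ A * (γ * √γ)
/-- **WK**: the weak form, `k` is the derivative of the multiplier -/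
def WK : Prop := ∀ (n : ℕ) (C A ι a g₀ l : ℝ) (u ζ : E n → ℝ) (k : ℝ → ℝ), Ok C u → Sup ι g₀ u →
  Lip A u → Scv u → Wt l ζ → ContDiff ℝ 1 k → (∀ t, 0 ≤ k t) → (∀ t, t ≤ a ∨ g₀ ≤ t → k t = 0) →
  0 < a → g₀ ≤ 1 / 4 →
  ∫ x, ft u x ^ 2 * (deriv k (GG u x) + 99 / 50 * k (GG u x) / GG u x) *
      ‖gradient (GG u) x‖ ^ 2 * ζ x ^ 2 ≤
    ∫ x, ft u x ^ 2 * Pt u x * (k (GG u x) * GG u x) * (1 + ι + 100 / 99 * df u x) * ζ x ^ 2 +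
      2 * l * ∫ x, ft u x ^ 2 * k (GG u x) * ‖gradient (GG u) x‖ * ζ x ^ 2
/-- **NB**: near the bad set -/
def NB : Prop := ∀ (n : ℕ) (C δ : ℝ), ∃ c > (0 : ℝ), ∀ (u : E n → ℝ) (x : E n), Rt C δ u →
  dd δ u x < 1 → c ≤ ft u x ^ 2 * Pt u x ∧ c ≤ GG u x
/-- **SUPP**: far from the bad set the function `GG` is small at moderate depth -/
def SUPP : Prop := ∀ (m : ℕ) (C δ M : ℝ), ∃ c > (0 : ℝ), ∃ d₀ > (1 : ℝ),
  ∀ (u : E (m + 1) → ℝ) (x : E (m + 1)), Rt C δ u → d₀ ≤ dd δ u x →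
  |ps u x| ≤ M * Real.log (dd δ u x) → GG u x * (c * Real.log (dd δ u x)) ≤ 1

end Vale.Agent.P134C
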