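import Vale.Agent.P134C.Top
import Vale.Agent.P134J.Om

/-!
# P134C, rows DT and STT: the standing data and the stability with the base function `ft`
-/

open Filter Topology Metric
open scoped ContDiff RealInnerProductSpace
open Vale.Agent.P366.Stmt (E)
open Vale.Agent.P134B Vale.Agent.P134T Vale.Agent.P134J

noncomputable section

namespace Vale.Agent.P134C

variable {n : ℕ} {C : ℝ} {u : E n → ℝ}

namespace Dta

theorem th_le (h : Ok C u) (x : E n) : th u x ≤ 1 := by
  have := h.q0 x
  unfold th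
  linarith

theorem cd_ft (h : Ok C u) : ContDiff ℝ ∞ (ft u) := h.tcf.mul (cd_th h)

theorem grad_ft (h : Ok C u) (x : E n) : gradient (ft u) x =
    ff u x • gradient (th u) x + th u x • (-(√2 * u x * ff u x)) • pp u x := by
  rw [← h.gf]
  exact grad_mul (d2 (c2 h.tcf) x) (d2 (c2 (cd_th h)) x)

theorem lap_ft (h : Ok C u) (x : E n) :
    lap (ft u) x - (3 * u x ^ 2 - 1) * ft u x = Pt u x * ft u x := by
  have a := Lf_th h x
  have t := (th_pos u x).ne'
  have e : Pt u x * ft u x = ff u x * (hs (SS u x) + PP u x * qq u x / 2) := by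
    unfold Pt ft
    field_simp
  rw [Lf] at a
  rw [e, show lap (ft u) x = _ from lap_mul (c2 h.tcf) (c2 (cd_th h)) x, h.tlf, h.gf,
    real_inner_smul_left]
  simp only [ft, EE, PP, th] at a ⊢
  linear_combination ff u x * a

theorem hh_Lt (h : Ok C u) (φ : E n → ℝ) (x : E n) :
    hh u x * lap φ x + ⟪gradient (hh u) x, gradient φ x⟫ = hh u x * Lt u φ x := by
  have t := (th_pos u x).ne'
  have d := d2 (c2 (cd_ft h)) x
  rw [show hh u = fun y => ft u y * ft u y from funext fun y => sq _, grad_mul d d, grad_ft h]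
  simp only [inner_add_left, real_inner_smul_left, Lt, Lf, ft]
  field_simp
  ring

theorem c_SS (h : Ok C u) : Continuous (SS u) := h.tcp.continuous_fderiv (by simp)

theorem c_hs (h : Ok C u) : Continuous fun x => hs (SS u x) :=
  continuous_finsetSum _ fun _ _ => ((c_SS h).clm_apply continuous_const).norm.pow 2

theorem c_PP (h : Ok C u) : Continuous (PP u) :=
  (continuous_const.mul h.tcf.continuous).mul (cd_qq h).continuous

theorem c_Pt (h : Ok C u) : Continuous (Pt u) :=
  ((c_hs h).add (((c_PP h).mul (cd_qq h).continuous).div_const _)).div (cd_th h).continuous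
    fun x => (th_pos u x).ne'

theorem hs_le' (h : Ok C u) (x : E n) : hs (SS u x) ≤ n * C ^ 2 := by
  refine (Finset.sum_le_card_nsmul _ _ (C ^ 2) fun i _ => ?_).trans (by simp)
  refine pow_le_pow_left₀ (norm_nonneg _) (((SS u x).le_opNorm _).trans ?_) 2
  simpa using h.tS_le x

theorem hs_nn (A : E n →L[ℝ] E n) : 0 ≤ hs A := Finset.sum_nonneg fun _ _ => sq_nonneg _

theorem PP_bd (h : Ok C u) (x : E n) : 0 ≤ PP u x ∧ PP u x ≤ 2 := by
  have b2 : √2 ≤ 2 := Real.sqrt_le_iff.2 ⟨by norm_num, by norm_num⟩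
  have := h.tff_pos x
  have := h.q0 x
  refine ⟨by unfold PP; positivity, ?_⟩
  calc PP u x ≤ 2 * 1 * 1 := by
        unfold PP
        gcongr
        exacts [ff_le u x, qq_le u x]
    _ = 2 := by norm_num

theorem mu_nn (u : E n → ℝ) (x : E n) : 0 ≤ mu u x := Real.iSup_nonneg' ⟨0, by simp [Zq]⟩

theorem dn_pos (u : E n → ℝ) (x : E n) : 0 < max (th u x + ps u x * mu u x) (mu u x) := by
  rcases (mu_nn u x).eq_or_lt with e | e
  · rw [← e, mul_zero, add_zero]
    exact lt_max_of_lt_left (th_pos u x)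
  · exact lt_max_of_lt_right e

theorem ph_bd (u : E n → ℝ) (x : E n) : 0 ≤ ph u x ∧ ph u x ≤ 1 :=
  ⟨div_nonneg (mu_nn u x) (dn_pos u x).le, (div_le_one (dn_pos u x)).2 (le_max_right _ _)⟩

theorem c_mu (hm : P134W.MU) (h : Ok C u) : Continuous (mu u) :=
  (LipschitzWith.of_dist_le' (K := 2 * C) fun x y => by
    rw [Real.dist_eq, dist_eq_norm]
    exact (hm n C u h).2.2.2.2.2.1 y x).continuous

theorem c_ph (hm : P134W.MU) (h : Ok C u) : Continuous (ph u) :=
  (c_mu hm h).div (((cd_th h).continuous.add (h.smp.continuous.mul (c_mu hm h))).max (c_mu hm h))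
    fun x => (dn_pos u x).ne'

theorem df_bd (u : E n → ℝ) (x : E n) : 0 ≤ df u x ∧ df u x ≤ |ps u x| := by
  refine ⟨le_max_left _ _, max_le (abs_nonneg _) ((le_abs_self _).trans ?_)⟩
  have := ph_bd u x
  have := ph_bd (-u) x
  rw [abs_mul]
  exact mul_le_of_le_one_right (abs_nonneg _) (abs_le.2 ⟨by linarith, by linarith⟩)

theorem Xd_bd (h : Ok C u) (x : E n) : 0 ≤ Xd u x ∧ Xd u x ≤ 2 * |ps u x| * Pt u x := by
  have := df_bd u x
  have := Pt_nn h x
  unfold Xd
  split_ifs
  · exact ⟨by have := (df_bd u x).1; positivity, by nlinarith⟩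
  · exact ⟨le_rfl, by positivity⟩

theorem ll_GG (h : Ok C u) {A : ℝ} (hA : Lip A u) : LocallyLipschitz (GG u) := fun x => by
  refine ⟨(|A| * (2 + |ps u x|) ^ 3).toNNReal, ball x (1 / 2), ball_mem_nhds x (by norm_num),
    LipschitzOnWith.of_dist_le_mul fun y hy z hz => ?_⟩
  rw [mem_ball, dist_eq_norm] at hy hz
  have a : ‖y - z‖ ≤ 1 := by linarith [norm_sub_le_norm_sub_add_norm_sub y x z, norm_sub_rev x z]
  have b : |ps u y| ≤ 1 + |ps u x| := by
    linarith [abs_sub_abs_le_abs_sub (ps u y) (ps u x), h.tlip x y]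
  rw [Real.dist_eq, dist_eq_norm, Real.coe_toNNReal _ (by positivity)]
  have c : 1 + |ps u y| ≤ 2 + |ps u x| := by linarith
  refine (hA y z a).trans (mul_le_mul_of_nonneg_right (mul_le_mul (le_abs_self A) ?_
    (by positivity) (abs_nonneg A)) (norm_nonneg _))
  exact pow_le_pow_left₀ (by positivity) c 3

theorem hh_Pt (h : Ok C u) (x : E n) :
    hh u x * Pt u x ≤ ff u x ^ 2 * hs (SS u x) + ff u x ^ 2 * PP u x := by
  have t := th_pos u x
  have e : hh u x * Pt u x = ff u x ^ 2 * (th u x * (hs (SS u x) + PP u x * qq u x / 2)) := by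
    unfold hh Pt ft
    field_simp
  have a := mul_le_of_le_one_right (PP_bd h x).1 (qq_le u x)
  have b := mul_nonneg (PP_bd h x).1 (h.q0 x)
  rw [e, ← mul_add]
  refine mul_le_mul_of_nonneg_left ((mul_le_of_le_one_left ?_ (th_le h x)).trans ?_) (sq_nonneg _)
  · linarith [hs_nn (SS u x)]
  · linarith [(PP_bd h x).1]

theorem f_ps (h : Ok C u) (x : E n) : ff u x * |ps u x| ≤ 2 := by
  have a := Real.add_one_le_exp (√2 * |ps u x|)
  have b : Real.exp (-(√2 * |ps u x|)) * Real.exp (√2 * |ps u x|) = 1 := by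
    rw [← Real.exp_add]; simp
  nlinarith [mul_le_mul_of_nonneg_right (h.fhi x) (abs_nonneg (ps u x)),
    Real.exp_pos (-(√2 * |ps u x|))]

end Dta

open Dta

theorem dt : rDT := fun hm sy lip n C u h => by
  have h' := (sy.1 n u).2.1 C h
  obtain ⟨A, hA⟩ := lip n C
  have cf := h.tcf.continuous
  have cd : Continuous (df u) :=
    continuous_const.max (h.smp.continuous.mul ((c_ph hm h').sub (c_ph hm h)))
  have f1 : ∀ x, ff u x ^ 2 ≤ 1 := fun x => pow_le_one₀ (h.tff_pos x).le (ff_le u x)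
  have e0 : ∀ x, 0 ≤ EE u x / (1 + ps u x ^ 2) := fun x => div_nonneg (h.tEE_nn x) (by positivity)
  refine ⟨(cd_ft h).continuous.pow 2, c_Pt h, (((cf.pow 2).mul (c_hs h)).add
    ((cf.pow 2).mul (c_PP h))).add (((cf.pow 2).mul (cd_qq h).continuous).div
      (continuous_const.add (h.smp.continuous.pow 2)) fun x => by positivity),
    Measurable.ite (measurableSet_le measurable_const cd.measurable)
      ((continuous_const.mul cd).mul (c_Pt h)).measurable measurable_const,
    ll_GG h (hA u h), fun x => sq_nonneg _, fun x => ?_, Pt_nn h, fun x => (Xd_bd h x).1,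
    fun x => le_max_of_le_left (add_nonneg (ph_bd u x).1 (ph_bd _ x).1),
    fun x => (hh_Pt h x).trans (le_add_of_nonneg_right (e0 x)),
    4 * (n * C ^ 2 + 2) + 1, fun x => ⟨?_, ?_⟩⟩
  · exact pow_le_one₀ (mul_pos (h.tff_pos x) (th_pos u x)).le
      (mul_le_one₀ (ff_le u x) (th_pos u x).le (th_le h x))
  · have a : EE u x / (1 + ps u x ^ 2) ≤ 1 := (div_le_one (by positivity)).2
      ((mul_le_one₀ (f1 x) (h.q0 x) (qq_le u x)).trans (le_add_of_nonneg_right (sq_nonneg _)))
    have b := mul_le_of_le_one_left (hs_nn (SS u x)) (f1 x)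
    have c := mul_le_of_le_one_left (PP_bd h x).1 (f1 x)
    unfold Gn
    linarith [hs_le' h x, (PP_bd h x).2, hs_nn (SS u x)]
  · have a := mul_le_mul_of_nonneg_left (Xd_bd h x).2 (sq_nonneg (ft u x))
    have b := mul_le_mul_of_nonneg_left (hh_Pt h x) (abs_nonneg (ps u x))
    have c : ff u x * |ps u x| * ff u x ≤ 2 * 1 :=
      mul_le_mul (f_ps h x) (ff_le u x) (h.tff_pos x).le (by norm_num)
    have d := mul_le_mul c (add_le_add (hs_le' h x) (PP_bd h x).2)
      (add_nonneg (hs_nn _) (PP_bd h x).1) (by norm_num)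
    unfold hh at b ⊢
    nlinarith

theorem stt : rSTT := fun st n C u h hs ξ hξ hc => by
  have k := st n C u (ft u) ξ h hs (c2 (cd_ft h)) hξ.locallyLipschitz hc
  simp only [lap_ft h] at k
  refine le_of_eq_of_le (MeasureTheory.integral_congr_ae (Eventually.of_forall fun x => ?_)) k
  simp only [hh]
  ring

end Vale.Agent.P134C
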