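import Vale.Agent.P134C.D0

/-!
# P134C: counting with a kernel
-/

open MeasureTheory Metric Filter Topology Set
open scoped RealInnerProductSpace ENNReal
open Vale.Agent.P366.Stmt (E)

noncomputable section

namespace Vale.Agent.P134C

open Vale.Agent.P134B

variable {n : ℕ}

theorem Wt.int_sq {l : ℝ} {ζ : E n → ℝ} (h : Wt l ζ) : Integrable (fun x => ζ x ^ 2) := by
  refine h.int.mono' ((h.sm.continuous.pow 2).aestronglyMeasurable) (ae_of_all _ fun x => ?_)
  have h1 := h.pos x
  have h2 := h.le x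
  rw [Real.norm_eq_abs, abs_of_nonneg (by positivity)]
  nlinarith

theorem ker : KER := by
  intro n
  set V : ℝ≥0∞ := volume (ball (0 : E n) 1) with hV
  have hV0 : V ≠ 0 := (measure_ball_pos _ _ one_pos).ne'
  have hVt : V ≠ ∞ := measure_ball_lt_top.ne
  have hVr : 0 < V.toReal := ENNReal.toReal_pos hV0 hVt
  refine ⟨V.toReal⁻¹, inv_pos.2 hVr, ?_⟩
  intro B l A ζ g K hB hζ hg hgm hK hK0 hpt hKi
  set N : Set (E n) := {x | infDist x B < 1} with hN
  have hNm : MeasurableSet N :=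
    (isOpen_lt (continuous_infDist_pt B) continuous_const).measurableSet
  have hA : 0 ≤ A := le_trans (integral_nonneg fun x => hK0 x 0) (hKi 0).2
  have hζm : Measurable fun y => ENNReal.ofReal (ζ y ^ 2) :=
    (hζ.sm.continuous.pow 2).measurable.ennreal_ofReal
  have hXi0 : 0 ≤ Xi B ζ := integral_nonneg fun x => by positivity
  have hXi : ∫⁻ y in N, ENNReal.ofReal (ζ y ^ 2) = ENNReal.ofReal (Xi B ζ) := by
    rw [Xi, ofReal_integral_eq_lintegral_ofReal hζ.int_sq.integrableOn
      (ae_of_all _ fun x => by positivity)]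
  have h1 : ∀ᵐ x, ENNReal.ofReal (g x * ζ x ^ 2) * V ≤
      ∫⁻ y in N, ENNReal.ofReal (K x y) * ENNReal.ofReal (ζ y ^ 2) := by
    filter_upwards [hpt] with x hx
    obtain ⟨z, hzB, hz⟩ := (infDist_lt_iff hB).1 (lt_add_one (infDist x B))
    have hsub : ball z 1 ⊆ N := fun y hy =>
      lt_of_le_of_lt (infDist_le_dist_of_mem hzB) (mem_ball.1 hy)
    have hvol : volume (ball z 1) = V := by rw [hV, Measure.addHaar_ball_center]
    calc ENNReal.ofReal (g x * ζ x ^ 2) * V
        = ∫⁻ _ in ball z 1, ENNReal.ofReal (g x * ζ x ^ 2) := by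
          rw [setLIntegral_const, hvol]
      _ ≤ ∫⁻ y in ball z 1, ENNReal.ofReal (K x y) * ENNReal.ofReal (ζ y ^ 2) := by
          refine setLIntegral_mono' measurableSet_ball fun y hy => ?_
          rw [← ENNReal.ofReal_mul (hK0 x y)]
          refine ENNReal.ofReal_le_ofReal (hx y (hsub hy) ?_)
          have h2 : dist x y ≤ dist x z + dist y z := dist_triangle_right x y z
          have h3 := mem_ball.1 hy
          rw [← dist_eq_norm]
          linarith
      _ ≤ _ := lintegral_mono_set hsub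
  have hKm : Measurable fun q : E n × E n =>
      ENNReal.ofReal (K q.1 q.2) * ENNReal.ofReal (ζ q.2 ^ 2) :=
    hK.ennreal_ofReal.mul (hζm.comp measurable_snd)
  have h2 : (∫⁻ x, ENNReal.ofReal (g x * ζ x ^ 2)) * V ≤
      ENNReal.ofReal A * ENNReal.ofReal (Xi B ζ) := by
    calc (∫⁻ x, ENNReal.ofReal (g x * ζ x ^ 2)) * V
        = ∫⁻ x, ENNReal.ofReal (g x * ζ x ^ 2) * V := by
          rw [lintegral_mul_const' _ _ hVt]
      _ ≤ ∫⁻ x, ∫⁻ y in N, ENNReal.ofReal (K x y) * ENNReal.ofReal (ζ y ^ 2) :=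
          lintegral_mono_ae h1
      _ = ∫⁻ y in N, ∫⁻ x, ENNReal.ofReal (K x y) * ENNReal.ofReal (ζ y ^ 2) :=
          lintegral_lintegral_swap hKm.aemeasurable
      _ ≤ ∫⁻ y in N, ENNReal.ofReal A * ENNReal.ofReal (ζ y ^ 2) := by
          refine lintegral_mono fun y => ?_
          rw [lintegral_mul_const' _ _ ENNReal.ofReal_ne_top]
          refine mul_le_mul_left ?_ _
          rw [← ofReal_integral_eq_lintegral_ofReal (hKi y).1 (ae_of_all _ fun x => hK0 x y)]
          exact ENNReal.ofReal_le_ofReal (hKi y).2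
      _ = ENNReal.ofReal A * ENNReal.ofReal (Xi B ζ) := by
          rw [lintegral_const_mul' _ _ ENNReal.ofReal_ne_top, hXi]
  have hm : AEStronglyMeasurable (fun x => g x * ζ x ^ 2) :=
    hgm.mul (hζ.sm.continuous.pow 2).aestronglyMeasurable
  have hnn : 0 ≤ᵐ[volume] fun x => g x * ζ x ^ 2 :=
    ae_of_all _ fun x => mul_nonneg (hg x) (sq_nonneg _)
  have hfin : (∫⁻ x, ENNReal.ofReal (g x * ζ x ^ 2)) ≠ ∞ := by
    intro h
    rw [h, ENNReal.top_mul hV0] at h2
    exact (ENNReal.mul_ne_top ENNReal.ofReal_ne_top ENNReal.ofReal_ne_top) (top_le_iff.1 h2)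
  have hint : Integrable (fun x => g x * ζ x ^ 2) :=
    ⟨hm, (hasFiniteIntegral_iff_ofReal hnn).2 (lt_top_iff_ne_top.2 hfin)⟩
  refine ⟨hint, ?_⟩
  rw [integral_eq_lintegral_of_nonneg_ae hnn hm]
  have h3 := ENNReal.toReal_mono
    (ENNReal.mul_ne_top ENNReal.ofReal_ne_top ENNReal.ofReal_ne_top) h2
  rw [ENNReal.toReal_mul, ENNReal.toReal_mul, ENNReal.toReal_ofReal hA,
    ENNReal.toReal_ofReal hXi0] at h3
  rw [mul_assoc, ← div_eq_inv_mul, le_div_iff₀ hVr]
  exact h3

theorem cnt : CNT := by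
  intro n
  obtain ⟨C, hC, hk⟩ := ker n
  have hI : Integrable (fun x : E n => (1 + ‖x‖) ^ (-((n : ℝ) + 1))) := by
    refine integrable_one_add_norm ?_
    simp
  set I : ℝ := ∫ x : E n, (1 + ‖x‖) ^ (-((n : ℝ) + 1)) with hIdef
  have hI0 : 0 ≤ I := integral_nonneg fun x => by positivity
  set c : ℝ := 3 ^ (5 * n + 5) * 4 ^ (n + 1) with hc
  have hc0 : 0 < c := by positivity
  refine ⟨C * (c * (I + 1)), by positivity, ?_⟩
  intro B l A ζ g hB hζ hg hgm hpt
  have hA : 0 ≤ A := by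
    obtain ⟨x, hx⟩ := hpt.exists
    have := infDist_nonneg (x := x) (s := B)
    exact le_trans (mul_nonneg (hg x) (by positivity)) hx
  have hXi0 : 0 ≤ Xi B ζ := integral_nonneg fun x => by positivity
  have key := hk B l (A * c * I) ζ g (fun x y => A * c * (1 + ‖x - y‖) ^ (-((n : ℝ) + 1))) hB hζ
    hg hgm ?_ (fun x y => by positivity) ?_ ?_
  · refine ⟨key.1, key.2.trans ?_⟩
    refine mul_le_mul_of_nonneg_right ?_ hXi0
    have : 0 ≤ C * A * c := by positivity
    nlinarith
  · refine Measurable.const_mul ?_ _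
    refine Measurable.pow_const ?_ _
    exact ((measurable_fst.sub measurable_snd).norm).const_add 1
  · filter_upwards [hpt] with x hx y _ hy
    have hd := infDist_nonneg (x := x) (s := B)
    set d := infDist x B
    set r := ‖x - y‖
    have hr : 0 ≤ r := norm_nonneg _
    have hζx := hζ.pos x
    have hζy := hζ.pos y
    have h1 : ζ x ≤ 2 ^ (n + 1) * (1 + r) ^ (2 * (n + 1)) * ζ y := by
      refine (hζ.pe x y).trans ?_
      rw [pow_mul]
      gcongr
      nlinarith
    have h2 : ζ x ^ 2 ≤ 4 ^ (n + 1) * (1 + r) ^ (4 * (n + 1)) * ζ y ^ 2 := by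
      calc ζ x ^ 2 ≤ (2 ^ (n + 1) * (1 + r) ^ (2 * (n + 1)) * ζ y) ^ 2 := by gcongr
        _ = _ := by
          rw [show (4 : ℝ) = 2 ^ 2 by norm_num, mul_pow, mul_pow, ← pow_mul, ← pow_mul, ← pow_mul]
          congr 2 <;> congr 1 <;> ring
    have h3 : (1 + r) ^ (5 * n + 5) ≤ 3 ^ (5 * n + 5) * (1 + d) ^ (5 * n + 5) := by
      rw [← mul_pow]
      gcongr
      linarith
    have h4 : g x * (1 + r) ^ (5 * n + 5) ≤ 3 ^ (5 * n + 5) * A := by
      calc g x * (1 + r) ^ (5 * n + 5) ≤ g x * (3 ^ (5 * n + 5) * (1 + d) ^ (5 * n + 5)) := by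
            have := hg x
            gcongr
        _ = 3 ^ (5 * n + 5) * (g x * (1 + d) ^ (5 * n + 5)) := by ring
        _ ≤ _ := by gcongr
    have h5 : (1 + r) ^ (-((n : ℝ) + 1)) = ((1 + r) ^ (n + 1))⁻¹ := by
      rw [Real.rpow_neg (by positivity), ← Real.rpow_natCast]
      push_cast
      rfl
    have h6 : (0 : ℝ) < (1 + r) ^ (n + 1) := by positivity
    rw [h5, mul_assoc (A * c), mul_comm (_⁻¹), ← div_eq_mul_inv, ← mul_div_assoc, le_div_iff₀ h6]
    calc g x * ζ x ^ 2 * (1 + r) ^ (n + 1)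
        ≤ g x * (4 ^ (n + 1) * (1 + r) ^ (4 * (n + 1)) * ζ y ^ 2) * (1 + r) ^ (n + 1) := by
          have := hg x
          gcongr
      _ = (g x * (1 + r) ^ (5 * n + 5)) * (4 ^ (n + 1) * ζ y ^ 2) := by ring
      _ ≤ (3 ^ (5 * n + 5) * A) * (4 ^ (n + 1) * ζ y ^ 2) := by gcongr
      _ = A * c * ζ y ^ 2 := by rw [hc]; ring
  · intro y
    refine ⟨(hI.comp_sub_right y).const_mul _, ?_⟩
    rw [integral_const_mul, integral_sub_right_eq_self
      (fun x : E n => (1 + ‖x‖) ^ (-((n : ℝ) + 1))) y]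

theorem cnr : CNR := by
  intro n
  obtain ⟨C, hC, hk⟩ := ker n
  refine ⟨C * Real.exp 1 ^ 2, by positivity, ?_⟩
  intro B l A R ζ g hB hζ hl hlR hg hgm hz hi
  have hK : ∀ y : E n, (fun x : E n => Real.exp 1 ^ 2 * if ‖x - y‖ < R + 2 then g x else 0) =
      fun x => Real.exp 1 ^ 2 * (ball y (R + 2)).indicator g x := by
    intro y
    funext x
    simp only [indicator, mem_ball, dist_eq_norm]
  have key := hk B l (Real.exp 1 ^ 2 * A) ζ g
    (fun x y => Real.exp 1 ^ 2 * if ‖x - y‖ < R + 2 then g x else 0) hB hζ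
    hg hgm.aestronglyMeasurable ?_ (fun x y => ?_) ?_ ?_
  · refine ⟨key.1, key.2.trans (le_of_eq ?_)⟩
    ring
  · refine Measurable.const_mul ?_ _
    refine Measurable.ite ?_ (hgm.comp measurable_fst) measurable_const
    exact measurableSet_lt (measurable_fst.sub measurable_snd).norm measurable_const
  · have := hg x
    split_ifs <;> positivity
  · refine ae_of_all _ fun x y _ hy => ?_
    by_cases hx : R < infDist x B
    · rw [hz x hx]
      simp
    · have hr : ‖x - y‖ < R + 2 := by linarith [not_lt.1 hx]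
      rw [if_pos hr]
      have hζx := hζ.pos x
      have hζy := hζ.pos y
      have h1 : ζ x ≤ Real.exp 1 * ζ y := by
        refine (hζ.ex x y).trans ?_
        gcongr
        nlinarith
      have h2 : ζ x ^ 2 ≤ (Real.exp 1 * ζ y) ^ 2 := by gcongr
      have := hg x
      calc g x * ζ x ^ 2 ≤ g x * (Real.exp 1 * ζ y) ^ 2 := by gcongr
        _ = _ := by ring
  · intro y
    rw [hK y]
    refine ⟨((integrable_indicator_iff measurableSet_ball).2 (hi y).1).const_mul _, ?_⟩
    rw [integral_const_mul, integral_indicator measurableSet_ball]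
    have := (hi y).2
    gcongr

end Vale.Agent.P134C
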