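import Vale.Agent.P134H.E4q
import Vale.Agent.P134C.Ker

/-!
# P134C, row E4: the defect of the two-point inequality
-/

open MeasureTheory Metric Filter Topology Set
open scoped RealInnerProductSpace ENNReal
open Vale.Agent.P366.Stmt (E)

noncomputable section

namespace Vale.Agent.P134C

open Vale.Agent.P134B Vale.Agent.P134H

namespace E4a

variable {n : ℕ}

theorem pee {l : ℝ} {ζ : E n → ℝ} (hζ : Wt l ζ) (x y : E n) :
    ζ x ^ 2 ≤ 4 ^ (n + 1) * (1 + ‖x - y‖) ^ (4 * (n + 1)) * ζ y ^ 2 := by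
  have hr := norm_nonneg (x - y)
  have hx := hζ.pos x
  have hy := hζ.pos y
  have h1 : ζ x ≤ 2 ^ (n + 1) * (1 + ‖x - y‖) ^ (2 * (n + 1)) * ζ y := by
    refine (hζ.pe x y).trans ?_
    rw [pow_mul]
    gcongr
    nlinarith
  calc ζ x ^ 2 ≤ (2 ^ (n + 1) * (1 + ‖x - y‖) ^ (2 * (n + 1)) * ζ y) ^ 2 := by gcongr
    _ = _ := by
      rw [show (4 : ℝ) = 2 ^ 2 by norm_num, mul_pow, mul_pow, ← pow_mul, ← pow_mul, ← pow_mul]
      congr 2 <;> congr 1 <;> ring

/-- comparison of two densities on unit balls -/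
theorem cmp (n : ℕ) : ∃ K > (0 : ℝ), ∀ (l : ℝ) (ζ g Y : E n → ℝ), Wt l ζ → (∀ x, 0 ≤ g x) →
    Measurable g → (∀ y, 0 ≤ Y y) → Measurable Y → Integrable (fun y => Y y * ζ y ^ 2) →
    (∀ x, g x = 0 ∨ ∃ z, ∀ y ∈ ball z 1, g x * (1 + ‖x - y‖) ^ (5 * n + 5) ≤ Y y) →
    Integrable (fun x => g x * ζ x ^ 2) ∧ ∫ x, g x * ζ x ^ 2 ≤ K * ∫ y, Y y * ζ y ^ 2 := by
  set V : ℝ≥0∞ := volume (ball (0 : E n) 1) with hV
  have hV0 : V ≠ 0 := (measure_ball_pos _ _ one_pos).ne'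
  have hVr : 0 < V.toReal := ENNReal.toReal_pos hV0 measure_ball_lt_top.ne
  set k : E n → ℝ := fun w => 4 ^ (n + 1) * (1 + ‖w‖) ^ (-((n : ℝ) + 1)) with hk
  have k0 : ∀ w, 0 ≤ k w := fun w => by positivity
  have ki : Integrable k := (integrable_one_add_norm (by simp)).const_mul _
  have km : Measurable k := ((measurable_norm.const_add 1).pow_const _).const_mul _
  have I0 : 0 ≤ ∫ w, k w := integral_nonneg k0
  refine ⟨(∫ w, k w) / V.toReal + 1, by positivity,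
    fun l ζ g Y hζ g0 gm Y0 Ym Yi H => ?_⟩
  have ζm := (hζ.sm.continuous.pow 2).measurable
  have J0 : 0 ≤ ∫ y, Y y * ζ y ^ 2 := integral_nonneg fun y => mul_nonneg (Y0 y) (sq_nonneg _)
  have h1 : ∀ x, ENNReal.ofReal (g x * ζ x ^ 2) * V ≤
      ∫⁻ y, ENNReal.ofReal (k (x - y)) * ENNReal.ofReal (Y y * ζ y ^ 2) := fun x => by
    rcases H x with e | ⟨z, hz⟩
    · simp [e]
    rw [hV, ← Measure.addHaar_ball_center volume z, ← setLIntegral_const]
    refine (setLIntegral_mono' measurableSet_ball fun y hy => ?_).trans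
      (setLIntegral_le_lintegral _ _)
    rw [← ENNReal.ofReal_mul (k0 _)]
    refine ENNReal.ofReal_le_ofReal ?_
    have h5 : (1 + ‖x - y‖) ^ (-((n : ℝ) + 1)) = ((1 + ‖x - y‖) ^ (n + 1))⁻¹ := by
      rw [Real.rpow_neg (by positivity), ← Real.rpow_natCast]
      push_cast
      rfl
    have h6 : (0 : ℝ) < (1 + ‖x - y‖) ^ (n + 1) := by positivity
    have := g0 x
    simp only [hk]
    rw [h5, mul_right_comm, ← div_eq_mul_inv, le_div_iff₀ h6]
    calc _ ≤ g x * (4 ^ (n + 1) * (1 + ‖x - y‖) ^ (4 * (n + 1)) * ζ y ^ 2) *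
          (1 + ‖x - y‖) ^ (n + 1) := by gcongr; exact pee hζ x y
      _ = (g x * (1 + ‖x - y‖) ^ (5 * n + 5)) * (4 ^ (n + 1) * ζ y ^ 2) := by ring
      _ ≤ Y y * (4 ^ (n + 1) * ζ y ^ 2) := by gcongr; exact hz y hy
      _ = _ := by ring
  have h2 : (∫⁻ x, ENNReal.ofReal (g x * ζ x ^ 2)) * V ≤
      ENNReal.ofReal (∫ w, k w) * ENNReal.ofReal (∫ y, Y y * ζ y ^ 2) := by
    rw [← lintegral_mul_const' _ _ measure_ball_lt_top.ne]
    refine (lintegral_mono h1).trans (le_of_eq ?_)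
    rw [lintegral_lintegral_swap (((km.comp (measurable_fst.sub measurable_snd)).ennreal_ofReal.mul
      (((Ym.mul ζm).comp measurable_snd).ennreal_ofReal)).aemeasurable),
      ofReal_integral_eq_lintegral_ofReal Yi (ae_of_all _ fun y => mul_nonneg (Y0 y) (sq_nonneg _)),
      ← lintegral_const_mul' _ _ ENNReal.ofReal_ne_top]
    refine lintegral_congr fun y => ?_
    rw [lintegral_mul_const' _ _ ENNReal.ofReal_ne_top,
      ofReal_integral_eq_lintegral_ofReal ki (ae_of_all _ k0),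
      lintegral_sub_right_eq_self (fun w => ENNReal.ofReal (k w)) y]
  have hm := (gm.mul ζm).aestronglyMeasurable (μ := volume)
  have hnn : 0 ≤ᵐ[volume] fun x => g x * ζ x ^ 2 :=
    ae_of_all _ fun x => mul_nonneg (g0 x) (sq_nonneg _)
  have fin := ENNReal.mul_ne_top (ENNReal.ofReal_ne_top (r := ∫ w, k w))
    (ENNReal.ofReal_ne_top (r := ∫ y, Y y * ζ y ^ 2))
  refine ⟨⟨hm, (hasFiniteIntegral_iff_ofReal hnn).2 (lt_top_iff_ne_top.2 fun e => ?_)⟩, ?_⟩
  · rw [e, ENNReal.top_mul hV0] at h2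
    exact fin (top_le_iff.1 h2)
  rw [integral_eq_lintegral_of_nonneg_ae hnn hm]
  have h3 := ENNReal.toReal_mono fin h2
  rw [ENNReal.toReal_mul, ENNReal.toReal_mul, ENNReal.toReal_ofReal I0,
    ENNReal.toReal_ofReal J0, ← le_div_iff₀ hVr, mul_div_right_comm] at h3
  linarith

theorem wt_nn {s t : ℝ} (h : 0 ≤ s * t) : 0 ≤ wt (9 / 4) s t :=
  le_min zero_le_one (Real.rpow_nonneg h _)

theorem wt_cmp {s t t' : ℝ} (s0 : 0 ≤ s) (t0 : 0 ≤ t) (t1 : 0 ≤ t') (h : t ≤ 2160 * t') :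
    wt (9 / 4) s t ≤ 2160 ^ 5 * wt (9 / 4) s t' := by
  rw [wt, wt, mul_min_of_nonneg _ _ (by positivity)]
  refine min_le_min (by norm_num) ?_
  calc _ ≤ (2160 * (s * t')) ^ (2 * (9 / 4) : ℝ) :=
        Real.rpow_le_rpow (by positivity) (by nlinarith) (by norm_num)
    _ = 2160 ^ (2 * (9 / 4) : ℝ) * (s * t') ^ (2 * (9 / 4) : ℝ) :=
        Real.mul_rpow (by norm_num) (by positivity)
    _ ≤ _ := by
      gcongr
      rw [← Real.rpow_natCast]
      exact Real.rpow_le_rpow_of_exponent_le (by norm_num) (by norm_num)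

end E4a

open E4a in
theorem e4 (dt : DT) : E4 := fun m C δ u h η η0 => by
  obtain ⟨K₁, K1, H1⟩ := cnt (m + 1)
  obtain ⟨K₂, K2, H2⟩ := E4a.cmp (m + 1)
  have D := dt _ C u h.ok
  obtain ⟨τ, τ0, τ1, τ2⟩ : ∃ τ > (0 : ℝ), K₁ * τ ≤ η ∧ K₂ * (2160 ^ 5 * τ) ≤ η :=
    ⟨min (η / K₁) (η / K₂ / 2160 ^ 5), by positivity,
      (le_div_iff₀' K1).1 (min_le_left _ _),
      (le_div_iff₀' K2).1 ((le_div_iff₀' (by positivity)).1 (min_le_right _ _))⟩
  obtain ⟨g₀, g0, H⟩ := alt m (5 * (m + 1) + 5) C τ (by omega) τ0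
  refine ⟨1 / g₀, fun s₁ hs₁ s₀ hs₀ => ⟨2160, by norm_num, fun a a0 =>
    ⟨1, one_pos, fun l ζ _ _ hζ => ?_⟩⟩⟩
  have s1 : 0 < s₁ := lt_of_lt_of_le (by positivity) hs₁
  have s0 : 0 ≤ s₀ := by linarith
  have cG := D.lG.continuous
  have w0 : ∀ x, 0 ≤ wt (9 / 4) s₀ (GG u x) := fun x => wt_nn (mul_nonneg s0 (D.G0 x))
  have w1 : ∀ x, wt (9 / 4) s₀ (GG u x) ≤ 1 := fun x => min_le_left _ _
  have wm : Measurable fun x => wt (9 / 4) s₀ (GG u x) :=
    measurable_const.min ((cG.measurable.const_mul _).pow_const _)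
  have hX : Measurable fun x => hh u x * Xd u x := D.ch.measurable.mul D.mX
  have hX0 : ∀ x, 0 ≤ hh u x * Xd u x := fun x => mul_nonneg (D.h0 x) (D.X0 x)
  have mB : MeasurableSet (bnd (GG u) a (1 / s₁)) :=
    (measurableSet_le measurable_const cG.measurable).inter
      (measurableSet_le cG.measurable measurable_const)
  have mA : MeasurableSet {x | a / 2160 ≤ GG u x} := measurableSet_le measurable_const cG.measurable
  set S := {x | hh u x * Xd u x * (1 + dd δ u x) ^ (5 * (m + 1) + 5) ≤ τ} with hS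
  have mS : MeasurableSet S := measurableSet_le
    (hX.mul (((continuous_infDist_pt _).measurable.const_add 1).pow_const _)) measurable_const
  set g := fun x => hh u x * Xd u x * wt (9 / 4) s₀ (GG u x) with hg
  have gm : Measurable g := hX.mul wm
  have gn : ∀ x, 0 ≤ g x := fun x => mul_nonneg (hX0 x) (w0 x)
  have Y0 : ∀ x, 0 ≤ Gn u x := fun x => (mul_nonneg (D.h0 x) (D.V0 x)).trans (D.VY x)
  set Y := {x | a / 2160 ≤ GG u x}.indicator fun x => Gn u x * wt (9 / 4) s₀ (GG u x) with hY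
  have Ym : Measurable Y := (D.cY.measurable.mul wm).indicator mA
  have Yn : ∀ x, 0 ≤ Y x := fun x => indicator_nonneg (fun x _ => mul_nonneg (Y0 x) (w0 x)) x
  obtain ⟨B, hB⟩ := D.bd
  have Yi : Integrable fun y => Y y * ζ y ^ 2 := hζ.int_sq.bdd_mul (c := B)
    Ym.aestronglyMeasurable (ae_of_all _ fun x => by
      rw [Real.norm_eq_abs, abs_of_nonneg (Yn x)]
      exact (indicator_le_self' (fun x _ => mul_nonneg (Y0 x) (w0 x)) x).trans
        ((mul_le_of_le_one_right (Y0 x) (w1 x)).trans (hB x).1))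
  obtain ⟨i1, j1⟩ := H1 (Bad δ u) l τ ζ ((bnd (GG u) a (1 / s₁) ∩ S).indicator g) h.ne hζ
    (indicator_nonneg fun x _ => gn x) (gm.indicator (mB.inter mS)).aestronglyMeasurable
    (ae_of_all _ fun x => by
      by_cases k : x ∈ bnd (GG u) a (1 / s₁) ∩ S
      · rw [indicator_of_mem k]
        refine le_trans ?_ k.2
        have : 0 ≤ infDist x (Bad δ u) := infDist_nonneg
        exact mul_le_mul_of_nonneg_right (mul_le_of_le_one_right (hX0 x) (w1 x)) (by positivity)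
      · rw [indicator_of_notMem k, zero_mul]; exact τ0.le)
  obtain ⟨i2, j2⟩ := H2 l ζ ((bnd (GG u) a (1 / s₁) \ S).indicator g)
    (fun y => 2160 ^ 5 * τ * Y y) hζ (indicator_nonneg fun x _ => gn x)
    (gm.indicator (mB.diff mS)) (fun y => mul_nonneg (by positivity) (Yn y)) (Ym.const_mul _)
    (by simpa only [mul_assoc] using (Yi.const_mul τ).const_mul (2160 ^ 5)) fun x => by
      by_cases k : x ∈ bnd (GG u) a (1 / s₁) \ S
      swap
      · exact .inl (indicator_of_notMem k _)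
      obtain ⟨z, hz⟩ := (H δ u x h (k.1.2.trans ((one_div_le s1 g0).2 hs₁))).resolve_left k.2
      refine .inr ⟨z, fun y hy => ?_⟩
      obtain ⟨b1, b2⟩ := hz y hy
      rw [indicator_of_mem k, hY, indicator_of_mem (show y ∈ {x | a / 2160 ≤ GG u x} by
        have := k.1.1
        rw [mem_setOf_eq, div_le_iff₀ (by norm_num)]; linarith)]
      calc _ = hh u x * Xd u x * (1 + ‖x - y‖) ^ (5 * (m + 1) + 5) * wt (9 / 4) s₀ (GG u x) := by
            simp only [hg]; ring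
        _ ≤ τ * Gn u y * (2160 ^ 5 * wt (9 / 4) s₀ (GG u y)) :=
            mul_le_mul b2 (wt_cmp s0 (D.G0 x) (D.G0 y) b1) (w0 x) (mul_nonneg τ0.le (Y0 y))
        _ = _ := by ring
  have e1 : ∫ x in bnd (GG u) a (1 / s₁), g x * ζ x ^ 2 =
      (∫ x, (bnd (GG u) a (1 / s₁) ∩ S).indicator g x * ζ x ^ 2) +
        ∫ x, (bnd (GG u) a (1 / s₁) \ S).indicator g x * ζ x ^ 2 := by
    rw [← integral_add i1 i2, ← integral_indicator mB]
    refine integral_congr_ae (ae_of_all _ fun x => ?_)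
    clear_value S g
    generalize bnd (GG u) a (1 / s₁) = T
    by_cases k : x ∈ T <;> by_cases k' : x ∈ S <;> simp [indicator, k, k']
  have e2 : ∫ x in {x | a / 2160 ≤ GG u x}, Gn u x * wt (9 / 4) s₀ (GG u x) * ζ x ^ 2 =
      ∫ y, Y y * ζ y ^ 2 := by
    rw [← integral_indicator mA]
    refine integral_congr_ae (ae_of_all _ fun x => ?_)
    simp only [hY, indicator]
    split_ifs <;> simp
  have J0 : 0 ≤ ∫ y, Y y * ζ y ^ 2 := integral_nonneg fun y => mul_nonneg (Yn y) (sq_nonneg _)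
  have X0 : 0 ≤ Xi (Bad δ u) ζ := integral_nonneg fun x => sq_nonneg _
  simp only [mul_assoc (2160 ^ 5 * τ)] at j2
  rw [integral_const_mul, ← mul_assoc] at j2
  rw [e1, e2]
  linarith [mul_le_mul_of_nonneg_right τ1 X0, mul_le_mul_of_nonneg_right τ2 J0]

end Vale.Agent.P134C
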