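import Vale.Agent.P134C.Top

/-!
# P134C: the gain near the bad set
-/

noncomputable section

namespace Vale.Agent.P134C

theorem ga : rGA := by
  intro hD hN n C δ u h
  obtain ⟨c, hc, H⟩ := hN n C δ
  refine ⟨c, hc, fun x hx => ⟨?_, (H u x h hx).2⟩⟩
  exact (H u x h hx).1.trans ((hD n C u h.ok).VY x)

end Vale.Agent.P134C
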