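import Vale.Agent.P134C.Top
import Vale.Agent.P134B.SEG

/-!
# P134C, row GAP: the gaps are at least logarithmic
-/

open MeasureTheory Metric Filter Topology Set
open scoped ContDiff RealInnerProductSpace
open Vale.Agent.P366.Stmt (E)

noncomputable section

namespace Vale.Agent.P134C

open Vale.Agent.P134B

variable {n : ℕ}

namespace Gap

theorem num {C L : ℝ} (hC : 1 ≤ C) (hL : 72 * C ^ 2 ≤ L) :
    C * (√2 * Real.exp (√2 * (1 / 2 + L / 4)) * (2 * √C / Real.exp L)) * L ≤ 1 := by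
  have L0 : 72 ≤ L := by nlinarith
  have s2 : √2 ≤ 3 / 2 := Real.sqrt_le_iff.2 ⟨by norm_num, by norm_num⟩
  have sC : √C ≤ C := Real.sqrt_le_iff.2 ⟨by linarith, by nlinarith⟩
  have e1 : Real.exp (√2 * (1 / 2 + L / 4)) ≤ 3 * Real.exp (L / 2) := by
    calc _ ≤ Real.exp (1 + L / 2) := Real.exp_le_exp.2 (by nlinarith)
      _ ≤ _ := by
        rw [Real.exp_add]
        exact mul_le_mul_of_nonneg_right (by linarith [Real.exp_one_lt_d9]) (Real.exp_pos _).le
  have e2 : Real.exp L = Real.exp (L / 2) * Real.exp (L / 2) := by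
    rw [← Real.exp_add, add_halves]
  have e3 := Real.quadratic_le_exp_of_nonneg (x := L / 2) (by linarith)
  have ep := Real.exp_pos (L / 2)
  calc _ ≤ C * (3 / 2 * (3 * Real.exp (L / 2)) * (2 * C / Real.exp L)) * L := by gcongr
    _ = 9 * C ^ 2 * L / Real.exp (L / 2) := by
      rw [e2]
      field_simp
      ring
    _ ≤ 1 := by
      rw [div_le_one ep]
      nlinarith

theorem nu_le (u : E n → ℝ) (y : E n) : ‖nu u y‖ ≤ 1 := by
  rw [nu, norm_smul, norm_inv, norm_norm]
  exact inv_mul_le_one_of_le₀ le_rfl (norm_nonneg _)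

theorem pe_nu (u : E n → ℝ) (y : E n) : pe u (nu u y) y = ‖pp u y‖ := by
  rw [pe, nu, real_inner_smul_right, real_inner_self_eq_norm_sq]
  rcases eq_or_ne ‖pp u y‖ 0 with h | h
  · simp [h]
  · field_simp

theorem pp_le {C : ℝ} {u : E n → ℝ} (h : Ok C u) (x : E n) : ‖pp u x‖ ≤ 1 := by
  have := h.q0 x
  rw [qq] at this
  nlinarith [norm_nonneg (pp u x)]

theorem ps_le {C : ℝ} {u : E n → ℝ} (h : Ok C u) (y : E n) {v : E n} (hv : ‖v‖ ≤ 1) {t : ℝ}
    (ht : 0 ≤ t) : |ps u (y + t • v) - ps u y| ≤ t := by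
  simpa using norm_image_sub_le_of_norm_deriv_le_segment' (C := 1)
    (fun s _ => (Seg.dps h y v s).hasDerivWithinAt) (fun s _ => (abs_real_inner_le_norm _ _).trans
      (mul_le_one₀ (pp_le h _) (norm_nonneg _) hv)) t ⟨ht, le_rfl⟩

theorem dd_le (δ : ℝ) (u : E n → ℝ) (x y : E n) : dd δ u y ≤ dd δ u x + ‖x - y‖ := by
  rw [← dist_eq_norm, dist_comm]
  exact infDist_le_infDist_add_dist

end Gap

open Gap in
theorem gap : GAP := by
  intro m C δ
  refine ⟨1 / 4, by norm_num, Real.exp (72 * C ^ 2), fun u y h hd hy t ht => ?_⟩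
  have ok := h.ok
  have hC := ok.C1
  have D0 : 0 < dd δ u y := (Real.exp_pos _).trans_le hd
  set L := Real.log (dd δ u y) with hL
  have hD : dd δ u y = Real.exp L := (Real.exp_log D0).symm
  have L1 : 72 * C ^ 2 ≤ L := (Real.le_log_iff_exp_le D0).2 hd
  have L0 : 72 ≤ L := by nlinarith
  have hn := num hC L1
  set k := √2 * Real.exp (√2 * (1 / 2 + L / 4)) * (2 * √C / Real.exp L) with hk
  have k0 : 0 ≤ k := by positivity
  set v := nu u y
  have hv : ‖v‖ ≤ 1 := nu_le u y
  have q : ∀ s ∈ Icc 0 (L / 4), qq u (y + s • v) ≤ k ^ 2 := fun s hs => by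
    refine Seg.qle ok ?_ ?_
    · have h1 := dd_le δ u (y + s • v) y
      have h2 : ‖y + s • v - y‖ ≤ L / 4 := by
        rw [add_sub_cancel_left, norm_smul, Real.norm_of_nonneg hs.1]
        nlinarith [hs.1, hs.2, norm_nonneg v]
      have h3 := Real.add_one_le_exp L
      have h4 : Real.exp L / 2 ≤ dd δ u (y + s • v) := by linarith
      have h5 : 0 ≤ EE u (y + s • v) := mul_nonneg (sq_nonneg _) (ok.q0 _)
      have h6 : EE u (y + s • v) * (Real.exp L / 2) ^ 2 ≤ C :=
        le_trans (by gcongr) (h.rt (y + s • v))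
      rw [div_pow, mul_pow, Real.sq_sqrt (by linarith), le_div_iff₀ (by positivity)]
      nlinarith
    · linarith [ps_le ok y hv hs.1, abs_sub_abs_le_abs_sub (ps u (y + s • v)) (ps u y), hs.2]
  have k1 : k ≤ 1 / 72 := by nlinarith [mul_nonneg k0 (sub_nonneg.2 hC)]
  have p0 : 3 / 4 ≤ pe u v y := by
    have h1 := q 0 ⟨le_rfl, by linarith⟩
    rw [zero_smul, add_zero, qq] at h1
    rw [pe_nu]
    nlinarith [norm_nonneg (pp u y)]
  have p1 : ∀ s ∈ Icc 0 (L / 4), 1 / 2 ≤ pe u v (y + s • v) := fun s hs => by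
    have h1 : ‖pp u (y + s • v) - pp u y‖ ≤ C * k * s := by
      simpa using norm_image_sub_le_of_norm_deriv_le_segment' (C := C * k)
        (fun r _ => (Seg.dpp ok y v r).hasDerivWithinAt) (fun r hr => calc
          ‖SS u (y + r • v) v‖ ≤ ‖SS u (y + r • v)‖ := (SS u _).unit_le_opNorm v hv
          _ ≤ C * k := (ok.S0 _).trans (mul_le_mul_of_nonneg_left
            (Real.sqrt_le_iff.2 ⟨k0, q r (Ico_subset_Icc_self hr)⟩) (by linarith))) s hs
    have h2 : |pe u v (y + s • v) - pe u v y| ≤ C * k * s := by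
      rw [pe, pe, ← inner_sub_left]
      exact (abs_real_inner_le_norm _ _).trans
        ((mul_le_of_le_one_right (norm_nonneg _) hv).trans h1)
    have h3 : C * k * s ≤ C * k * (L / 4) := mul_le_mul_of_nonneg_left hs.2 (by positivity)
    linarith [neg_abs_le (pe u v (y + s • v) - pe u v y)]
  obtain ⟨s, hs, e⟩ := exists_hasDerivAt_eq_slope (fun s : ℝ => ps u (y + s • v))
    (fun s => pe u v (y + s • v)) (by linarith [ht.1] : (0 : ℝ) < t)
    (fun s _ => (Seg.dps ok y v s).continuousAt.continuousWithinAt) fun s _ => Seg.dps ok y v s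
  have h1 := p1 s ⟨hs.1.le, by linarith [hs.2, ht.2]⟩
  rw [e, zero_smul, add_zero, sub_zero, le_div_iff₀ (by linarith [ht.1])] at h1
  have h2 : 0 < ps u (y + t • v) := by linarith [ht.1, neg_abs_le (ps u y)]
  rw [ok.th, Real.tanh_eq_sinh_div_cosh]
  exact div_pos (Real.sinh_pos_iff.2 (by positivity)) (Real.cosh_pos _)

end Vale.Agent.P134C
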