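import Vale.Agent.P134C.Iso0

/-!
# P134C, block (c): row ISO from TILT, ZB, TWO
-/

open MeasureTheory Metric Filter Topology Set
open scoped ContDiff RealInnerProductSpace
open Vale.Agent.P366.Stmt (E)

noncomputable section

namespace Vale.Agent.P134C

open Vale.Agent.P134B

namespace Isog

theorem ev (N : ℝ) (hN : 0 < N) : ∃ s', ∀ s, s' ≤ s → ∀ D : ℝ, s ^ (41 / 40 : ℝ) ≤ D →
    1 ≤ D ∧ N * s * (1 + Real.log D) ≤ D := by
  obtain ⟨d, hd⟩ := eventually_atTop.1
    (((isLittleO_log_rpow_atTop (show (0 : ℝ) < 1 / 41 by norm_num)).bound (c := (2 * N)⁻¹) (by positivity)).and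
      ((tendsto_rpow_atTop (show (0 : ℝ) < 1 / 41 by norm_num)).eventually_ge_atTop (2 * N)))
  refine ⟨max 1 d, fun s hs D hD => ?_⟩
  have h1 : 1 ≤ s := (le_max_left _ _).trans hs
  have h2 : s ≤ D := (Real.self_le_rpow_of_one_le h1 (by norm_num)).trans hD
  have h0 : 0 < D := by linarith
  obtain ⟨h3, h4⟩ := hd D (((le_max_right _ _).trans hs).trans h2)
  rw [Real.norm_of_nonneg (Real.log_nonneg (h1.trans h2)), Real.norm_of_nonneg (by positivity),
    le_inv_mul_iff₀ (by positivity)] at h3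
  have h5 : s ≤ D ^ (40 / 41 : ℝ) := by
    have := Real.rpow_le_rpow (by positivity) hD (show (0 : ℝ) ≤ 40 / 41 by norm_num)
    rwa [← Real.rpow_mul (by linarith), show (41 / 40 * (40 / 41) : ℝ) = 1 by norm_num, Real.rpow_one] at this
  have h6 : D ^ (1 / 41 : ℝ) * D ^ (40 / 41 : ℝ) = D := by
    rw [← Real.rpow_add h0, show (1 / 41 + 40 / 41 : ℝ) = 1 by norm_num, Real.rpow_one]
  refine ⟨h1.trans h2, ?_⟩
  calc N * s * (1 + Real.log D) = N * (1 + Real.log D) * s := by ring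
    _ ≤ D ^ (1 / 41 : ℝ) * D ^ (40 / 41 : ℝ) := mul_le_mul (by linarith) h5 (by linarith) (by positivity)
    _ = D := h6

theorem exp_le {s θ : ℝ} (hθ : 0 < θ) (hs : 3 / θ ^ 2 ≤ s) : Real.exp (1 - 2 * s) ≤ (θ / s) ^ 2 := by
  have h0 : 0 < s := lt_of_lt_of_le (by positivity) hs
  have h1 := Real.pow_div_factorial_le_exp (2 * s) (by positivity) 3
  rw [div_le_iff₀ (by positivity)] at hs
  rw [Real.exp_sub, div_pow, div_le_div_iff₀ (Real.exp_pos _) (by positivity)]
  have h2 : s ^ 3 ≤ Real.exp (2 * s) := by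
    norm_num [Nat.factorial] at h1
    nlinarith [pow_pos h0 3]
  have h3 := mul_le_mul_of_nonneg_left h2 (sq_nonneg θ)
  have h4 := mul_le_mul_of_nonneg_right hs (sq_nonneg s)
  have h5 := mul_le_mul_of_nonneg_right (Real.exp_one_lt_d9.le.trans (by norm_num : _ ≤ (3 : ℝ))) (sq_nonneg s)
  linarith

variable {n : ℕ} {C δ : ℝ} {u : E n → ℝ}

theorem lip (h : Ok C u) (x y : E n) : |ps u x - ps u y| ≤ ‖x - y‖ := by
  have := convex_univ.norm_image_sub_le_of_norm_fderiv_le (f := ps u) (C := 1)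
    (fun z _ => h.smp.differentiable (by simp) z) (fun z _ => by
      rw [← (InnerProductSpace.toDual ℝ (E n)).symm.norm_map]
      exact (sq_le_one_iff₀ (norm_nonneg _)).1 (sub_nonneg.1 (h.q0 z))) (mem_univ y) (mem_univ x)
  rwa [one_mul] at this

theorem gd (h : Rt C δ u) {x w : E n} (h0 : 0 < dd δ u x) (hw : ‖w - x‖ ≤ dd δ u x / 2) :
    EE u w ≤ (16 * C / dd δ u x) ^ 2 := by
  have h1 : dd δ u x ≤ dd δ u w + dist x w := infDist_le_infDist_add_dist
  rw [dist_comm, dist_eq_norm] at h1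
  have h2 := pow_le_pow_left₀ (by positivity) (show dd δ u x / 2 ≤ dd δ u w by linarith) 2
  have h3 := (mul_le_mul_of_nonneg_left h2 (mul_nonneg (sq_nonneg (ff u w)) (h.ok.q0 w))).trans (h.rt w)
  have h4 := h.ok.C1
  rw [div_pow, le_div_iff₀ (by positivity), EE]
  nlinarith

theorem fin {K K' ε θ s t a b p X Y : ℝ} (hK : 0 < K) (hK' : 0 < K') (hε : 0 < ε) (hθ : 0 < θ) (hs : 0 < s)
    (ha : 0 ≤ a) (hb : 0 ≤ b) (hp : 0 ≤ p) (ht : 0 ≤ t) (h1 : b ≤ a + t) (h2 : p ≤ 1 / 2 + b)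
    (c1 : (3 * K + 1) * (ε * (1 + t)) ≤ θ / s) (hX : X ≤ (θ / s) ^ 2)
    (h : Y ≤ K' * ((K * ε * (1 + b + 1 + p)) ^ 2 + ε ^ 2 + X)) : Y ≤ ((K' + 1) * θ / s * (1 + a)) ^ 2 := by
  have c0 : ε ≤ ε * (1 + t) := le_mul_of_one_le_right hε.le (by linarith)
  have c2 : 0 ≤ K * (ε * (1 + t)) := by positivity
  have w5 : K * ε * (1 + b + 1 + p) ≤ θ / s * (1 + a) := by
    have a1 : 1 + b + 1 + p ≤ 3 * ((1 + t) * (1 + a)) := by linarith [mul_nonneg ht ha]
    calc _ ≤ K * ε * (3 * ((1 + t) * (1 + a))) := mul_le_mul_of_nonneg_left a1 (by positivity)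
      _ = 3 * (K * (ε * (1 + t))) * (1 + a) := by ring
      _ ≤ _ := mul_le_mul_of_nonneg_right (by linarith) (by linarith)
  have w6 : θ / s ≤ θ / s * (1 + a) := le_mul_of_one_le_right (by positivity) (by linarith)
  have w8 := pow_le_pow_left₀ (by positivity) w5 2
  have w9 := pow_le_pow_left₀ hε.le (show ε ≤ θ / s * (1 + a) by linarith) 2
  have w10 := hX.trans (pow_le_pow_left₀ (by positivity) w6 2)
  rw [mul_div_assoc, mul_assoc, mul_pow (K' + 1)]
  generalize (θ / s * (1 + a)) ^ 2 = z at w8 w9 w10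
  have w11 : 0 ≤ z := (sq_nonneg ε).trans w9
  refine h.trans ((mul_le_mul_of_nonneg_left (add_le_add (add_le_add w8 w9) w10) hK'.le).trans ?_)
  nlinarith [mul_nonneg (sq_nonneg (K' - 1)) w11, mul_nonneg hK'.le w11]

end Isog

open Isog in
theorem iso : rISO := by
  intro h1 h2 h3 m C δ T B hB
  by_cases hC : 1 ≤ C
  swap
  · exact ⟨1, le_rfl, 0, fun u x y t s hR => absurd hR.ok.C1 hC⟩
  have hC0 : 0 < C := by linarith
  obtain ⟨K, hK, β, hβ, h1⟩ := h1 m C 4
  obtain ⟨K', hK', c, hc, h2⟩ := h2 (m + 1)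
  obtain ⟨M, m1, m2, m3⟩ : ∃ M, 1 ≤ M ∧ 40 * B ≤ M ∧ 4 * (18 * B + 2) ≤ M * c := by
    have a1 : 0 < 4 * (18 * B + 2) / c := by positivity
    exact ⟨1 + 40 * B + 4 * (18 * B + 2) / c, by linarith, by linarith, (div_le_iff₀ hc).1 (by linarith)⟩
  obtain ⟨θ, hθ, e0⟩ : ∃ θ, 0 < θ ∧ (K' + 1) * θ = 1 / (48 * C * B) :=
    ⟨1 / (48 * C * B) / (K' + 1), by positivity, by field_simp⟩
  obtain ⟨N, n1, n2, n3, n4⟩ : ∃ N, 16 * B + M ≤ N ∧ M * (16 * C) ≤ N * β ∧ 220 * (16 * C) * B ≤ N ∧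
      16 * C * (3 * K + 1) * (1 + |T|) ≤ N * θ := by
    have a1 : 0 < M * (16 * C) / β := by positivity
    have a2 : 0 < 220 * (16 * C) * B := by positivity
    have a3 : 0 < 16 * C * (3 * K + 1) * (1 + |T|) / θ := by positivity
    exact ⟨16 * B + M + M * (16 * C) / β + 220 * (16 * C) * B + 16 * C * (3 * K + 1) * (1 + |T|) / θ,
      by linarith, (div_le_iff₀ hβ).1 (by linarith), by linarith, (div_le_iff₀ hθ).1 (by linarith)⟩
  have hN : 0 < N := by linarith
  obtain ⟨s', hs'⟩ := ev N hN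
  refine ⟨M, m1, max (max s' K) (max (1 / B) (3 / θ ^ 2)), fun u x y t s hR hs hD hF ht p1 p2 => ?_⟩
  simp only [max_le_iff] at hs
  obtain ⟨⟨s1, s2⟩, s3, s4⟩ := hs
  obtain ⟨d1, d2⟩ := hs' s s1 _ hD
  have ok := hR.ok
  have g := fun w => gd hR (x := x) (w := w) (by linarith)
  have hT := hF.le
  generalize dd δ u x = D at d1 d2 g hT
  have hs0 : 0 < s := hK.trans_le s2
  have hD0 : 0 < D := by linarith
  have hL := Real.log_nonneg d1
  have d3 : N * s ≤ D := (le_mul_of_one_le_right (by positivity) (by linarith)).trans d2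
  have b1 : 1 ≤ B * s := by rwa [div_le_iff₀' hB] at s3
  have b2 := mul_le_mul_of_nonneg_right n1 hs0.le
  have b3 := mul_le_mul_of_nonneg_right m2 hs0.le
  have b4 : ‖x - y‖ ≤ |t| := by
    rw [hF.eq, add_sub_cancel_left, norm_smul, nu, norm_smul, norm_inv, norm_norm]
    exact mul_le_of_le_one_right (norm_nonneg t) inv_mul_le_one
  obtain ⟨ε, hε⟩ : ∃ ε, ε = 16 * C / D := ⟨_, rfl⟩
  have hε0 : 0 < ε := by rw [hε]; positivity
  have hε1 : ε * D = 16 * C := by rw [hε]; field_simp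
  rw [← hε] at g
  have key : ∀ a b : ℝ, 0 ≤ b → a * (16 * C) ≤ N * b → a * s * ε ≤ b := fun a b hb h => by
    refine le_of_mul_le_mul_right ?_ hD0
    rw [mul_assoc, hε1]
    linarith [mul_le_mul_of_nonneg_right h hs0.le, mul_le_mul_of_nonneg_left d3 hb]
  obtain ⟨he, h1⟩ := h1 u ε (M * s) y ok hε0 (fun w hw => g w (by
      have a1 : 4 / ε ≤ D / 4 := by
        rw [div_le_div_iff₀ hε0 (by norm_num)]
        linarith
      linarith [mem_ball_iff_norm.1 hw, norm_sub_le_norm_sub_add_norm_sub w y x, norm_sub_rev x y]))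
    hF.lo (s2.trans (le_mul_of_one_le_left hs0.le m1)) (key _ _ hβ.le n2) p1 p2
  have c1 : (3 * K + 1) * (ε * (1 + |t|)) ≤ θ / s := by
    rw [le_div_iff₀ hs0]
    refine le_of_mul_le_mul_right ?_ hD0
    have a1 : 1 + |t| ≤ (1 + |T|) * (1 + Real.log D) := by
      linarith [mul_le_mul_of_nonneg_right (le_abs_self T) hL, abs_nonneg T]
    calc (3 * K + 1) * (ε * (1 + |t|)) * s * D = ε * D * (3 * K + 1) * (1 + |t|) * s := by ring
      _ ≤ 16 * C * (3 * K + 1) * ((1 + |T|) * (1 + Real.log D)) * s := by rw [hε1]; gcongr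
      _ = 16 * C * (3 * K + 1) * (1 + |T|) * (s * (1 + Real.log D)) := by ring
      _ ≤ N * θ * (s * (1 + Real.log D)) := by gcongr
      _ = θ * (N * s * (1 + Real.log D)) := by ring
      _ ≤ θ * D := by gcongr
  have c3 := key (220 * B) 1 zero_le_one (by linarith)
  refine (h3 (m + 1) C (8 * (B * s)) ((K' + 1) * θ / s) u (nu u y) x ok he (by linarith) (by positivity)
    fun w hw => ?_).trans (le_of_eq ?_)
  · have w1 := mem_closedBall_iff_norm.1 hw
    have w2 := norm_sub_le_norm_sub_add_norm_sub w x y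
    have w3 : |ps u w| ≤ 1 / 2 + ‖w - y‖ := by
      linarith [abs_sub_abs_le_abs_sub (ps u w) (ps u y), lip ok w y, hF.lo]
    have w4 := h2 C u (nu u y) w (M * s / 4) (K * ε) (1 + ‖w - y‖) ε ok he (by positivity) (by positivity)
      (by positivity) hε0 (fun v hv => g v (by
        linarith [mem_closedBall_iff_norm.1 hv, norm_sub_le_norm_sub_add_norm_sub v w x]))
      (by linarith [mul_le_mul_of_nonneg_left (show 1 + |ps u w| ≤ 11 * (B * s) by linarith) hε0.le])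
      fun v hv hp => by
        have a1 := norm_sub_le_norm_sub_add_norm_sub v w y
        exact (h1 v (mem_ball_iff_norm.2 (by linarith [mem_closedBall_iff_norm.1 hv])) hp).trans
          (mul_le_mul_of_nonneg_left (by linarith) (by positivity))
    exact fin hK hK' hε0 hθ hs0 (norm_nonneg _) (norm_nonneg _) (abs_nonneg _) (abs_nonneg t) (by linarith) w3 c1
      ((Real.exp_le_exp.2 (by linarith [mul_le_mul_of_nonneg_right m3 hs0.le])).trans (exp_le hθ s4)) w4
  · have a1 : 24 * C * ((K' + 1) * θ / s) = 4 / (8 * (B * s)) := by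
      rw [e0]
      field_simp
      norm_num
    rw [a1, max_self]
    field_simp
    norm_num

end Vale.Agent.P134C
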