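import Vale.Agent.P134C.Top

set_option linter.all false

/-!
# P134C, row LIP: the two-point function is locally Lipschitz
-/

open MeasureTheory Metric Filter Topology Set
open scoped ContDiff RealInnerProductSpace
open Vale.Agent.P366.Stmt (E)

noncomputable section

namespace Vale.Agent.P134C

open Vale.Agent.P134B

namespace LipA

theorem den {t m : ℝ} (p : ℝ) (ht : 1 / 2 ≤ t) (hm : 0 ≤ m) :
    1 / 2 ≤ (1 + |p|) * max (t + p * m) m := by
  linarith [le_max_left (t + p * m) m, mul_le_mul_of_nonneg_left (le_max_right (t + p * m) m)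
    (abs_nonneg p), mul_le_mul_of_nonneg_right (neg_abs_le p) hm]

theorem den_pos {t m : ℝ} (p : ℝ) (ht : 1 / 2 ≤ t) (hm : 0 ≤ m) : 0 < max (t + p * m) m :=
  (mul_pos_iff_of_pos_left (show 0 < 1 + |p| by positivity)).1 (by linarith [den p ht hm])

theorem quo {t m p t' m' p' C r : ℝ} (ht : 1 / 2 ≤ t) (hm : 0 ≤ m) (ht' : 1 / 2 ≤ t')
    (hm' : 0 ≤ m') (hC : m' ≤ 2 * C) (h1 : |t - t'| ≤ C * r) (h2 : |m - m'| ≤ 2 * C * r)
    (h3 : |p - p'| ≤ r) :
    |m / max (t + p * m) m - m' / max (t' + p' * m') m'| ≤ 14 * C * (1 + |p|) ^ 2 * r := by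
  have d := den p ht hm
  have d0 := den_pos p ht hm
  have d1 := den_pos p' ht' hm'
  have a0 := (abs_nonneg _).trans h1
  have a1 : |max (t + p * m) m - max (t' + p' * m') m'| ≤ 5 * (C * r) + 2 * (|p| * (C * r)) := by
    have b0 := mul_nonneg (abs_nonneg p) a0
    refine (abs_max_sub_max_le_max ..).trans (max_le ?_ (by linarith))
    rw [show t + p * m - (t' + p' * m') = t - t' + p * (m - m') + (p - p') * m' by ring]
    refine (abs_add_three ..).trans ?_
    rw [abs_mul, abs_mul, abs_of_nonneg hm']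
    linarith [mul_le_mul_of_nonneg_left h2 (abs_nonneg p),
      mul_le_mul h3 hC hm' ((abs_nonneg _).trans h3)]
  have a2 := (div_le_one d1).2 (le_max_right (t' + p' * m') m')
  have a3 := div_nonneg hm' d1.le
  generalize max (t + p * m) m = D at *
  generalize max (t' + p' * m') m' = D' at *
  rw [show m / D - m' / D' = (m - m' - m' / D' * (D - D')) / D by field_simp; ring, abs_div,
    abs_of_pos d0, div_le_iff₀ d0]
  refine (abs_sub _ _).trans ?_
  rw [abs_mul, abs_of_nonneg a3]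
  have a4 := mul_le_of_le_one_left (abs_nonneg (D - D')) a2
  have a5 := mul_le_mul_of_nonneg_left d (mul_nonneg (show 0 ≤ 1 + |p| by positivity) a0)
  linarith [mul_nonneg (abs_nonneg p) a0]

variable {n : ℕ} {C : ℝ} {u : E n → ℝ}

theorem th_ge (u : E n → ℝ) (x : E n) : 1 / 2 ≤ th u x := by
  unfold th; linarith [P134T.qq_le u x]

theorem th_lip (h : Ok C u) (x y : E n) : |th u x - th u y| ≤ C * ‖x - y‖ := by
  have := convex_univ.norm_image_sub_le_of_norm_fderiv_le (𝕜 := ℝ) (f := qq u) (C := C)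
    (fun z _ => (differentiableAt_const 1).sub ((P134T.dg2 (P134T.c2 h.smp) z).norm_sq ℝ))
    (fun z _ => by
      rw [← P366W.norm_gradient]
      exact (h.q1 z).trans (mul_le_of_le_one_right (by linarith [h.C1]) (P134T.qq_le u z)))
    (mem_univ y) (mem_univ x)
  rw [show th u x - th u y = -(qq u x - qq u y) / 2 by unfold th; ring, abs_div, abs_neg, abs_two]
  linarith [abs_nonneg (qq u x - qq u y), Real.norm_eq_abs (qq u x - qq u y)]

theorem ph_lip (hM : P134W.MU) (h : Ok C u) (x y : E n) :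
    |ph u x - ph u y| ≤ 14 * C * (1 + |ps u x|) ^ 2 * ‖x - y‖ := by
  obtain ⟨-, h1, h2, -, -, h3, -⟩ := hM n C u h
  exact quo (th_ge u x) (h1 x) (th_ge u y) (h1 y) (h2 y) (th_lip h x y) (h3 y x) (h.tlip y x)

end LipA

open LipA

theorem lip : rLIP := fun hM hS n C => ⟨28 * C, fun u h x y _ => by
  have h1 := ph_lip hM h x y
  have h2 := ph_lip hM ((hS.1 n u).2.1 C h) x y
  rw [(hS.1 n u).1.1, Pi.neg_apply, abs_neg] at h2
  have h3 := (abs_max_sub_max_le_max ..).trans (max_le h1 h2)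
  have h4 : 14 * C * (1 + |ps u x|) ^ 2 * ‖x - y‖ ≤ 14 * C * (1 + |ps u x|) ^ 3 * ‖x - y‖ := by
    have := h.C1
    gcongr
    · linarith [abs_nonneg (ps u x)]
    · norm_num
  refine (abs_max_sub_max_le_max ..).trans (max_le ?_ ?_)
  · rw [add_sub_add_comm]
    linarith [abs_add_le (ph u x - ph u y) (ph (-u) x - ph (-u) y)]
  · rw [← mul_sub, abs_mul, abs_of_pos (by norm_num : (0 : ℝ) < 101 / 100)]
    linarith [(abs_nonneg _).trans h1]⟩


end Vale.Agent.P134C
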