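import Vale.Agent.P134C.TLY

/-!
# P134C, row LOWG: in the band both gaps are long
-/

open MeasureTheory Metric Filter Topology Set
open scoped ContDiff RealInnerProductSpace
open Vale.Agent.P366.Stmt (E)

noncomputable section

namespace Vale.Agent.P134C

open Vale.Agent.P134B

namespace Lowg

variable {n : ℕ} {C δ T t : ℝ} {u : E n → ℝ} {x y : E n}

theorem nu_le (u : E n → ℝ) (y : E n) : ‖nu u y‖ ≤ 1 := by
  rw [nu, norm_smul, norm_inv, norm_norm]
  exact inv_mul_le_one_of_le₀ le_rfl (norm_nonneg _)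

theorem ps_nn (h : Ok C u) (hx : 0 ≤ u x) : 0 ≤ ps u x := by
  have h1 := (abs_lt.1 (h.lt x)).2
  exact div_nonneg (sub_nonneg.2 (Real.log_le_log (by linarith) (by linarith))) (by positivity)

theorem ph_nn (h : 0 ≤ mu u x) : 0 ≤ ph u x := div_nonneg h (h.trans (le_max_right _ _))

section

variable (hS : SYM)

include hS

theorem bad_neg (δ : ℝ) (u : E n → ℝ) : Bad δ (-u) = Bad δ u := by
  rw [Bad, (hS.1 n u).1.2.2.2.2.2, Bad]

theorem dd_neg (δ : ℝ) (u : E n → ℝ) : dd δ (-u) = dd δ u :=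
  funext fun x => by rw [dd, bad_neg hS, dd]

theorem nu_neg (u : E n → ℝ) (y : E n) : nu (-u) y = -nu u y := by
  simp [nu, (hS.1 n u).1.2.2.1]

theorem rt_neg (h : Rt C δ u) : Rt C δ (-u) :=
  ⟨(hS.1 n u).2.1 C h.ok, (hS.1 n u).2.2.1 h.st, h.d0, (bad_neg hS δ u).symm ▸ h.ne, fun x => by
    rw [dd_neg hS, (hS.1 n u).1.2.2.2.2.2]; exact h.rt x⟩

theorem ft_neg (h : Ft u T x y t) : Ft (-u) T x y (-t) := by
  refine ⟨by rw [nu_neg hS, h.eq]; simp, ?_, by simpa using h.le, fun t' ht k => ?_⟩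
  · rw [(hS.1 n u).1.1]; simpa using h.lo
  · rw [(hS.1 n u).1.1, nu_neg hS, smul_neg, ← neg_smul] at k
    refine h.ne (-t') ?_ (neg_injective k)
    simp only [uIoo, mem_Ioo, min_lt_iff, lt_max_iff] at ht ⊢
    exact ⟨ht.2.imp (fun k => by linarith) fun k => by linarith,
      ht.1.imp (fun k => by linarith) fun k => by linarith⟩

end

theorem GG_neg (u : E n → ℝ) (x : E n) : GG (-u) x = GG u x := by
  rw [GG, GG, neg_neg, add_comm, max_comm (ph (-u) x)]

end Lowg

open Lowg Tly in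
theorem lowg : rLOWG := by
  intro hM hS hG hU hL m C δ T
  obtain ⟨c, c0, d₁, hG⟩ := hG m C δ
  obtain ⟨A₁, A0, d₂, hU⟩ := hU m C δ T
  obtain ⟨B, hB⟩ : ∃ B, B = 2 * |T| / c := ⟨_, rfl⟩
  have T0 := abs_nonneg T
  have B0 : 0 ≤ B := by rw [hB]; positivity
  obtain ⟨A₂, A2, d₃, hL⟩ := hL m C δ T (1 / (4 * (B + 1))) (by positivity)
  obtain ⟨d₀, hd⟩ := eventually_atTop.1 ((ev_log (a := 1 / (2 * (|T| + 1))) (by positivity)).and
    ((eventually_ge_atTop 4).and ((eventually_ge_atTop (2 * d₁)).and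
      ((eventually_ge_atTop d₂).and (eventually_ge_atTop d₃)))))
  obtain ⟨A, hA⟩ : ∃ A, A = A₁ * (3 * B + A₂ + 1) + ((B + 1) ^ 2 + 3) := ⟨_, rfl⟩
  have p1 : 0 ≤ A₁ * (3 * B + A₂) := by positivity
  have p2 : 0 ≤ (B + 1) ^ 2 := by positivity
  suffices k : ∀ (u : E (m + 1) → ℝ) (x y : E (m + 1)) (t a : ℝ), Rt C δ u → d₀ ≤ dd δ u x →
      Ft u (T * Real.log (dd δ u x)) x y t → A * a * GG u x < 1 → 0 ≤ t →
      Pos u y a ∧ Pos (-u) y a by
    refine ⟨A, by linarith, d₀, fun u x y t a h h1 h2 h3 => ?_⟩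
    rcases le_total 0 t with ht | ht
    · exact k u x y t a h h1 h2 h3 ht
    · have := k (-u) x y (-t) a (rt_neg hS h) (by rwa [dd_neg hS])
        (by rw [dd_neg hS]; exact ft_neg hS h2) (by rwa [GG_neg]) (by linarith)
      rw [neg_neg] at this
      exact this.symm
  intro u x y t a h h1 h2 h3 ht
  rcases lt_or_ge a 2 with ha | ha
  · exact ⟨fun t ht => by linarith [ht.1, ht.2], fun t ht => by linarith [ht.1, ht.2]⟩
  obtain ⟨l1, l2, l3, l4, l5⟩ := hd _ h1
  have h' := rt_neg hS h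
  have m1 : 0 ≤ ph u x := ph_nn ((hM _ C u h.ok).2.1 x)
  have μ0 : 0 ≤ mu (-u) x := (hM _ C _ h'.ok).2.1 x
  have m2 : 0 ≤ ph (-u) x := ph_nn μ0
  have g1 : ph u x + ph (-u) x ≤ GG u x := le_max_left _ _
  have up : ∀ b, 1 ≤ b → A₁ * b ≤ A → Pos u y (b * a) := fun b b1 b2 => by
    by_contra k
    have k1 := hU u x y t (b * a) h l4 h2 ht (by nlinarith only [ha, b1]) k
    have k2 : A₁ * b * (a * ph u x) ≤ A * (a * GG u x) :=
      mul_le_mul b2 (by gcongr; linarith) (by positivity) (by linarith)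
    linarith
  refine ⟨by simpa using up 1 le_rfl (by linarith), ?_⟩
  by_contra k
  simp only [Pos, not_forall, not_lt, nu_neg hS, Pi.neg_apply, neg_nonpos] at k
  obtain ⟨g, ⟨g2, ga⟩, hg⟩ := k
  have t1 : t ≤ |T| * Real.log (dd δ u x) := (le_abs_self t).trans (h2.le.trans
    (mul_le_mul_of_nonneg_right (le_abs_self T) (Real.log_nonneg (by linarith))))
  have n1 := nu_le u y
  have x1 : ‖x - y‖ ≤ t := by
    rw [h2.eq, add_sub_cancel_left, norm_smul, Real.norm_of_nonneg ht]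
    exact mul_le_of_le_one_right ht n1
  have y1 : dd δ u x / 2 ≤ dd δ u y := by
    rw [one_div, inv_mul_eq_div, le_div_iff₀ (by positivity)] at l1
    linarith [dd_lip δ u x y, Real.log_nonneg (show 1 ≤ dd δ u x by linarith)]
  have y2 : Real.log (dd δ u x) ≤ 2 * Real.log (dd δ u y) := by
    have := Real.log_le_log (by linarith) (show dd δ u x ≤ dd δ u y ^ 2 by nlinarith only [y1, l2])
    rwa [Real.log_pow] at this
  have y3 : c * Real.log (dd δ u y) ≤ g := not_lt.1 fun k => by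
    have := hG (-u) y h' (by rw [dd_neg hS]; linarith)
      (by rw [(hS.1 _ u).1.1]; simpa using h2.lo) g ⟨g2, by rw [dd_neg hS]; exact k.le⟩
    rw [nu_neg hS, Pi.neg_apply] at this
    linarith
  have t2 : t ≤ B * g := by
    rw [hB, div_mul_eq_mul_div, le_div_iff₀ c0]
    linarith [mul_le_mul_of_nonneg_left y2 (mul_nonneg T0 c0.le),
      mul_le_mul_of_nonneg_left y3 T0, mul_le_mul_of_nonneg_right t1 c0.le]
  have t3 : B * g ≤ B * a := mul_le_mul_of_nonneg_left ga B0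
  have t4 : 3 * t + A₂ ≤ (3 * B + A₂ + 1) * a := by nlinarith only [t2, t3, ha, A2]
  have s1 := hL u x y t h l5 h2 ht fun s hs => up (3 * B + A₂ + 1) (by linarith) (by linarith) s
    ⟨hs.1, hs.2.trans t4⟩
  have x2 := abs_le.1 (h.ok.tlip y x)
  have x3 := abs_le.1 h2.lo
  have x4 : -(5 / 2) ≤ ps u x := by
    rcases le_total t 2 with k | k
    · linarith [x2.1, x3.1]
    · have := up (3 * B + A₂ + 1) (by linarith) (by linarith) t ⟨k, by linarith⟩
      rw [← h2.eq] at this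
      linarith [ps_nn h.ok this.le]
  have w := (hM _ C _ h'.ok).2.2.2.1 x (-(t + g) • nu u y)
  rw [(hS.1 _ u).1.1, (hS.1 _ u).1.2.2.1, show x + -(t + g) • nu u y = y + g • -nu u y by
    rw [h2.eq]; module, inner_smul_right, Pi.neg_apply, Pi.neg_apply, Pi.neg_apply,
    inner_neg_left] at w
  have w1 : ‖-(t + g) • nu u y‖ ^ 2 ≤ ((B + 1) * g) ^ 2 := by
    refine pow_le_pow_left₀ (norm_nonneg _) ?_ 2
    rw [norm_smul, norm_neg, Real.norm_of_nonneg (by linarith)]
    linarith [mul_le_of_le_one_right (show 0 ≤ t + g by linarith) n1]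
  have w2 := mul_le_mul_of_nonneg_left s1 (show 0 ≤ t + g by linarith)
  have w3 : (t + g) * (1 / (4 * (B + 1))) ≤ g / 4 := by
    rw [mul_one_div, div_le_div_iff₀ (by positivity) (by norm_num)]; linarith
  have w4 : g * 1 ≤ g * (mu (-u) x * (B + 1) ^ 2 * g) := by
    have := mul_le_mul_of_nonneg_left w1 μ0
    change _ - mu (-u) x * _ / 2 ≤ _ at w
    rw [pe] at w2
    linarith [ps_nn h.ok hg, x2.2, x3.2]
  have w5 := (le_of_mul_le_mul_left w4 (by linarith)).trans
    (mul_le_mul_of_nonneg_left ga (by positivity))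
  have w6 : max (th (-u) x + ps (-u) x * mu (-u) x) (mu (-u) x) ≤ 1 + 3 * mu (-u) x := by
    rw [(hS.1 _ u).1.1, Pi.neg_apply, th]
    exact max_le (by nlinarith only [h'.ok.q0 x, x4, μ0]) (by linarith)
  have μ1 : 0 < mu (-u) x := μ0.lt_of_ne fun k => by rw [← k] at w5; norm_num at w5
  have w7 : mu (-u) x / (1 + 3 * mu (-u) x) ≤ GG u x :=
    le_trans (div_le_div_of_nonneg_left μ0 (lt_max_of_lt_right μ1) w6) (by rw [← ph]; linarith)
  rw [div_le_iff₀ (by linarith)] at w7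
  have w8 := mul_lt_mul_of_pos_right h3 (show 0 < 1 + 3 * mu (-u) x by linarith)
  have w9 := mul_le_mul_of_nonneg_left w7 (show 0 ≤ A * a by rw [hA]; positivity)
  have w10 : ((B + 1) ^ 2 + 3) * (a * mu (-u) x) ≤ A * (a * mu (-u) x) :=
    mul_le_mul_of_nonneg_right (by linarith) (by positivity)
  linarith [mul_le_mul_of_nonneg_right ha μ0]

end Vale.Agent.P134C
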