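import Vale.Agent.P134C.Top

/-! # P134C: the bad set is empty (glue) -/

open Vale.Agent.P366.Stmt (E)

namespace Vale.Agent.P134C

open Vale.Agent.P134B

theorem nob_of (fin : FIN) (dt : DT) (stt : STT) (ab : ABS) (sup : SUP) (wo : WO) (e4 : E4)
    (band : BAND) (su : SU) (ga : GA) : NOB := by
  intro C δ u h
  obtain ⟨g₀, hg, hs⟩ := sup 7 C (1 / 100) (by norm_num)
  obtain ⟨C₀, hC, hA⟩ := ab 7 C u h.ok h.st
  refine fin 7 (Bad δ u) (hh u) (Pt u) (Xd u) (Gn u) (GG u) (9 / 4) (21 / 20) (99 / 50) C₀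
    (max 4 (1 / g₀)) h.ne (dt 7 C u h.ok) (by norm_num) (by norm_num) (by norm_num)
    (by norm_num) hC (stt 7 C u h.ok h.st) hA ?_ (e4 6 C δ u h) (band C δ u h) (su 6 C δ u h)
    (ga 7 C δ u h)
  intro s₁ hs₁
  have h4 : 4 ≤ s₁ := le_trans (le_max_left _ _) hs₁
  have h5 : 1 / g₀ ≤ s₁ := le_trans (le_max_right _ _) hs₁
  refine wo 7 C g₀ s₁ u h.ok (hs u h.ok h.st) h4 ?_
  rw [div_le_iff₀ (by linarith)]
  rw [div_le_iff₀ hg] at h5
  linarith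

end Vale.Agent.P134C
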