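import Vale.Agent.P134C.Top

/-!
# P134C, block (c): row SLO, below a long gap the slope stays close to one
-/

open MeasureTheory Metric Filter Topology Set
open scoped ContDiff RealInnerProductSpace
open Vale.Agent.P366.Stmt (E)

noncomputable section

namespace Vale.Agent.P134C

open Vale.Agent.P134B

namespace Slo

theorem mv {f f' : ℝ → ℝ} (h : ∀ t, HasDerivAt f (f' t) t) {a b c : ℝ} (hab : a ≤ b)
    (hc : ∀ t ∈ Icc a b, f' t ≤ c) : f b - f a ≤ c * (b - a) :=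
  (convex_Icc a b).image_sub_le_mul_sub_of_deriv_le (fun t _ => (h t).continuousAt.continuousWithinAt)
    (fun t _ => (h t).differentiableAt.differentiableWithinAt)
    (fun t ht => (h t).deriv ▸ hc t (interior_subset ht)) a (left_mem_Icc.2 hab) b (right_mem_Icc.2 hab) hab

theorem one_d {ψ s d q U : ℝ → ℝ} {κ δ t A : ℝ} (hκ : 0 < κ) (hκ' : κ ≤ 1 / 10) (hδ0 : 0 ≤ δ) (hδ : δ ≤ κ / 10)
    (ht : 0 ≤ t) (hA : A = 20 * κ⁻¹ + 2) (hl : δ * (3 * t + A) ≤ κ / 4) (dψ : ∀ τ, HasDerivAt ψ (s τ) τ)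
    (ds : ∀ τ, HasDerivAt s (d τ) τ) (hs : ∀ τ, |s τ| ≤ 1) (hq : ∀ τ, 0 ≤ q τ) (hU : ∀ τ, |U τ| ≤ 1)
    (ψ0 : |ψ 0| ≤ 1 / 2) (s0 : 0 ≤ s 0)
    (hz : ∀ τ ∈ Icc 0 (3 * t + A), 1 - δ ^ 2 ≤ s τ ^ 2 + q τ ∧ |d τ + √2 * U τ * q τ| ≤ δ ∧
      (q τ ≤ δ ∨ 1 - δ ≤ |U τ|))
    (hsm : ∀ τ, |ψ τ| ≤ 3 → |U τ| < 1 - δ) (hpos : ∀ τ ∈ Icc 2 (3 * t + A), 0 < U τ)
    (hsg : ∀ τ, 0 < U τ → 0 ≤ ψ τ) : 1 - κ ≤ s t := by
  have k0 : 0 < κ⁻¹ := inv_pos.2 hκ
  have k1 : κ * κ⁻¹ = 1 := mul_inv_cancel₀ hκ.ne'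
  have r1 : (7 / 5 : ℝ) ≤ √2 := Real.le_sqrt_of_sq_le (by norm_num)
  have r2 : √2 ≤ (2 : ℝ) := Real.sqrt_le_iff.2 ⟨by norm_num, by norm_num⟩
  rw [abs_le] at ψ0
  have up : ∀ τ, 0 ≤ τ → ψ τ ≤ 1 / 2 + τ := fun τ h => by
    linarith [mv dψ h fun x _ => (abs_le.1 (hs x)).2]
  rcases le_total t 2 with h2 | h2
  · have a1 : ∀ τ ∈ Icc 0 t, q τ ≤ δ := fun τ hτ => by
      have b1 := mv (f := fun x => -ψ x) (fun x => (dψ x).neg) hτ.1 (c := 1) fun x _ => by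
        linarith [(abs_le.1 (hs x)).1]
      refine (hz τ ⟨hτ.1, by linarith [hτ.2]⟩).2.2.resolve_right (not_le.2 (hsm τ (abs_le.2 ⟨?_, ?_⟩)))
      · linarith [hτ.2]
      · linarith [hτ.2, up τ hτ.1]
    have a2 := mv (f := fun x => -s x) (fun x => (ds x).neg) ht (c := 3 * δ) fun τ hτ => by
      have b1 := (abs_le.1 (hz τ ⟨hτ.1, by linarith [hτ.2]⟩).2.1).1
      have b2 : √2 * U τ * q τ ≤ 2 * 1 * δ := (mul_le_mul_of_nonneg_right
        ((mul_le_mul_of_nonneg_left (abs_le.1 (hU τ)).2 (by linarith)).trans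
          (mul_le_mul_of_nonneg_right r2 zero_le_one)) (hq τ)).trans
          (mul_le_mul_of_nonneg_left (a1 τ hτ) (by norm_num))
      linarith
    have a3 := (hz 0 ⟨le_rfl, by linarith⟩).1
    have a4 := a1 0 ⟨le_rfl, ht⟩
    have a5 := (abs_le.1 (hs 0)).2
    nlinarith
  by_contra hc
  have hc := not_le.1 hc
  have rise : ∀ a b, t ≤ a → a ≤ b → b ≤ 3 * t + A → s b ≤ s a + κ / 4 := fun a b h1 h3 h4 => by
    have b1 := mv ds h3 (c := δ) fun τ hτ => by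
      have b2 := (abs_le.1 (hz τ ⟨by linarith [hτ.1], hτ.2.trans h4⟩).2.1).2
      have b3 := hpos τ ⟨by linarith [hτ.1], hτ.2.trans h4⟩
      have b4 := hq τ
      have b5 : 0 ≤ √2 * U τ * q τ := by positivity
      linarith
    have b2 := mul_le_mul_of_nonneg_left (show b - a ≤ 3 * t + A by linarith) hδ0
    linarith
  obtain ⟨τ₁, h1, h3⟩ : ∃ τ₁ ∈ Icc t (t + 8 * κ⁻¹), s τ₁ ≤ -(1 - κ / 2) := by
    by_contra hn
    push Not at hn
    have b1 := mv ds (show t ≤ t + 8 * κ⁻¹ by linarith) (c := -(κ / 4)) fun τ hτ => by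
      obtain ⟨c1, c2, c3⟩ := hz τ ⟨by linarith [hτ.1], by linarith [hτ.2]⟩
      have c4 := rise t τ le_rfl hτ.1 (by linarith [hτ.2])
      have c5 := hn τ hτ
      have c6 : s τ ^ 2 ≤ (1 - κ / 2) ^ 2 := sq_le_sq' c5.le (by linarith)
      have c7 : κ / 2 ≤ q τ := by nlinarith
      have c8 := c3.resolve_left (not_le.2 (by linarith))
      rw [abs_of_pos (hpos τ ⟨by linarith [hτ.1], by linarith [hτ.2]⟩)] at c8
      have c9 : 7 / 5 * (1 / 2) * (κ / 2) ≤ √2 * U τ * q τ :=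
        mul_le_mul (mul_le_mul r1 (by linarith) (by norm_num) (by linarith)) c7 (by linarith)
          (mul_nonneg (by linarith) (by linarith))
      linarith [(abs_le.1 c2).2]
    have b2 := hn (t + 8 * κ⁻¹) ⟨by linarith, le_rfl⟩
    nlinarith
  have b1 := mv dψ (show τ₁ ≤ 3 * t + A by linarith [h1.2]) (c := -(9 / 10)) fun τ hτ => by
    linarith [rise τ₁ τ h1.1 hτ.1 hτ.2]
  have b2 := up τ₁ (by linarith [h1.1])
  have b3 := hsg _ (hpos (3 * t + A) ⟨by linarith, le_rfl⟩)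
  linarith [h1.2]

variable {n : ℕ} {C : ℝ} {u : E n → ℝ}

theorem line {f : E n → ℝ} (hf : Differentiable ℝ f) (y e : E n) (τ : ℝ) :
    HasDerivAt (fun τ : ℝ => f (y + τ • e)) ⟪gradient f (y + τ • e), e⟫ τ := by
  have h1 : HasDerivAt (fun τ : ℝ => y + τ • e) e τ := by
    simpa using ((hasDerivAt_id τ).smul_const e).const_add y
  exact (hf _).hasGradientAt.hasFDerivAt.comp_hasDerivAt τ h1

theorem diff_pe (h : Ok C u) (e : E n) : Differentiable ℝ (pe u e) := by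
  have h1 : Differentiable ℝ (fderiv ℝ (ps u)) :=
    (h.smp.fderiv_right (m := ∞) le_rfl).differentiable (by simp)
  exact ((InnerProductSpace.toDual ℝ (E n)).symm.differentiable.comp h1).inner ℝ (differentiable_const e)

theorem small (h : Ok C u) {x : E n} {δ : ℝ} (hδ : δ ≤ Real.exp (-5) / 3) (hx : |ps u x| ≤ 3) : |u x| < 1 - δ := by
  have h1 := h.flo x
  have r2 : √2 ≤ (3 / 2 : ℝ) := Real.sqrt_le_iff.2 ⟨by norm_num, by norm_num⟩
  rw [ff, div_le_div_iff_of_pos_right (by positivity)] at h1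
  have h2 : Real.exp (-5) ≤ Real.exp (-(√2 * |ps u x|)) := Real.exp_le_exp.2 (by
    linarith [mul_le_mul r2 hx (abs_nonneg _) (by norm_num)])
  have h3 := h.lt x
  have h4 := Real.exp_pos (-5)
  nlinarith [sq_abs (u x), abs_nonneg (u x)]

theorem sgn (h : Ok C u) {x : E n} (hx : 0 < u x) : 0 ≤ ps u x :=
  div_nonneg (sub_nonneg.2 (Real.log_le_log (by linarith [(abs_lt.1 (h.lt x)).2]) (by linarith)))
    (Real.sqrt_nonneg 2)

theorem pyth {p e : E n} (he : ‖e‖ = 1) : ‖p - ⟪p, e⟫ • e‖ ^ 2 = ‖p‖ ^ 2 - ⟪p, e⟫ ^ 2 := by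
  rw [norm_sub_sq_real, real_inner_smul_right, norm_smul, he, mul_one, Real.norm_eq_abs, sq_abs]
  ring

end Slo

open Slo in
theorem slo : rSLO := by
  intro hT m C δ T κ₀ hκ₀
  obtain ⟨κ, hκ, hκ', hκ₁⟩ : ∃ κ, 0 < κ ∧ κ ≤ 1 / 10 ∧ κ ≤ κ₀ :=
    ⟨min (1 / 10) κ₀, by positivity, min_le_left _ _, min_le_right _ _⟩
  have hM : 0 < 3 * |T| + 1 := by positivity
  obtain ⟨η, h0, h1, h2⟩ : ∃ η, 0 < η ∧ η * (3 * |T| + 1) ≤ κ / 10 ∧ η ≤ Real.exp (-5) / 3 :=
    ⟨min (κ / 10 / (3 * |T| + 1)) (Real.exp (-5) / 3), by positivity,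
      (le_div_iff₀ hM).1 (min_le_left _ _), min_le_right _ _⟩
  obtain ⟨d₀, -, hT⟩ := hT m C δ (3 * |T| + 1) η h0
  obtain ⟨d₁, hd⟩ := eventually_atTop.1 ((eventually_ge_atTop d₀).and ((eventually_ge_atTop 0).and
    ((Real.tendsto_log_atTop.eventually_gt_atTop (20 * κ⁻¹ + 2)).and
      (Real.isLittleO_log_id_atTop.bound (c := (2 * (|T| + 1))⁻¹) (by positivity)))))
  refine ⟨20 * κ⁻¹ + 2, by positivity, d₁, fun u x y t hR hD hF ht hP => ?_⟩
  obtain ⟨a1, a2, a3, a4⟩ := hd _ hD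
  have ok := hR.ok
  have k0 : 0 < κ⁻¹ := inv_pos.2 hκ
  generalize hL : Real.log (dd δ u x) = L at a3 a4 hF
  have hL1 : 1 ≤ L := by linarith
  have a5 : t ≤ |T| * L := ((le_abs_self t).trans hF.le).trans
    (mul_le_mul_of_nonneg_right (le_abs_self T) (by linarith))
  have a6 : dd δ u x ≤ 2 * dd δ u y := by
    have b1 : dd δ u x ≤ dd δ u y + dist x y := infDist_le_infDist_add_dist
    have b2 : ‖nu u y‖ ≤ 1 := by
      rw [nu, norm_smul, norm_inv, norm_norm]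
      exact inv_mul_le_one
    have b3 : dist x y ≤ t := by
      rw [hF.eq, dist_self_add_left, norm_smul, Real.norm_of_nonneg ht]
      exact mul_le_of_le_one_right ht b2
    rw [Real.norm_of_nonneg (by linarith), id, Real.norm_of_nonneg a2, le_inv_mul_iff₀ (by positivity)] at a4
    linarith
  obtain ⟨he, hz⟩ := hT u y _ hR a1 a6 hF.lo
  rw [hL] at hz
  have e1 : η / L ≤ η := div_le_self h0.le hL1
  have e2 : η ≤ η * (3 * |T| + 1) := le_mul_of_one_le_right h0.le (by linarith [abs_nonneg T])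
  have e3 : η / L * (3 * t + (20 * κ⁻¹ + 2)) ≤ κ / 4 := by
    rw [div_mul_eq_mul_div, div_le_iff₀ (by linarith)]
    have b1 := mul_le_mul_of_nonneg_left (show 3 * t + (20 * κ⁻¹ + 2) ≤ (3 * |T| + 1) * L by linarith) h0.le
    have b2 := mul_le_mul_of_nonneg_right h1 (show 0 ≤ L by linarith)
    have b3 : 0 ≤ κ * L := by positivity
    linarith
  have := one_d (ψ := fun τ => ps u (y + τ • nu u y)) (s := fun τ => pe u (nu u y) (y + τ • nu u y))
    (d := fun τ => ⟪SS u (y + τ • nu u y) (nu u y), nu u y⟫) (q := fun τ => qq u (y + τ • nu u y))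
    (U := fun τ => u (y + τ • nu u y)) hκ hκ' (show 0 ≤ η / L by positivity) (by linarith) ht rfl e3
    (line (ok.smp.differentiable (by simp)) _ _) (fun τ => ok.gp _ _ ▸ line (diff_pe ok _) _ _ τ)
    (fun τ => (abs_real_inner_le_norm _ _).trans (by
      rw [he, mul_one]
      exact (sq_le_one_iff₀ (norm_nonneg _)).1 (sub_nonneg.1 (ok.q0 _))))
    (fun τ => ok.q0 _) (fun τ => (ok.lt _).le) (by simpa using hF.lo) (by
      rw [zero_smul, add_zero, pe, nu, real_inner_smul_right]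
      exact mul_nonneg (by positivity) real_inner_self_nonneg)
    (fun τ hτ => by
      have b1 := (hz (y + τ • nu u y) (by
        rw [mem_ball, dist_self_add_left, norm_smul, he, mul_one, Real.norm_of_nonneg hτ.1]
        linarith [hτ.2])).1
      refine ⟨?_, b1.t2, b1.t3⟩
      have b2 := pow_le_pow_left₀ (norm_nonneg _) b1.t0 2
      rw [pe, pyth he] at b2
      simp only [pe, qq]
      linarith)
    (fun τ => small ok (e1.trans h2)) hP fun τ => sgn ok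
  rw [← hF.eq] at this
  linarith

end Vale.Agent.P134C
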