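import Vale.Agent.P134C.Top
import Vale.Agent.P134T.Calc

/-!
# P134C: the support of the test function
-/

open MeasureTheory Metric Filter Topology Set
open scoped ContDiff RealInnerProductSpace
open Vale.Agent.P366.Stmt (E)

noncomputable section

namespace Vale.Agent.P134C

open Vale.Agent.P134B

namespace Su

variable {n : ℕ} {C : ℝ} {u : E n → ℝ}

theorem hh_le (h : Ok C u) (x : E n) :
    hh u x * (1 + |ps u x|) ^ 6 * Real.exp |ps u x| ≤ 8 * 6 ^ 6 := by
  have t0 := abs_nonneg (ps u x)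
  have s2 : √2 * √2 = (2 : ℝ) := Real.mul_self_sqrt (by norm_num)
  have h1 : hh u x ≤ ff u x ^ 2 := by
    have := h.q0 x
    have := P134T.qq_le u x
    rw [hh, ft, mul_pow]
    exact mul_le_of_le_one_right (sq_nonneg _) (by unfold th; nlinarith)
  have h2 : ff u x ≤ 2 * √2 * Real.exp (-|ps u x|) := (h.fhi x).trans (by
    gcongr; nlinarith [Real.one_lt_sqrt_two])
  have h3 : ff u x ^ 2 ≤ 8 * Real.exp (-|ps u x|) ^ 2 :=
    (pow_le_pow_left₀ (h.tff_pos x).le h2 2).trans (le_of_eq (by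
      linear_combination 4 * Real.exp (-|ps u x|) ^ 2 * s2))
  have h4 : (1 + |ps u x|) ^ 6 ≤ 6 ^ 6 * Real.exp |ps u x| := by
    have : 1 + |ps u x| ≤ 6 * Real.exp (|ps u x| / 6) := by
      linarith [Real.add_one_le_exp (|ps u x| / 6)]
    refine (pow_le_pow_left₀ (by positivity) this 6).trans (le_of_eq ?_)
    rw [mul_pow, ← Real.exp_nat_mul]
    congr 2
    push_cast
    ring
  have h5 : Real.exp (-|ps u x|) * Real.exp |ps u x| = 1 := by rw [← Real.exp_add]; simp
  calc _ ≤ 8 * Real.exp (-|ps u x|) ^ 2 * (6 ^ 6 * Real.exp |ps u x|) * Real.exp |ps u x| := by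
        gcongr; exact h1.trans h3
    _ = 8 * 6 ^ 6 * (Real.exp (-|ps u x|) * Real.exp |ps u x|) ^ 2 := by ring
    _ = _ := by rw [h5]; ring

end Su

theorem su : rSU := by
  intro lip supp m C δ u h s hs
  obtain ⟨A, hA⟩ := lip (m + 1) C
  obtain ⟨c, c0, d₀, d1, hS⟩ := supp m C δ (5 * (m + 1) + 5 : ℕ)
  set k := 5 * (m + 1) + 5 with hk
  set D := max d₀ (Real.exp (3 * s / c)) with hD
  have D0 : 0 < D := lt_max_of_lt_left (by linarith)
  have key : ∀ x, 1 / (3 * s) ≤ GG u x → hh u x * (1 + |ps u x|) ^ 6 *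
      (1 + infDist x (Bad δ u)) ^ k ≤ 8 * 6 ^ 6 * ((1 + D) ^ k + 2 ^ k) := fun x hx => by
    have h1 := Su.hh_le h.ok x
    have h0 : 0 ≤ hh u x * (1 + |ps u x|) ^ 6 := by unfold hh; positivity
    have h2 : (1 + infDist x (Bad δ u)) ^ k ≤ Real.exp |ps u x| * ((1 + D) ^ k + 2 ^ k) := by
      have e1 : 1 ≤ Real.exp |ps u x| := Real.one_le_exp (abs_nonneg _)
      have i0 : 0 ≤ infDist x (Bad δ u) := infDist_nonneg
      rcases le_or_gt (dd δ u x) D with a | a
      · calc _ ≤ (1 + D) ^ k := by gcongr; exact a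
          _ ≤ (1 + D) ^ k + 2 ^ k := le_add_of_nonneg_right (by positivity)
          _ ≤ _ := le_mul_of_one_le_left (by positivity) e1
      · have a1 : d₀ ≤ dd δ u x := (le_max_left _ _).trans a.le
        have a2 : 3 * s / c < Real.log (dd δ u x) :=
          (Real.lt_log_iff_exp_lt (by linarith)).2 ((le_max_right _ _).trans_lt a)
        have a3 : (k : ℝ) * Real.log (dd δ u x) ≤ |ps u x| := by
          by_contra hn
          have := hS u x h a1 (not_le.1 hn).le
          rw [div_lt_iff₀' c0] at a2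
          rw [div_le_iff₀ (by positivity)] at hx
          have g0 : 0 < GG u x := by by_contra g; nlinarith
          nlinarith
        have a4 : dd δ u x ^ k ≤ Real.exp |ps u x| := by
          rw [← Real.exp_log (show 0 < dd δ u x by linarith), ← Real.exp_nat_mul]
          exact Real.exp_le_exp.2 a3
        calc _ ≤ (2 * dd δ u x) ^ k := by gcongr; change 1 + dd δ u x ≤ _; linarith
          _ ≤ Real.exp |ps u x| * 2 ^ k := by rw [mul_pow, mul_comm]; gcongr
          _ ≤ _ := by gcongr; exact le_add_of_nonneg_left (by positivity)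
    calc _ ≤ hh u x * (1 + |ps u x|) ^ 6 * (Real.exp |ps u x| * ((1 + D) ^ k + 2 ^ k)) := by gcongr
      _ ≤ _ := by rw [← mul_assoc]; gcongr
  refine ⟨(1 + A ^ 2) * (8 * 6 ^ 6 * ((1 + D) ^ k + 2 ^ k)), fun x hx => ?_,
    Eventually.of_forall fun x hx => ?_⟩
  · have h1 := key x (le_trans (by gcongr; linarith) hx)
    have h0 : 0 ≤ hh u x := sq_nonneg _
    have i0 : 0 ≤ infDist x (Bad δ u) := infDist_nonneg
    refine le_trans ?_ (h1.trans (le_mul_of_one_le_left (by positivity) (by nlinarith)))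
    gcongr
    exact le_mul_of_one_le_right h0 (one_le_pow₀ (by linarith [abs_nonneg (ps u x)]))
  · have h1 := key x hx.1
    have h0 : 0 ≤ hh u x := sq_nonneg _
    have i0 : 0 ≤ infDist x (Bad δ u) := infDist_nonneg
    have g : ‖gradient (GG u) x‖ ≤ |A| * (1 + |ps u x|) ^ 3 := by
      rw [P366W.norm_gradient]
      refine norm_fderiv_le_of_lip' ℝ (by positivity) ?_
      filter_upwards [closedBall_mem_nhds x one_pos] with y hy
      rw [norm_sub_rev, norm_sub_rev y]
      exact (hA u h.ok x y (mem_closedBall_iff_norm'.1 hy)).trans (by gcongr; exact le_abs_self A)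
    calc _ ≤ hh u x * (|A| * (1 + |ps u x|) ^ 3) ^ 2 * (1 + infDist x (Bad δ u)) ^ k := by gcongr
      _ = A ^ 2 * (hh u x * (1 + |ps u x|) ^ 6 * (1 + infDist x (Bad δ u)) ^ k) := by
        rw [mul_pow, sq_abs]; ring
      _ ≤ _ := by gcongr; linarith

end Vale.Agent.P134C
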