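import Vale.Agent.P134C.Iso0
import Vale.Agent.P134T.Calc

/-!
# P134C: the tilt of the cores near an isolated point of a layer
-/

open MeasureTheory Metric Filter Topology Set
open scoped ContDiff RealInnerProductSpace
open Vale.Agent.P366.Stmt (E)
open Vale.Agent.P366W (Fr adj norm_gradient)

noncomputable section

namespace Vale.Agent.P134C

open Vale.Agent.P134B

namespace Tilt

variable {n m : ℕ}

theorem ex_fr {e : E (m + 1)} (he : ‖e‖ = 1) : ∃ L : E m →ₗᵢ[ℝ] E (m + 1), Fr e L := by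
  have : Fact (Module.finrank ℝ (E (m + 1)) = m + 1) := ⟨by simp⟩
  have h0 : e ≠ 0 := by rintro rfl; simp at he
  let b := OrthonormalBasis.fromOrthogonalSpanSingleton (𝕜 := ℝ) m h0
  refine ⟨(ℝ ∙ e)ᗮ.subtypeₗᵢ.comp b.repr.symm.toLinearIsometry, he, fun y => ?_⟩
  exact Submodule.mem_orthogonal_singleton_iff_inner_right.1 (b.repr.symm y).2

theorem near {a b ν : E n} {η : ℝ} (h1 : ‖ν‖ = 1) (ha : ‖a - ν‖ ≤ η) (hη : η ≤ 1 / 2)
    (hb : ‖b‖ ≤ 1) (hb' : 1 - η ≤ ‖b‖ ^ 2) (H : ∀ τ, ⟪τ, a⟫ = 0 → |⟪τ, b⟫| ≤ η * ‖τ‖) :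
    ∃ s : ℝ, s * s = 1 ∧ ‖b - s • ν‖ ≤ 10 * η := by
  have η0 := (norm_nonneg _).trans ha
  have νν : ⟪ν, ν⟫ = 1 := by rw [real_inner_self_eq_norm_sq, h1]; norm_num
  set c := ⟪b, ν⟫ with hc
  set τ := b - c • ν with hτ
  have t1 : ⟪τ, ν⟫ = 0 := by rw [hτ, inner_sub_left, inner_smul_left, νν]; simp [hc]
  have t2 : ⟪τ, b⟫ = ‖τ‖ ^ 2 := by
    rw [← real_inner_self_eq_norm_sq]
    conv_rhs => rw [hτ, inner_sub_right, inner_smul_right, ← hτ, t1]
    simp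
  have t3 : ‖τ‖ ^ 2 = ‖b‖ ^ 2 - c ^ 2 := by
    rw [← t2, hτ, inner_sub_left, inner_smul_left, real_inner_self_eq_norm_sq, real_inner_comm]
    simp [hc, sq]
  have a1 : 1 / 2 ≤ ‖a‖ := by linarith [norm_sub_norm_le ν a, norm_sub_rev ν a]
  have t4 : |⟪τ, a⟫| ≤ η * ‖τ‖ := by
    rw [show ⟪τ, a⟫ = ⟪τ, a - ν⟫ by rw [inner_sub_right, t1, sub_zero], mul_comm]
    exact (abs_real_inner_le_norm _ _).trans (by gcongr)
  set k := ⟪τ, a⟫ / ‖a‖ ^ 2 with hk
  have k1 : k * ‖a‖ ^ 2 = ⟪τ, a⟫ := div_mul_cancel₀ _ (by positivity)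
  have t5 := H (τ - k • a) (by
    rw [inner_sub_left, inner_smul_left, real_inner_self_eq_norm_sq]; simp [k1])
  have t6 : ‖τ - k • a‖ ≤ ‖τ‖ := by
    refine abs_le_of_sq_le_sq' ?_ (norm_nonneg _) |>.2
    rw [norm_sub_sq_real, inner_smul_right, norm_smul, mul_pow, Real.norm_eq_abs, sq_abs, ← k1]
    nlinarith [mul_nonneg (sq_nonneg k) (sq_nonneg ‖a‖)]
  have k2 : |k| * ‖a‖ ≤ 2 * η * ‖τ‖ := by
    have : |k| * ‖a‖ * ‖a‖ ≤ η * ‖τ‖ := by
      rw [mul_assoc, ← sq, ← abs_of_nonneg (sq_nonneg ‖a‖), ← abs_mul, k1]; exact t4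
    nlinarith [mul_nonneg (abs_nonneg k) (norm_nonneg a)]
  have k3 : |k * ⟪a, b⟫| ≤ 2 * η * ‖τ‖ := by
    rw [abs_mul]
    refine le_trans ?_ k2
    gcongr
    exact (abs_real_inner_le_norm _ _).trans (by nlinarith)
  rw [inner_sub_left, inner_smul_left, t2] at t5
  simp only [conj_trivial] at t5
  have t7 : ‖τ‖ ≤ 3 * η := by
    by_contra hn
    have := mul_le_mul_of_nonneg_left t6 η0
    nlinarith [(abs_le.1 t5).2, (abs_le.1 k3).2, norm_nonneg τ]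
  have c1 : |c| ≤ 1 := (abs_real_inner_le_norm _ _).trans (by rw [h1]; linarith)
  have c2 : 1 - |c| ≤ 6 * η := by nlinarith [sq_abs c, abs_nonneg c, norm_nonneg τ]
  have fin : ∀ s : ℝ, |c - s| ≤ 6 * η → ‖b - s • ν‖ ≤ 10 * η := fun s hs => by
    rw [show b - s • ν = τ + (c - s) • ν by rw [hτ, sub_smul]; abel]
    refine (norm_add_le _ _).trans ?_
    rw [norm_smul, h1, Real.norm_eq_abs]
    linarith
  rcases abs_cases c with h | h
  · exact ⟨1, by norm_num, fin 1 (abs_le.2 ⟨by linarith, by linarith⟩)⟩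
  · exact ⟨-1, by norm_num, fin (-1) (abs_le.2 ⟨by linarith, by linarith⟩)⟩

theorem nu_neg (u : E n → ℝ) (y : E n) : nu (-u) y = -nu u y := by
  have h1 : ps (-u) = -ps u := by
    funext x
    simp only [ps, Pi.neg_apply, sub_neg_eq_add, ← sub_eq_add_neg]
    ring
  have h2 : pp (-u) y = -pp u y := by simp only [pp, gradient, h1, fderiv_neg, map_neg]
  rw [nu, nu, h2, norm_neg, smul_neg]

/-- the variation of the gradient along a sheet -/
theorem along {C θ r l : ℝ} {u : E (m + 1) → ℝ} {z e : E (m + 1)} {L : E m →ₗᵢ[ℝ] E (m + 1)}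
    {h : E m → ℝ} (ok : Ok C u) (hg : Gr u z e L r h θ) (h0 : h 0 = 0) (l0 : 0 ≤ l)
    (h1 : ∀ v ∈ ball (0 : E m) r, ‖gradient h v‖ ≤ 1 ∧ ‖SS u (pt z e L v (h v))‖ ≤ l)
    {v : E m} (hv : v ∈ ball (0 : E m) r) : ‖pp u (pt z e L v (h v)) - pp u z‖ ≤ 2 * l * ‖v‖ := by
  have hd : ∀ x, HasFDerivAt (fun v => pp u (pt z e L v (h v))) (SS u (pt z e L x (h x)) ∘L
      (L.toContinuousLinearMap + (fderiv ℝ h x).smulRight e)) x := fun x =>
    (ok.tcp.differentiable (by simp) _).hasFDerivAt.comp x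
      ((L.toContinuousLinearMap.hasFDerivAt.const_add z).add
        ((hg.sm.differentiable (by simp) x).hasFDerivAt.smul_const e))
  have := (convex_ball (0 : E m) r).norm_image_sub_le_of_norm_hasFDerivWithin_le (C := 2 * l)
    (fun x _ => (hd x).hasFDerivWithinAt) (fun x hx => by
      refine (ContinuousLinearMap.opNorm_comp_le _ _).trans ?_
      have b1 : ‖L.toContinuousLinearMap + (fderiv ℝ h x).smulRight e‖ ≤ 2 := by
        refine (norm_add_le _ _).trans ?_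
        rw [ContinuousLinearMap.norm_smulRight_apply, hg.fr.one, ← norm_gradient]
        linarith [L.norm_toContinuousLinearMap_le, (h1 x hx).1]
      calc _ ≤ l * 2 := mul_le_mul (h1 x hx).2 b1 (norm_nonneg _) l0
        _ = _ := mul_comm _ _) (mem_ball_self (pos_of_mem_ball hv)) hv
  simpa [pt, h0] using this

/-- the sheet meets the normal line -/
theorem sheet (gd : GD) {C θ r l s : ℝ} {u : E (m + 1) → ℝ} {z y e : E (m + 1)}
    {L : E m →ₗᵢ[ℝ] E (m + 1)} {h : E m → ℝ} (ok : Ok C u) (n1 : ‖e‖ = 1) (ss : s * s = 1)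
    (hg : Gr u z (s • e) L r h θ) (hθ : θ ≤ 1 / 10) (h0 : h 0 = 0) (l0 : 0 ≤ l)
    (f1 : Fl u l z (|0| + 3 * r + 3)) (hr : ‖z - y‖ < r) : ∃ t : ℝ, |t| ≤ 6 / 5 * ‖z - y‖ ∧
    u (y + t • e) = 0 ∧ ‖pp u (y + t • e) - pp u z‖ ≤ 2 * l * ‖z - y‖ := by
  have fr := hg.fr
  have r0 := (norm_nonneg _).trans_lt hr
  have s1 : |s| = 1 := by
    rw [← sq_eq_sq₀ (abs_nonneg _) zero_le_one, sq_abs, sq, ss]; norm_num
  have hd := gd m C _ r u z _ L h ok hg hθ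
  have w0 : ∀ v ∈ ball (0 : E m) r, |h v| ≤ 1 / 5 * ‖v‖ := fun v hv => by
    have := (convex_ball (0 : E m) r).norm_image_sub_le_of_norm_fderiv_le (𝕜 := ℝ) (C := 1 / 5)
      (fun x _ => hg.sm.differentiable (by simp) x)
      (fun x hx => norm_gradient h x ▸ (hd x hx).2.2.1.trans (by linarith)) (mem_ball_self r0) hv
    rwa [h0, sub_zero, sub_zero] at this
  have w1 : ‖adj L (y - z)‖ ≤ ‖z - y‖ := norm_sub_rev y z ▸ fr.norm_adj _
  have w2 : adj L (y - z) ∈ ball (0 : E m) r := mem_ball_zero_iff.2 (by linarith)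
  have al := along ok hg h0 l0 (fun v hv =>
    ⟨(hd v hv).2.2.1.trans (by linarith), f1 _ (by
      have b1 := w0 v hv
      rw [mem_ball_zero_iff] at hv
      rw [mem_ball_iff_norm, pt, add_assoc, add_sub_cancel_left, abs_zero]
      refine (norm_add_le _ _).trans_lt ?_
      rw [norm_smul, fr.one, L.norm_map, Real.norm_eq_abs]
      linarith) (hg.ze v hv)⟩) w2
  have w4 : y + (⟪z - y, e⟫ + h (adj L (y - z)) * s) • e =
      pt z (s • e) L (adj L (y - z)) (h (adj L (y - z))) := by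
    have := fr.dec (y - z)
    rw [inner_smul_left, smul_smul, ← neg_sub z y, inner_neg_right, real_inner_comm, neg_sub] at this
    simp only [conj_trivial] at this
    rw [show s * -⟪z - y, e⟫ * s = -⟪z - y, e⟫ by linear_combination -⟪z - y, e⟫ * ss,
      ← eq_sub_iff_add_eq] at this
    rw [pt, this, smul_smul, add_smul, neg_smul]
    abel
  have w7 : |⟪z - y, e⟫| ≤ ‖z - y‖ := by simpa [n1] using abs_real_inner_le_norm (z - y) e
  refine ⟨_, (abs_add_le _ _).trans ?_, w4 ▸ hg.ze _ w2, w4 ▸ al.trans (by gcongr)⟩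
  rw [abs_mul, s1, mul_one]
  linarith [w0 _ w2]

theorem nrm {C a b : ℝ} {u : E n → ℝ} {y z : E n} (ok : Ok C u) (q0 : qq u z ≤ a)
    (p1 : ‖pp u y - pp u z‖ ≤ b) (h : a + b < 1) : ‖nu u y‖ = 1 ∧ ‖pp u y - nu u y‖ ≤ a + b := by
  have p2 : 1 - ‖pp u y‖ ≤ a + b := by
    linarith [ok.tpp_ge z, norm_sub_norm_le (pp u z) (pp u y), norm_sub_rev (pp u z) (pp u y)]
  have py : 0 < ‖pp u y‖ := by linarith
  have n1 : ‖nu u y‖ = 1 := norm_smul_inv_norm (norm_pos_iff.1 py)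
  refine ⟨n1, ?_⟩
  rw [show pp u y - nu u y = (‖pp u y‖ - 1) • nu u y by
    rw [sub_smul, nu, smul_smul, mul_inv_cancel₀ py.ne', one_smul, one_smul], norm_smul, n1,
    Real.norm_eq_abs, abs_of_nonpos (by linarith [ok.tpp_le y])]
  linarith

theorem two {G t : ℝ} {u : E n → ℝ} {y : E n} (P1 : Pos u y G) (P2 : Pos (-u) y G) (h : |t| ≤ G)
    (w6 : u (y + t • nu u y) = 0) : |t| ≤ 2 := by
  rw [abs_le] at h ⊢
  constructor <;> by_contra! k
  · have := P2 (-t) ⟨by linarith, by linarith⟩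
    rw [nu_neg, smul_neg, neg_smul, neg_neg, Pi.neg_apply, w6] at this
    simp at this
  · exact (P1 t ⟨k.le, h.2⟩).ne' w6

theorem seg2 {C K ε t : ℝ} {u : E n → ℝ} {y e : E n} (ok : Ok C u) (n1 : ‖e‖ = 1) (ht : |t| ≤ 2)
    (hy : |ps u y| ≤ 1 / 2) (ε0 : 0 < ε) (ε1 : ε ≤ 1) (hK : K * ε ≤ 1 / 4) (hgd : Gd u ε y (4 / ε))
    (hS : ∀ (v : E n) (s : ℝ), Ok C u → 0 < ε → ‖v‖ ≤ 1 → 0 ≤ s →
      (∀ t ∈ Icc 0 s, EE u (y + t • v) ≤ ε ^ 2) → |ps u y| + |pe u v y| * s + K * ε * s ^ 2 ≤ 4 →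
      ∀ t ∈ Icc 0 s, ‖pp u (y + t • v) - pp u y‖ ≤ K * ε * t ∧ qq u (y + t • v) ≤ K * ε ^ 2) :
    ‖pp u (y + t • e) - pp u y‖ ≤ K * ε * 2 := by
  have v1 : ‖(t / 2) • e‖ ≤ 1 := by
    rw [norm_smul, n1, mul_one, Real.norm_eq_abs, abs_div, abs_two]; linarith
  have v2 : |pe u ((t / 2) • e) y| ≤ 1 :=
    (abs_real_inner_le_norm _ _).trans (mul_le_one₀ (ok.tpp_le y) (norm_nonneg _) v1)
  have sg := (hS ((t / 2) • e) 2 ok ε0 v1 zero_le_two (fun τ hτ => hgd _ (by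
    rw [mem_ball_iff_norm, add_sub_cancel_left, norm_smul, Real.norm_of_nonneg hτ.1,
      lt_div_iff₀ ε0]
    have : τ * ‖(t / 2) • e‖ ≤ 2 * 1 := mul_le_mul hτ.2 v1 (norm_nonneg _) zero_le_two
    nlinarith)) (by linarith) 2 ⟨zero_le_two, le_rfl⟩).1
  rwa [smul_smul, show 2 * (t / 2) = t by ring] at sg

end Tilt

theorem tilt : rTILT := by
  intro seg foot gr gd par m C A
  by_cases hC : 1 ≤ C
  swap
  · exact ⟨1, one_pos, 1, one_pos, fun u ε G y ok => absurd ok.C1 hC⟩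
  set B := max A 1 with hB
  have B1 : 1 ≤ B := le_max_right _ _
  have BA : A ≤ B := le_max_left _ _
  obtain ⟨K, ε₁, e1, hF⟩ := foot (m + 1) C B
  obtain ⟨K₂, K21, hS⟩ := seg (m + 1) C 4
  obtain ⟨η, hη⟩ : ∃ η : ℝ, η = 1 / 200 := ⟨_, rfl⟩
  have η0 : 0 < η := by rw [hη]; norm_num
  obtain ⟨β₁, b1, hP⟩ := par m C η η0
  obtain ⟨ε₂, e2, hG⟩ := gr m C
  have K0 := abs_nonneg K
  have C0 : 0 ≤ C := by linarith
  have CB : 0 ≤ C * B := by positivity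
  refine ⟨2 * |K| + 8 * (C * B) + 2 * K₂ + 2 + 4 * C + 8 * B, by positivity,
    min (min (min ε₁ ε₂) (β₁ / 2)) (min (η / C) (η / (2 * |K| + 2))), by positivity,
    fun u ε G y ok ε0 hgd hy hKG hβ P1 P2 => ?_⟩
  simp only [le_min_iff] at hβ
  obtain ⟨⟨⟨a1, a2⟩, a3⟩, a4, a5⟩ := hβ
  have G8 : 8 * B ≤ G := by linarith
  have εG2 : 8 * B * ε ≤ G * ε := by gcongr
  have εG3 : 2 * K₂ * ε ≤ G * ε := by gcongr; linarith
  have εB : ε ≤ B * ε := by nlinarith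
  have εG : ε ≤ G * ε := by linarith
  rw [le_div_iff₀ (by positivity)] at a4 a5
  have a6 : G * ε ≤ η / 2 := by linarith [mul_nonneg K0 (ε0.le.trans εG)]
  have a7 : |K| * ε ≤ η / 2 - ε := by linarith [mul_le_mul_of_nonneg_left εG K0]
  have a8 : ε ^ 2 ≤ ε / 400 := by
    linarith [mul_le_mul_of_nonneg_left (show ε ≤ 1 / 400 by linarith) ε0.le]
  have gd' : ∀ w r, ‖w - y‖ * ε + r * ε ≤ 4 → Gd u ε w r := fun w r h x hx => hgd x (by
    rw [mem_ball_iff_norm] at hx ⊢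
    rw [lt_div_iff₀ ε0]
    linarith [mul_lt_mul_of_pos_right hx ε0,
      mul_le_mul_of_nonneg_right (norm_sub_le_norm_sub_add_norm_sub x w y) ε0.le])
  obtain ⟨z₀, z0, d0, p0⟩ := hF u ε y ok ε0 (by linarith) (gd' _ _ (by simp; linarith))
    (by linarith)
  have g0 : Gd u ε z₀ (2 / ε) := gd' _ _ (by
    rw [div_mul_cancel₀ _ ε0.ne']; linarith [mul_le_mul_of_nonneg_right d0 ε0.le])
  have q0 := ok.tzero_q (g0 z₀ (mem_ball_self (by positivity))) z0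
  have p1 : ‖pp u y - pp u z₀‖ ≤ |K| * ε := p0.trans (by gcongr; exact le_abs_self K)
  obtain ⟨n1, p3⟩ := Tilt.nrm ok q0 p1 (by linarith)
  refine ⟨n1, fun w hw hA => ?_⟩
  rw [mem_ball_iff_norm] at hw
  have wε : ‖w - y‖ * ε ≤ G / 2 * ε := by gcongr
  obtain ⟨z, hz, d1, p4⟩ := hF u ε w ok ε0 (by linarith) (gd' _ _ (by linarith)) (by linarith)
  have p5 : ‖pp u w - pp u z‖ ≤ |K| * ε := p4.trans (by gcongr; exact le_abs_self K)
  have d2 : ‖z - y‖ ≤ 2 * B + ‖w - y‖ := by linarith [norm_sub_le_norm_sub_add_norm_sub z w y]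
  have a9 : ‖z - y‖ * ε ≤ 3 / 4 * G * ε := by gcongr; linarith
  set r := ‖z - y‖ + 1 with hr
  have r0 : 0 < r := by positivity
  have rε : r * ε ≤ G * ε := by rw [hr]; linarith
  have g1 : Gd u ε z (|0| + 3 * r + 3) := gd' _ _ (by rw [abs_zero]; linarith)
  have q1 : ∀ x ∈ ball z (|0| + 3 * r + 3), u x = 0 → qq u x ≤ 2 * ε ^ 2 := fun x hx h0 =>
    ok.tzero_q (g1 x hx) h0
  have f1 : Fl u (2 * C * ε) z (|0| + 3 * r + 3) := fun x hx h0 => (ok.S0 x).trans (by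
    have : √(qq u x) ≤ 2 * ε :=
      Real.sqrt_le_iff.2 ⟨by positivity, by linarith [q1 x hx h0, sq_nonneg ε]⟩
    linarith [mul_le_mul_of_nonneg_left this C0])
  obtain ⟨s, ss, hs⟩ := Tilt.near (a := pp u z₀) (b := pp u z) (η := η) n1 (by
    linarith [norm_sub_le_norm_sub_add_norm_sub (pp u z₀) (pp u y) (nu u y),
      norm_sub_rev (pp u z₀) (pp u y)]) (by linarith) (ok.tpp_le z) (by
    have := q1 z (mem_ball_self (by positivity)) hz
    unfold qq at this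
    linarith) fun τ hτ => hP u ε z₀ z τ ok ε0 (by linarith) g0 z0 hz (by
      rw [norm_sub_rev] at d0
      linarith [mul_le_mul_of_nonneg_right (norm_sub_le_norm_sub_add_norm_sub z y z₀) ε0.le,
        mul_le_mul_of_nonneg_right d0 ε0.le]) hτ
  have s1 : |s| = 1 := by
    rw [← sq_eq_sq₀ (abs_nonneg _) zero_le_one, sq_abs, sq, ss]; norm_num
  obtain ⟨L, fr⟩ := Tilt.ex_fr (e := s • nu u y) (by rw [norm_smul, n1, Real.norm_eq_abs, s1]; simp)
  have tb : 2 * (2 * C * ε) * r ≤ 10 * η := by linarith [mul_le_mul_of_nonneg_left rε C0]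
  obtain ⟨h, h0, hg⟩ := hG u ε 0 r (10 * η) (2 * C * ε) z _ L ok fr ε0 (by linarith) r0
    (by positivity) g1 f1 (by simpa using hz) (by simpa using hs) (by linarith)
  obtain ⟨t, w5, w6, al⟩ := Tilt.sheet gd (y := y) ok n1 ss hg (by linarith) h0 (by positivity) f1
    (by linarith)
  have sg := Tilt.seg2 ok n1 (Tilt.two P1 P2 (by linarith) w6) hy ε0 (by linarith) (by linarith) hgd
    (hS u ε y)
  have c1 : 2 * (2 * C * ε) * ‖z - y‖ ≤ 2 * (2 * C * ε) * (2 * B + ‖w - y‖) := by gcongr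
  have c2 : 4 * C * (ε * ‖w - y‖) ≤
      (2 * |K| + 8 * (C * B) + 2 * K₂ + 2 + 4 * C + 8 * B) * (ε * ‖w - y‖) := by
    gcongr; linarith
  have c3 : 0 ≤ C * ε := by positivity
  linarith [norm_sub_le_norm_sub_add_norm_sub (pp u w) (pp u z) (nu u y),
    norm_sub_le_norm_sub_add_norm_sub (pp u z) (pp u (y + t • nu u y)) (nu u y),
    norm_sub_le_norm_sub_add_norm_sub (pp u (y + t • nu u y)) (pp u y) (nu u y),
    norm_sub_rev (pp u z) (pp u (y + t • nu u y))]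

end Vale.Agent.P134C
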