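import Vale.Agent.P134C.Top
import Vale.Agent.P134T.Calc

/-!
# P134C, row TLY: the solution is one-dimensional near a point of a layer far from the bad set
-/

open MeasureTheory Metric Filter Topology Set
open scoped ContDiff RealInnerProductSpace
open Vale.Agent.P366.Stmt (E)

noncomputable section

namespace Vale.Agent.P134C

open Vale.Agent.P134B

namespace Tly

variable {n : ℕ} {C δ : ℝ} {u : E n → ℝ} {x y : E n}

theorem dd_lip (δ : ℝ) (u : E n → ℝ) (x y : E n) : dd δ u x ≤ dd δ u y + ‖x - y‖ := by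
  rw [← dist_eq_norm]; exact infDist_le_infDist_add_dist

theorem far (h : Rt C δ u) {D : ℝ} (h0 : 0 ≤ D) (h1 : D ≤ 2 * dd δ u y) (h2 : ‖x - y‖ ≤ D / 4) :
    EE u x * D ^ 2 ≤ 16 * C := by
  have h3 := dd_lip δ u y x
  rw [norm_sub_rev] at h3
  have h4 : (D / 4) ^ 2 ≤ dd δ u x ^ 2 := pow_le_pow_left₀ (by linarith) (by linarith) 2
  nlinarith [h.rt x, mul_le_mul_of_nonneg_left h4 (h.ok.tEE_nn x)]

theorem zn_mono {a b : ℝ} {e : E n} (h : Zn a u e x) (hab : a ≤ b) : Zn b u e x :=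
  ⟨h.t0.trans hab, fun τ hτ => (h.t1 τ hτ).trans (by gcongr), h.t2.trans hab,
    h.t3.imp (fun k => k.trans hab) fun k => by linarith⟩

theorem nu_one (h : Ok C u) (hq : qq u x < 1) : ‖nu u x‖ = 1 ∧ ‖nu u x - pp u x‖ ≤ qq u x := by
  have h1 := h.tpp_ge x
  have h0 : 0 < ‖pp u x‖ := by linarith
  have h2 : ‖nu u x‖ = 1 := by rw [nu, norm_smul, norm_inv, norm_norm, inv_mul_cancel₀ h0.ne']
  refine ⟨h2, ?_⟩
  have h3 : nu u x - pp u x = (1 - ‖pp u x‖) • nu u x := by
    rw [sub_smul, one_smul, nu, smul_smul, mul_inv_cancel₀ h0.ne', one_smul]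
  rw [h3, norm_smul, h2, mul_one, Real.norm_of_nonneg (by linarith [h.tpp_le x])]
  linarith

theorem ev_log {a : ℝ} (ha : 0 < a) : ∀ᶠ D : ℝ in atTop, Real.log D ≤ a * D := by
  filter_upwards [Real.isLittleO_log_id_atTop.bound ha, eventually_ge_atTop 0] with D h h0
  rw [id, Real.norm_of_nonneg h0] at h
  exact (le_abs_self _).trans h

end Tly

open Tly in
theorem tly : rTLY := by
  intro hF hZ hT m C δ M η hη
  by_cases hC : 1 ≤ C
  swap
  · exact ⟨2, by norm_num, fun u y D h => absurd h.ok.C1 hC⟩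
  obtain ⟨K, ε₁, e1, hF⟩ := hF (m + 1) C (1 / 2)
  obtain ⟨ε₂, e2, hT⟩ := hT m C (2 * |M| + 2) (η / 4) (by positivity)
  obtain ⟨B, hB⟩ : ∃ B, B = (√2 * Real.exp (√2 * (1 / 2))) ^ 2 := ⟨_, rfl⟩
  have B0 : 0 ≤ B := by rw [hB]; positivity
  obtain ⟨a, ha⟩ : ∃ a, a = 8 * √C := ⟨_, rfl⟩
  have a1 : 8 ≤ a := by rw [ha]; linarith [Real.one_le_sqrt.2 hC]
  have a2 : a ^ 2 = 64 * C := by rw [ha, mul_pow, Real.sq_sqrt (by linarith)]; norm_num
  have M0 := abs_nonneg M
  have K0 := abs_nonneg K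
  obtain ⟨d₀, hd⟩ := eventually_atTop.1 ((ev_log (a := 1 / (4 * (|M| + 1))) (by positivity)).and
    ((ev_log (a := η / (6 * C * (|K| + B + 2) * a)) (by positivity)).and
    ((eventually_ge_atTop (a ^ 2 + a / ε₁ + a / ε₂ + 2 * a * (B + 2))))))
  refine ⟨max d₀ 2, lt_max_of_lt_right (by norm_num), fun u y D h hD h1 h2 => ?_⟩
  obtain ⟨l1, l2, l3⟩ := hd D ((le_max_left _ _).trans hD)
  have p1 : 0 < a / ε₁ := by positivity
  have p2 : 0 < a / ε₂ := by positivity
  have p3 : 0 ≤ 2 * a * (B + 2) := by positivity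
  have D1 : 64 ≤ D := by linarith
  have D2 : a ^ 2 ≤ D := by linarith
  clear hd hD
  obtain ⟨ε, hε⟩ : ∃ ε, ε = a / D := ⟨_, rfl⟩
  have e0 : 0 < ε := by rw [hε]; positivity
  have eD : ε * D = a := by rw [hε]; field_simp
  have L1 : 1 ≤ Real.log D := by
    rw [Real.le_log_iff_exp_le (by linarith)]; linarith [Real.exp_one_lt_d9]
  have g1 : lg ε = Real.log D - Real.log a := by
    rw [lg, hε, Real.log_div (by linarith) (by linarith)]; ring
  have g2 : 2 * Real.log a ≤ Real.log D := by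
    have := Real.log_le_log (by positivity) (show a ^ 2 ≤ D by linarith)
    rwa [Real.log_pow] at this
  have hG : ∀ w, ‖w - y‖ ≤ D / 4 → EE u w ≤ ε ^ 2 := fun w hw => by
    have k := far h (by linarith) h1 hw
    refine le_of_mul_le_mul_right ?_ (show 0 < D ^ 2 by positivity)
    rw [← mul_pow, eD]; linarith
  have s1 : ∀ b, 0 < b → a / b ≤ D → ε ≤ b := fun b hb k => by
    rw [hε, div_le_iff₀ (by linarith)]; rw [div_le_iff₀ hb] at k; linarith
  have s2 : (B + 2) * ε ≤ 1 / 2 := by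
    rw [hε, ← mul_div_assoc, div_le_iff₀ (by linarith)]; linarith
  have s4 := mul_nonneg B0 e0.le
  have s3 : ε ^ 2 ≤ ε := by rw [sq]; exact mul_le_of_le_one_right e0.le (by linarith)
  obtain ⟨z, z0, z1, z2⟩ := hF u ε y h.ok e0 (s1 _ e1 (by linarith))
    (fun w hw => hG w (by linarith [mem_ball_iff_norm.1 hw])) h2
  have i1 : 1 / ε ≤ D / 8 := by rw [div_le_div_iff₀ e0 (by norm_num)]; linarith
  have hT := hT u ε z h.ok e0 (s1 _ e2 (by linarith)) (fun w hw => hG w (by
    linarith [mem_ball_iff_norm.1 hw, norm_sub_le_norm_sub_add_norm_sub w z y])) z0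
  have q1 : qq u y ≤ B * ε ^ 2 := by
    have := h.ok.tcore_q (hG y (by simp; linarith)) h2
    rwa [mul_pow, ← hB] at this
  have q2 := h.ok.tzero_q (hG z (by linarith)) z0
  have q3 := mul_le_mul_of_nonneg_left s3 B0
  obtain ⟨n1, n2⟩ := nu_one h.ok (x := y) (by linarith)
  obtain ⟨n3, n4⟩ := nu_one h.ok (x := z) (by nlinarith only [q2, s2, s4, e0])
  have n5 : ‖nu u y - nu u z‖ ≤ (|K| + B + 2) * ε := by
    have k1 := norm_sub_le_norm_sub_add_norm_sub (nu u y) (pp u y) (nu u z)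
    have k2 := norm_sub_le_norm_sub_add_norm_sub (pp u y) (pp u z) (nu u z)
    rw [norm_sub_rev (pp u z)] at k2
    linarith [mul_le_mul_of_nonneg_right (le_abs_self K) e0.le]
  refine ⟨n1, fun x hx => ?_⟩
  have x1 := mem_ball_iff_norm.1 hx
  have x2 : M * Real.log D ≤ |M| * Real.log D := by gcongr; exact le_abs_self M
  refine ⟨zn_mono (hZ _ C _ _ u _ _ x h.ok n3 n1 n5 (div_nonneg (by linarith) (by linarith))
    (hT x (mem_ball_iff_norm.2 ?_))) ?_, far h (by linarith) h1 ?_⟩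
  · have k := norm_sub_le_norm_sub_add_norm_sub x y z
    rw [norm_sub_rev y z] at k
    linarith [mul_le_mul_of_nonneg_left (show Real.log D ≤ 2 * lg ε by linarith)
      (show 0 ≤ |M| + 1 by linarith)]
  · have k1 : η / 4 / lg ε ≤ η / 2 / Real.log D := by
      rw [div_le_div_iff₀ (by linarith) (by linarith)]
      linarith [mul_le_mul_of_nonneg_left (show Real.log D ≤ 2 * lg ε by linarith) hη.le]
    have k2 : 3 * C * ((|K| + B + 2) * ε) ≤ η / 2 / Real.log D := by
      rw [le_div_iff₀ (by linarith)]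
      rw [div_mul_eq_mul_div, le_div_iff₀ (by positivity), ← eD] at l2
      refine le_of_mul_le_mul_right ?_ (show 0 < D by linarith)
      linarith only [l2]
    rw [show η / Real.log D = η / 2 / Real.log D + η / 2 / Real.log D by ring]
    exact add_le_add k1 k2
  · rw [one_div, inv_mul_eq_div, le_div_iff₀ (by positivity)] at l1
    linarith

end Vale.Agent.P134C
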