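import Vale.Agent.P134C.Iso0
import Vale.Agent.P134W.Mu

/-!
# P134C, row c.TWO: from the tilt to the two-point function
-/

open MeasureTheory Metric Filter Topology Set
open scoped ContDiff RealInnerProductSpace
open Vale.Agent.P366.Stmt (E)

noncomputable section

namespace Vale.Agent.P134C

open Vale.Agent.P134B Vale.Agent.P134W.MuAux

namespace TwoAux

variable {n : ℕ} {C R σ : ℝ} {u : E n → ℝ} {e x : E n}

theorem rm_le (h : Ok C u) {z : E n} {B : ℝ}
    (k : ∀ t : ℝ, 0 ≤ t → t ≤ 1 → ‖pp u (x + t • z) - pp u x‖ ≤ B * ‖z‖) :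
    |rm u x z| ≤ B * ‖z‖ ^ 2 := by
  have := seg (B := B * ‖z‖ ^ 2) (rm_line h x z) fun t h0 h1 => by
    have k3 := mul_le_mul_of_nonneg_right (k t h0 h1) (norm_nonneg z)
    exact (abs_real_inner_le_norm _ _).trans (by linarith)
  convert this using 2
  simp only [rm, one_smul, zero_smul, add_zero]; ring

theorem tilt_le (h : Ok C u) (he : ‖e‖ = 1) {w : E n} {s : ℝ} (hs : 0 ≤ s)
    (k : 1 - pe u e w ≤ s ^ 2) : ‖pp u w - e‖ ≤ 3 / 2 * s ∧ ‖SS u w‖ ≤ C * (3 / 2 * s) := by
  have p1 := h.tpp_le w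
  have p0 := norm_nonneg (pp u w)
  have p2 : pe u e w ≤ ‖pp u w‖ := by simpa [he, pe] using real_inner_le_norm (pp u w) e
  constructor
  · refine abs_le_of_sq_le_sq' ?_ (by positivity) |>.2
    rw [norm_sub_sq_real, he]
    unfold pe at k
    nlinarith
  · refine (h.S0 w).trans (mul_le_mul_of_nonneg_left (Real.sqrt_le_iff.2 ⟨by positivity, ?_⟩)
      (by linarith [h.C1]))
    unfold qq
    nlinarith

theorem mu_le (h : Ok C u) (he : ‖e‖ = 1) (hR : 1 ≤ R) (hσ : 0 ≤ σ)
    (k : ∀ w ∈ closedBall x R, 1 - pe u e w ≤ (σ * (1 + ‖w - x‖)) ^ 2) :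
    mu u x ≤ max (24 * C * σ) (4 / R) := by
  have hC := h.C1
  have t := fun w hw => tilt_le h he (w := w) (by positivity) (k w hw)
  refine ciSup_le fun z => ?_
  show P134W.Z2 (ps u) x z ≤ _
  by_cases hz : z = 0
  · rw [hz, z2_zero]; exact le_max_of_le_right (by positivity)
  have z0 := norm_nonneg z
  have cs : σ * ‖z‖ ^ 2 ≤ C * σ * ‖z‖ ^ 2 := by
    rw [mul_assoc]; exact le_mul_of_one_le_left (by positivity) hC
  have c0 : 0 ≤ σ * ‖z‖ ^ 2 := by positivity
  rcases le_total R ‖z‖ with h1 | h1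
  · refine le_max_of_le_right (z2_le hz ?_)
    have k1 := (abs_le.1 (rm4 h x z)).1
    have k2 : 4 * ‖z‖ ≤ 4 / R * ‖z‖ ^ 2 := by
      rw [div_mul_eq_mul_div, le_div_iff₀ (by linarith)]
      nlinarith [mul_le_mul_of_nonneg_left h1 z0]
    linarith
  refine le_max_of_le_left (z2_le hz ?_)
  rcases le_total 1 ‖z‖ with h2 | h2
  · have := rm_le h (x := x) (z := z) (B := 9 / 2 * σ) fun s s0 s1 => by
      have n1 := nt s0 s1 z
      have a1 := (t (x + s • z) (by simpa using n1.trans h1)).1
      have a2 := (t x (mem_closedBall_self (by linarith))).1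
      rw [add_sub_cancel_left] at a1
      rw [sub_self, norm_zero] at a2
      have a3 := norm_sub_le_norm_sub_add_norm_sub (pp u (x + s • z)) e (pp u x)
      rw [norm_sub_rev e] at a3
      nlinarith [mul_le_mul_of_nonneg_left n1 hσ, mul_le_mul_of_nonneg_left h2 hσ]
    linarith [(abs_le.1 this).1]
  · have := rm_le h (x := x) (z := z) (B := 3 * C * σ) fun s s0 s1 => by
      have n1 := nt s0 s1 z
      have a1 := (convex_closedBall x 1).norm_image_sub_le_of_norm_hasFDerivWithin_le (𝕜 := ℝ)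
        (C := 3 * C * σ) (fun w _ => (hp h w).hasFDerivWithinAt) (fun w hw => by
          refine (t w (closedBall_subset_closedBall hR hw)).2.trans ?_
          have := mul_le_mul_of_nonneg_left (mem_closedBall_iff_norm.1 hw)
            (by positivity : 0 ≤ C * σ)
          nlinarith) (mem_closedBall_self zero_le_one) (y := x + s • z)
        (by simpa using n1.trans h2)
      rw [add_sub_cancel_left] at a1
      exact a1.trans (mul_le_mul_of_nonneg_left n1 (by positivity))
    linarith [(abs_le.1 this).1]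

end TwoAux

/-- Row c.TWO. -/
theorem two : rTWO := by
  intro sym n C R σ u e x h he hR hσ k
  have s := sym.1 n u
  have a := TwoAux.mu_le h he hR hσ k
  have b := TwoAux.mu_le (e := -e) (x := x) (s.2.1 C h) (by simpa using he) hR hσ fun w hw => by
    have := k w hw
    unfold pe at this ⊢
    rwa [s.1.2.2.1, Pi.neg_apply, inner_neg_neg]
  unfold Gam
  linarith

end Vale.Agent.P134C
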