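import Vale.Agent.P134C.Top

/-!
# P134C: a short gap above the foot forces a large value of the two-point function
-/

open MeasureTheory Metric Filter Topology Set
open scoped ContDiff RealInnerProductSpace
open Vale.Agent.P366.Stmt (E)

noncomputable section

namespace Vale.Agent.P134C

open Vale.Agent.P134B

namespace Upg

variable {n : ℕ} {C : ℝ} {u : E n → ℝ}

theorem pos_iff (h : Ok C u) (x : E n) : 0 < u x ↔ 0 < ps u x := by
  rw [h.th, Real.tanh_eq_sinh_div_cosh, div_pos_iff_of_pos_right (Real.cosh_pos _),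
    Real.sinh_pos_iff, div_pos_iff_of_pos_right (by positivity)]

theorem dray (h : Ok C u) (y e : E n) (r : ℝ) :
    HasDerivAt (fun r : ℝ => ps u (y + r • e)) (pe u e (y + r • e)) r := by
  have l : HasDerivAt (fun r : ℝ => y + r • e) e r := by
    simpa using ((hasDerivAt_id r).smul_const e).const_add y
  rw [pe, pp, P366W.inner_grad]
  exact (h.smp.differentiable (by simp) _).hasFDerivAt.comp_hasDerivAt r l

/-- the deficit is large only at a large depth -/
theorem deep (h : Ok C u) {x : E n} {D : ℝ} (D0 : 0 < D) (hD : 2 * Real.log (3200 * C) ≤ Real.log D)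
    (hE : EE u x * D ^ 2 ≤ 16 * C) (hq : 1 / 100 ≤ qq u x) : Real.log D / 2 ≤ |ps u x| := by
  have C0 : 0 < 3200 * C := by linarith [h.C1]
  have h1 := pow_le_pow_left₀ (by positivity) (h.flo x) 2
  rw [div_pow, Real.sq_sqrt two_pos.le, ← Real.exp_nat_mul] at h1
  have h2 : ff u x ^ 2 * D ^ 2 ≤ 1600 * C := by
    have := mul_le_mul_of_nonneg_left hq (mul_nonneg (sq_nonneg (ff u x)) (sq_nonneg D))
    unfold EE at hE
    linarith
  have h3 := Real.log_le_log (by positivity) ((mul_le_mul_of_nonneg_right ((div_le_iff₀ two_pos).1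
    h1) (sq_nonneg D)).trans (show _ ≤ 3200 * C by linarith))
  rw [Real.log_mul (by positivity) (by positivity), Real.log_exp, Real.log_pow] at h3
  have h4 : √2 ≤ 3 / 2 := Real.sqrt_le_iff.2 (by norm_num)
  have := mul_le_mul_of_nonneg_right h4 (abs_nonneg (ps u x))
  push_cast at h3
  linarith

/-- above the foot the phase is larger than at the foot -/
theorem above {φ : ℝ → ℝ} {s t r : ℝ} (c : Continuous φ) (d : HasDerivAt φ s 0) (hs : 0 < s)
    (ne : ∀ t' ∈ uIoo 0 t, φ t' ≠ φ 0) (r0 : 0 ≤ r) (r1 : r ≤ t) : φ 0 ≤ φ r := by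
  by_contra k
  push Not at k
  have r2 : 0 < r := r0.lt_of_ne fun e => by simp [← e] at k
  have h1 := (hasDerivAt_iff_tendsto_slope_zero.1 d).eventually (lt_mem_nhds hs)
  obtain ⟨a, a1, a2⟩ := ((h1.filter_mono (nhdsGT_le_nhdsNE 0)).and (Ioo_mem_nhdsGT r2)).exists
  have a3 : φ 0 < φ a := by
    rw [smul_eq_mul, zero_add] at a1
    exact sub_pos.1 ((mul_pos_iff_of_pos_left (inv_pos.2 a2.1)).1 a1)
  obtain ⟨b, hb, e⟩ := intermediate_value_Ioo' a2.2.le c.continuousOn ⟨k, a3⟩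
  exact ne b (by rw [uIoo_of_le (r0.trans r1)]; exact ⟨a2.1.trans hb.1, hb.2.trans_le r1⟩) e

/-- the argument on the ray -/
theorem line {φ s : ℝ → ℝ} {L T B G t a μ : ℝ} (dφ : ∀ r, HasDerivAt φ (s r) r) (cs : Continuous s)
    (lip : ∀ r r', |φ r - φ r'| ≤ |r - r'|) (p0 : |φ 0| ≤ 1 / 2) (s0 : 0 < s 0)
    (ab : ∀ r, 0 ≤ r → r ≤ t → φ 0 ≤ φ r)
    (np : (Icc 2 a ∩ {r | φ r ≤ 0}).Nonempty) (gp : ∀ r, 2 ≤ r → r ≤ G → 0 < φ r) (c4 : 4 ≤ G)
    (t0 : 0 ≤ t) (tL : t ≤ T * L) (hB : T * L = B * G) (B0 : 0 < B) (T1 : 1 ≤ T) (L6 : 6 ≤ L)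
    (z : ∀ r, |r| ≤ T * L + 4 → (|φ r| ≤ 2 → 9 / 10 ≤ |s r|) ∧ (|s r| ≤ 1 / 2 → L / 2 ≤ |φ r|))
    (μ0 : 0 ≤ μ) (par : ∀ r, φ t + (r - t) * s t - μ * (r - t) ^ 2 / 2 ≤ φ r) :
    t ≤ B * a ∧ 1 ≤ (B + 2 * T) * a * μ := by
  have cφ : Continuous φ := continuous_iff_continuousAt.2 fun r => (dφ r).continuousAt
  obtain ⟨g, ⟨hg, g0⟩, gl⟩ :=
    (isCompact_Icc.inter_right (isClosed_le cφ continuous_const)).exists_isLeast np
  replace g0 : φ g ≤ 0 := g0
  have gc : G < g := not_le.1 fun k => (gp g hg.1 k).not_ge g0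
  have g1 : φ g = 0 := by
    obtain ⟨r, hr, r0⟩ := intermediate_value_Icc' hg.1 cφ.continuousOn
      ⟨g0, (gp 2 le_rfl (by linarith)).le⟩
    rwa [← le_antisymm hr.2 (gl ⟨⟨hr.1, hr.2.trans hg.2⟩, r0.le⟩)]
  have tB : t ≤ B * a := tL.trans (hB ▸ mul_le_mul_of_nonneg_left (gc.le.trans hg.2) B0.le)
  have cl : g ≤ t + 2 → s t ≤ -(1 / 2) := fun k => by
    have b1 : ∀ r ∈ Icc (g - 2) (g + 2), 9 / 10 ≤ |s r| := fun r hr =>
      (z r (abs_le.2 ⟨by linarith [hr.1], by linarith [hr.2]⟩)).1 (by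
        simpa [g1] using (lip r g).trans (abs_le.2 ⟨by linarith [hr.1], by linarith [hr.2]⟩))
    obtain ⟨ξ, hξ, x1⟩ := exists_hasDerivAt_eq_slope φ s (show g - 1 < g by linarith)
      cφ.continuousOn fun r _ => dφ r
    have x2 : 0 < φ (g - 1) := not_le.1 fun k' => by
      linarith [gl ⟨⟨by linarith, by linarith [hg.2]⟩, k'⟩]
    have x3 : s ξ < 0 := by rw [x1, g1]; norm_num; exact x2
    have b2 : ∀ r ∈ Icc (g - 2) (g + 2), s r ≤ -(9 / 10) := fun r hr => by
      rcases le_abs'.1 (b1 r hr) with k' | k'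
      · exact k'
      · obtain ⟨z, hz, z0⟩ := isPreconnected_Icc.intermediate_value
          (show ξ ∈ Icc (g - 2) (g + 2) from ⟨by linarith [hξ.1], by linarith [hξ.2]⟩) hr
          cs.continuousOn (show (0 : ℝ) ∈ Icc (s ξ) (s r) from ⟨x3.le, by linarith⟩)
        have := b1 z hz
        norm_num [z0] at this
    rcases le_total t (g + 2) with k' | k'
    · linarith [b2 t ⟨by linarith, k'⟩]
    · obtain ⟨ζ, hζ, x4⟩ := exists_hasDerivAt_eq_slope φ s (show g < g + 1 by linarith)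
        cφ.continuousOn fun r _ => dφ r
      have := b2 ζ ⟨by linarith [hζ.1], by linarith [hζ.2]⟩
      rw [x4, g1] at this
      norm_num at this
      linarith [ab (g + 1) (by linarith) (by linarith), (abs_le.1 p0).1]
  have pt := ab t t0 le_rfl
  obtain ⟨p1, p2⟩ := abs_le.1 p0
  have a0 : 0 ≤ a * μ := mul_nonneg (by linarith [hg.1, hg.2]) μ0
  have q1 := mul_nonneg B0.le a0
  have q2 := mul_le_mul_of_nonneg_right T1 a0
  refine ⟨tB, ?_⟩
  rcases le_or_gt (s t) (-(1 / 2)) with k | k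
  · have t1 : 0 < t := t0.lt_of_ne fun k' => by rw [← k'] at k; linarith
    have : 1 ≤ t * μ := le_of_mul_le_mul_left (by
      linarith only [par 0, pt, mul_le_mul_of_nonneg_left k t0]) t1
    linarith only [mul_le_mul_of_nonneg_right tB μ0, this, q2, a0]
  have g2 : t + 2 < g := not_le.1 fun k' => (cl k').not_gt k
  have g4 : 0 < g - t := by linarith
  have g3 := mul_le_mul_of_nonneg_right (show g - t ≤ a by linarith [hg.2]) μ0
  rcases le_or_gt (1 / 2) (s t) with k' | k'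
  · have : 1 ≤ 2 * ((g - t) * μ) := le_of_mul_le_mul_left (by
      linarith only [par g, mul_le_mul_of_nonneg_left k' g4.le, pt, p1, g0, g2]) g4
    linarith only [this, g3, q1, q2]
  · have z4 := (z t (by rw [abs_of_nonneg t0]; linarith)).2 (abs_le.2 ⟨k.le, k'.le⟩)
    have z5 : L / 2 ≤ φ t := (le_abs'.1 z4).resolve_left (by linarith)
    have z6 : 2 * φ t - 1 ≤ t * ((g - t) * μ) := le_of_mul_le_mul_left (by
      linarith only [mul_le_mul_of_nonneg_left ((par g).trans g0) t0,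
        mul_le_mul_of_nonneg_left ((par 0).trans p2) g4.le, t0]) (show 0 < g by linarith)
    have z7 := mul_le_mul tL g3 (mul_nonneg g4.le μ0) (by positivity)
    have : 1 ≤ 2 * T * (a * μ) := le_of_mul_le_mul_left (by linarith only [z5, z6, z7, L6])
      (show 0 < L by linarith)
    linarith only [this, q1]

end Upg

open Upg in
theorem upg : rUPG := by
  intro hmu tly gap m C δ T
  obtain ⟨c, c0, d₁, hgap⟩ := gap m C δ
  obtain ⟨T', hT'⟩ : ∃ T', T' = |T| + 1 := ⟨_, rfl⟩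
  have T1 : 1 ≤ T' := by rw [hT']; linarith [abs_nonneg T]
  have T2 : T ≤ T' := by rw [hT']; linarith [le_abs_self T]
  obtain ⟨d₂, d2, htl⟩ := tly m C δ (T' + 1) (1 / 10) (by norm_num)
  obtain ⟨d₀, hd⟩ := eventually_atTop.1 (((Real.isLittleO_log_id_atTop.bound
    (show 0 < 1 / (2 * T') by positivity)).and (eventually_ge_atTop (max d₂ (2 * d₁)))).and
    (Real.tendsto_log_atTop.eventually_ge_atTop (max (max 6 (8 / c)) (2 * Real.log (3200 * C)))))
  obtain ⟨B, hB⟩ : ∃ B, B = 2 * T' / c := ⟨_, rfl⟩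
  have B0 : 0 < B := by rw [hB]; positivity
  refine ⟨2 * B + 2 * T' + 1, by positivity, d₀, fun u x y t a rt hx ft t0 a2 np => ?_⟩
  obtain ⟨D, hD⟩ : ∃ D, D = dd δ u x := ⟨_, rfl⟩
  rw [← hD] at hx ft
  obtain ⟨⟨k1, k2⟩, k3⟩ := hd D hx
  simp only [max_le_iff] at k2 k3
  obtain ⟨⟨L6, Lc⟩, LC⟩ := k3
  have D0 : 0 < D := by linarith [k2.1]
  have h := rt.ok
  have tL : t ≤ T' * Real.log D :=
    ((le_abs_self t).trans ft.le).trans (mul_le_mul_of_nonneg_right T2 (by linarith))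
  have tD : T' * Real.log D ≤ D / 2 := by
    rw [Real.norm_of_nonneg (by linarith), id, Real.norm_of_nonneg D0.le, one_div,
      inv_mul_eq_div, le_div_iff₀ (by positivity)] at k1
    linarith
  obtain ⟨e, he⟩ : ∃ e, e = nu u y := ⟨_, rfl⟩
  have e1 : ‖e‖ ≤ 1 := by
    rw [he, nu, norm_smul, norm_inv, norm_norm]
    exact inv_mul_le_one
  have ex : x = y + t • e := he ▸ ft.eq
  have dy : D ≤ 2 * dd δ u y := by
    have := infDist_le_infDist_add_dist (x := x) (y := y) (s := Bad δ u)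
    rw [ex, dist_self_add_left, norm_smul, Real.norm_of_nonneg t0, ← ex] at this
    have : D ≤ dd δ u y + t * ‖e‖ := hD ▸ this
    linarith [mul_le_mul_of_nonneg_left e1 t0]
  obtain ⟨e2, tl⟩ := htl u y D rt k2.1 dy ft.lo
  rw [← he] at e2 tl
  obtain ⟨φ, hφ⟩ : ∃ φ : ℝ → ℝ, φ = fun r => ps u (y + r • e) := ⟨_, rfl⟩
  have dφ : ∀ r, HasDerivAt φ (pe u e (y + r • e)) r := hφ ▸ dray h y e
  have lip : ∀ r r', |φ r - φ r'| ≤ |r - r'| := fun r r' => by
    have := h.tlip (y + r' • e) (y + r • e)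
    rw [add_sub_add_left_eq_sub, ← sub_smul, norm_smul, e2, mul_one] at this
    exact hφ ▸ this
  have p0 : |φ 0| ≤ 1 / 2 := by simpa [hφ] using ft.lo
  have s0 : 0 < pe u e (y + (0 : ℝ) • e) := by
    have : pp u y ≠ 0 := fun k => by simp [he, nu, k] at e2
    simp only [zero_smul, add_zero, pe, he, nu, inner_smul_right, real_inner_self_eq_norm_sq]
    positivity
  obtain ⟨-, m0, -, m1, -⟩ := hmu _ C u h
  obtain ⟨μ, hμ⟩ : ∃ μ, μ = mu u x := ⟨_, rfl⟩
  have μ0 : 0 ≤ μ := hμ ▸ m0 x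
  obtain ⟨tB, key⟩ := line (s := fun r => pe u e (y + r • e)) (a := a) (B := B)
    (G := c * Real.log D / 2) dφ ((h.tcpe e).continuous.comp (by fun_prop)) lip p0 s0
    (fun r => above (continuous_iff_continuousAt.2 fun r => (dφ r).continuousAt) (dφ 0) s0
      fun t' ht => by simpa [hφ, he] using ft.ne t' ht) (by
      simp only [Pos, not_forall, pos_iff h, not_lt, ← he] at np
      obtain ⟨r, r1, r2⟩ := np
      exact ⟨r, r1, by simpa [hφ] using r2⟩) (fun r r1 r2 => by
      have l : Real.log D / 2 ≤ Real.log (dd δ u y) := by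
        have := Real.log_le_log D0 dy
        rw [Real.log_mul two_ne_zero (by linarith)] at this
        linarith [Real.log_two_lt_d9]
      have := hgap u y rt (by linarith [k2.2]) ft.lo r
        ⟨r1, by linarith only [r2, mul_le_mul_of_nonneg_left l c0.le]⟩
      rw [pos_iff h, ← he] at this
      exact hφ ▸ this) (by rw [div_le_iff₀' c0] at Lc; linarith) t0 tL (by rw [hB]; field_simp) B0
    T1 L6 (fun r hr => by
      obtain ⟨z, z'⟩ := tl (y + r • e) (by
        rw [mem_ball, dist_self_add_left, norm_smul, e2, Real.norm_eq_abs]; linarith)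
      have z1 := norm_sub_norm_le (pp u (y + r • e)) (pe u e (y + r • e) • e)
      rw [norm_smul, e2, Real.norm_eq_abs] at z1
      have k : 1 / 10 / Real.log D ≤ 1 / 10 / 6 := div_le_div_of_nonneg_left (by norm_num)
        (by norm_num) L6
      have z2 := deep h D0 LC z'
      have z3 := z.t0
      simp only [hφ]
      refine ⟨fun k' => ?_, fun k' => z2 ?_⟩
      · linarith [h.tpp_ge (y + r • e), not_le.1 fun k'' => by linarith [z2 k'']]
      · unfold qq
        nlinarith only [norm_nonneg (pp u (y + r • e)), show ‖pp u (y + r • e)‖ ≤ 3 / 5 by linarith])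
    μ0 (fun r => by
      have := m1 x ((r - t) • e)
      rw [norm_smul, e2, mul_one, Real.norm_eq_abs, sq_abs, inner_smul_right, ex, add_assoc,
        ← add_smul, add_sub_cancel, ← ex] at this
      rw [hφ, hμ]
      simp only [← ex]
      exact this)
  have μ1 : 0 < μ := μ0.lt_of_ne fun k => by rw [← k] at key; linarith
  have px : ps u x ≤ 1 / 2 + B * a := by
    have := (abs_le.1 (lip t 0)).2
    rw [sub_zero, abs_of_nonneg t0] at this
    have p2 := (abs_le.1 p0).2
    rw [ex]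
    simp only [hφ] at this p2
    linarith
  rw [ph, ← hμ, ← mul_div_assoc, one_le_div (lt_max_of_lt_right μ1)]
  have w1 := mul_le_mul_of_nonneg_right a2 μ0
  have w2 : 0 ≤ (B + T') * (a * μ) := by positivity
  refine max_le ?_ (by linarith only [w1, w2, μ0])
  unfold th
  linarith only [h.q0 x, mul_le_mul_of_nonneg_right px μ0, key, w1, μ0]

end Vale.Agent.P134C
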