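import Vale.Agent.P134C.Iso0
import Vale.Agent.P134B.BAR
import Vale.Agent.P134B.TL0
import Vale.Agent.P134B.MAX
import Vale.Agent.P134J.Loc

/-! # P134C, row ZB: the tilt in the tails -/

set_option linter.all false

open MeasureTheory Metric Filter Topology Set
open scoped ContDiff RealInnerProductSpace
open Vale.Agent.P366.Stmt (E)
open Vale.Agent.P366W

noncomputable section

namespace Vale.Agent.P134C

open Vale.Agent.P134B

namespace Zb

variable {n : ℕ} {C : ℝ} {u : E n → ℝ}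

theorem l40 : -Real.log (1 / 10 / 4) ≤ 4 := by
  rw [← Real.log_inv, Real.log_le_iff_le_exp (by norm_num)]
  have h := Real.exp_one_gt_d9
  have e : Real.exp 4 = Real.exp 1 ^ 4 := by rw [← Real.exp_nat_mul]; norm_num
  rw [e]
  have : (2.7 : ℝ) ^ 4 ≤ Real.exp 1 ^ 4 := by gcongr; linarith
  norm_num at this ⊢
  linarith

theorem baru (h : Ok C u) {γ : ℝ} (h0 : 0 < γ) (h1 : γ ≤ 1) (x₀ : E n) {x : E n}
    (hx : 4 ≤ |ps u x|) (hP : PP u x ≤ γ / 10) :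
    Lf u (fun y => ff u y ^ (-γ) * ch (γ / 20) x₀ y) x +
      PP u x * (ff u x ^ (-γ) * ch (γ / 20) x₀ x) ≤
      -(γ / 2) * (ff u x ^ (-γ) * ch (γ / 20) x₀ x) := by
  have hs := h.small (η := 1 / 10) (by positivity) (l40.trans hx)
  have hF : 0 < ff u x ^ (-γ) := Real.rpow_pos_of_pos (h.ff_pos x) _
  have hG := ch_nonneg (γ / 20) x₀ x
  have hq := h.q0 x
  have hq1 : 0 ≤ 1 - qq u x := by rw [qq]; nlinarith [sq_nonneg ‖pp u x‖]
  have hs0 : 0 ≤ √2 * ff u x := mul_nonneg (by positivity) (h.ff_pos x).le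
  have hu := h.sq_eq x
  have h2 : √2 ≤ 3 / 2 := Real.sqrt_le_iff.2 (by norm_num)
  have h3 : |2 * √2 * (1 - γ) * u x * ⟪pp u x, gradient (ch (γ / 20) x₀) x⟫| ≤
      3 * (γ / 20 * ch (γ / 20) x₀ x) := by
    have h4 : |⟪pp u x, gradient (ch (γ / 20) x₀) x⟫| ≤ 1 * (γ / 20 * ch (γ / 20) x₀ x) := by
      refine (abs_real_inner_le_norm _ _).trans (mul_le_mul (h.norm_pp x) ?_ (norm_nonneg _)
        zero_le_one)
      simpa [abs_of_pos (show 0 < γ / 20 by positivity)] using norm_gradient_ch (γ / 20) x₀ x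
    rw [abs_mul, abs_mul, abs_of_nonneg (mul_nonneg (by positivity) (by linarith))]
    calc _ ≤ 2 * (3 / 2) * 1 * 1 * (1 * (γ / 20 * ch (γ / 20) x₀ x)) := by
          gcongr
          · linarith
          · exact (h.lt x).le
      _ = _ := by ring
  have h5 : √2 * γ * ff u x * (1 - qq u x) + (2 * γ ^ 2 - 4 * γ) * u x ^ 2 * (1 - qq u x) -
      2 * γ * u x ^ 2 * qq u x + (γ / 20) ^ 2 + 3 * (γ / 20) + PP u x ≤ -(γ / 2) := by
    have a0 : √2 * ff u x * (1 - qq u x) ≤ 1 / 10 := by nlinarith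
    have a1 : γ * (√2 * ff u x * (1 - qq u x)) ≤ γ * (1 / 10) :=
      mul_le_mul_of_nonneg_left a0 h0.le
    have a2 : 0 ≤ γ * (1 - γ) * (u x ^ 2 * (1 - qq u x)) :=
      mul_nonneg (mul_nonneg h0.le (by linarith)) (mul_nonneg (sq_nonneg _) hq1)
    have a3 : γ * (9 / 10) ≤ γ * u x ^ 2 := mul_le_mul_of_nonneg_left (by linarith) h0.le
    have a4 : γ * γ ≤ γ := mul_le_of_le_one_left h0.le h1
    nlinarith
  rw [h.Lf_pow γ (ch_smooth _ _), lap_ch]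
  have h6 := mul_le_mul_of_nonneg_left h5 hG
  have h7 := (abs_le.1 h3).1
  have h8 : ch (γ / 20) x₀ x * (√2 * γ * ff u x * (1 - qq u x) +
      (2 * γ ^ 2 - 4 * γ) * u x ^ 2 * (1 - qq u x) - 2 * γ * u x ^ 2 * qq u x) +
      (γ / 20) ^ 2 * ch (γ / 20) x₀ x -
      2 * √2 * (1 - γ) * u x * ⟪pp u x, gradient (ch (γ / 20) x₀) x⟫ +
      PP u x * ch (γ / 20) x₀ x ≤ -(γ / 2) * ch (γ / 20) x₀ x := by
    linarith
  have h9 := mul_le_mul_of_nonneg_left h8 hF.le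
  linarith

theorem P0 (h : Ok C u) (x : E n) : 0 ≤ PP u x :=
  mul_nonneg (mul_nonneg (by positivity) (h.ff_pos x).le) (h.q0 x)

theorem quo (h : Ok C u) (e x : E n) {ρ : ℝ} (hρ : 0 ≤ ρ) {B : E n → ℝ} (B2 : ContDiff ℝ 2 B)
    (B0 : ∀ y, 0 < B y)
    (hb : ∀ y, ‖y - x‖ < ρ → 1 - pe u e y ≤ B y ∨ Lf u B y + PP u y * B y < 0)
    (sph : ∀ y, ‖y - x‖ = ρ → 1 - pe u e y ≤ B y) : 1 - pe u e x ≤ B x := by
  have ξ2 : ContDiff ℝ 2 (pe u e) :=
    ((smooth_gradient h.smp).of_le (by norm_cast)).inner ℝ contDiff_const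
  have z2 : ContDiff ℝ 2 fun y => 1 - pe u e y := contDiff_const.sub ξ2
  obtain ⟨y, y1, y2⟩ := (isCompact_closedBall x ρ).exists_isMaxOn ⟨x, mem_closedBall_self hρ⟩
    (z2.continuous.div B2.continuous fun y => (B0 y).ne').continuousOn
  have key : (1 - pe u e y) / B y ≤ 1 := by
    rw [mem_closedBall, dist_eq_norm] at y1
    rcases y1.eq_or_lt with k | k
    · exact (div_le_one (B0 y)).2 (sph y k)
    rcases hb y k with a | a
    · exact (div_le_one (B0 y)).2 a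
    refine not_lt.1 fun t0 => ?_
    have e0 : 1 - pe u e y = (1 - pe u e y) / B y * B y := (div_mul_cancel₀ _ (B0 y).ne').symm
    obtain ⟨m1, m2⟩ := max' n (fun w => (1 - pe u e w) - (1 - pe u e y) / B y * B w) y
      (z2.sub (contDiff_const.mul B2)).contDiffAt (by
        filter_upwards [closedBall_mem_nhds_of_mem
          (show y ∈ ball x ρ by rwa [mem_ball, dist_eq_norm])] with w hw
        rw [← e0, sub_self, sub_nonpos]
        exact (div_le_iff₀ (B0 w)).1 (y2 hw))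
    have k1 := Tl0.lf_sub (u := u) z2 B2 ((1 - pe u e y) / B y) y
    have k2 : Lf u (fun y => 1 - pe u e y) y = PP u y * pe u e y := by
      rw [P134J.Lf_eq, P134J.Lb_sub contDiffAt_const ξ2.contDiffAt, P134J.Lb_const,
        ← P134J.Lf_eq, h.jac]
      ring
    rw [k2, Lf, m1, inner_zero_right] at k1
    have b3 := mul_lt_mul_of_pos_left a (one_pos.trans t0)
    have b5 : PP u y * (1 - pe u e y) = PP u y * ((1 - pe u e y) / B y * B y) := congrArg _ e0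
    have := P0 h y
    linarith
  exact (div_le_one (B0 x)).1 ((y2 (mem_closedBall_self hρ)).trans key)

theorem zeq {e : E n} (he : ‖e‖ = 1) (w : E n) : 1 - pe u e w = (‖pp u w - e‖ ^ 2 + qq u w) / 2 := by
  rw [norm_sub_sq_real, he, pe, qq]; ring

theorem qlow (h : Ok C u) {w : E n} {ε : ℝ} (hE : EE u w ≤ ε ^ 2) (hw : |ps u w| ≤ 4) :
    qq u w ≤ 2 * Real.exp 12 * ε ^ 2 := by
  have h2 : √2 ≤ 3 / 2 := Real.sqrt_le_iff.2 (by norm_num)
  have a : Real.exp (-6) ≤ Real.exp (-(√2 * |ps u w|)) := Real.exp_le_exp.2 (by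
    have := mul_le_mul h2 hw (abs_nonneg _) (by norm_num); linarith)
  have b : Real.exp (-6) / √2 ≤ ff u w := le_trans (by gcongr) (h.flo w)
  have c : (Real.exp (-6) / √2) ^ 2 ≤ ff u w ^ 2 := by gcongr
  have d : (Real.exp (-6) / √2) ^ 2 * (2 * Real.exp 12) = 1 := by
    rw [div_pow, Real.sq_sqrt (by norm_num), ← Real.exp_nat_mul]
    have : Real.exp ((2 : ℕ) * -6) * Real.exp 12 = 1 := by rw [← Real.exp_add]; norm_num
    linear_combination this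
  have k : (Real.exp (-6) / √2) ^ 2 * qq u w ≤ ε ^ 2 :=
    le_trans (mul_le_mul_of_nonneg_right c (h.q0 w)) hE
  calc qq u w = (Real.exp (-6) / √2) ^ 2 * qq u w * (2 * Real.exp 12) := by
        rw [mul_right_comm, d, one_mul]
    _ ≤ ε ^ 2 * (2 * Real.exp 12) := by gcongr
    _ = _ := by ring

theorem Ple (h : Ok C u) {w : E n} {ε : ℝ} (h0 : 0 < ε) (hE : EE u w ≤ ε ^ 2) :
    PP u w ≤ 2 * ε := by
  have hq := h.q0 w
  have hq1 : qq u w ≤ 1 := by rw [qq]; nlinarith [sq_nonneg ‖pp u w‖]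
  refine (abs_le_of_sq_le_sq' ?_ (by positivity)).2
  have : PP u w ^ 2 = 2 * EE u w * qq u w := by
    rw [PP, EE, mul_pow, mul_pow, Real.sq_sqrt (by norm_num)]; ring
  have hE0 : 0 ≤ EE u w := mul_nonneg (sq_nonneg _) hq
  nlinarith [sq_nonneg ε]

theorem fpow (h : Ok C u) (x : E n) {γ : ℝ} (h0 : 0 ≤ γ) (h1 : γ ≤ 1) :
    ff u x ^ (-γ) ≤ 2 * Real.exp (2 * (γ * |ps u x|)) := by
  have h2 : √2 ≤ 2 := Real.sqrt_le_iff.2 (by norm_num)
  have a : Real.exp (-(2 * |ps u x|)) / 2 ≤ ff u x := by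
    refine le_trans ?_ (h.flo x)
    have : Real.exp (-(2 * |ps u x|)) ≤ Real.exp (-(√2 * |ps u x|)) := Real.exp_le_exp.2 (by
      have := mul_le_mul_of_nonneg_right h2 (abs_nonneg (ps u x)); linarith)
    gcongr
  calc ff u x ^ (-γ) ≤ (Real.exp (-(2 * |ps u x|)) / 2) ^ (-γ) :=
        Real.rpow_le_rpow_of_nonpos (by positivity) a (by linarith)
    _ = 2 ^ γ * Real.exp (2 * (γ * |ps u x|)) := by
        rw [Real.div_rpow (by positivity) (by norm_num), ← Real.exp_mul, Real.rpow_neg (by norm_num),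
          div_inv_eq_mul, mul_comm]
        congr 2; ring
    _ ≤ 2 ^ (1 : ℝ) * Real.exp (2 * (γ * |ps u x|)) := by
        gcongr; norm_num
    _ = _ := by rw [Real.rpow_one]

theorem sq_le_ch (hn : 0 < n) {l : ℝ} (hl : 0 < l) (x w : E n) :
    ‖w - x‖ ^ 2 ≤ 4 * n / l ^ 2 * ch l x w := by
  have hn' : (0 : ℝ) < n := by exact_mod_cast hn
  have a := exp_le_ch hn l x w
  have b := Real.quadratic_le_exp_of_nonneg (x := l * ‖w - x‖ / √n) (by positivity)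
  have c : (l * ‖w - x‖ / √n) ^ 2 = l ^ 2 * ‖w - x‖ ^ 2 / n := by
    rw [div_pow, mul_pow, Real.sq_sqrt hn'.le]
  have d : 0 ≤ l * ‖w - x‖ / √n := by positivity
  have k : l ^ 2 * ‖w - x‖ ^ 2 / n ≤ 4 * ch l x w := by linarith
  rw [div_le_iff₀ hn'] at k
  rw [div_mul_eq_mul_div, le_div_iff₀ (by positivity)]
  linarith

theorem lb (h : Ok C u) {t : ℝ} (ht : 0 ≤ t) (l : ℝ) (x y : E n) :
    ch l x y ≤ ff u y ^ (-t) * ch l x y :=
  le_mul_of_one_le_left (ch_nonneg _ _ _)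
    (Real.one_le_rpow_of_pos_of_le_one_of_nonpos (Tl0.f0 h y) (Tl0.f1 y) (neg_nonpos.2 ht))

theorem p0 (h : Ok C u) (hn : 0 < n) {t : ℝ} (ht : 0 ≤ t) (l : ℝ) (x y : E n) :
    0 < ff u y ^ (-t) * ch l x y := one_pos.trans_le ((Tl0.ch1 hn l x y).trans (lb h ht l x y))

theorem c2 (h : Ok C u) (t l : ℝ) (x : E n) : ContDiff ℝ 2 fun y => ff u y ^ (-t) * ch l x y :=
  ((h.pow_smooth t).mul (ch_smooth _ _)).of_le (WithTop.coe_le_coe.2 (le_top (a := 2)))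

theorem low (h : Ok C u) (hn : 0 < n) {e x y : E n} (he : ‖e‖ = 1) {κ a ε T : ℝ} (hκ : 0 ≤ κ)
    (ha : 0 ≤ a) (T0 : 0 < T) (hE : EE u y ≤ ε ^ 2) (k : |ps u y| ≤ 4)
    (b1 : ‖pp u y - e‖ ≤ κ * (a + ‖y - x‖)) : 1 - pe u e y ≤
      (κ ^ 2 * (a ^ 2 + 1600 * n * T ^ 2) + Real.exp 12 * ε ^ 2) * ch (T⁻¹ / 20) x y := by
  have b2 := qlow h hE k
  have b3 := sq_le_ch hn (l := T⁻¹ / 20) (by positivity) x y
  have b4 : 4 * (n : ℝ) / (T⁻¹ / 20) ^ 2 = 1600 * n * T ^ 2 := by field_simp; norm_num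
  have b5 := Tl0.ch1 hn (T⁻¹ / 20) x y
  have b6 : ‖pp u y - e‖ ^ 2 ≤ (κ * (a + ‖y - x‖)) ^ 2 := by gcongr
  rw [b4] at b3
  generalize ch (T⁻¹ / 20) x y = c at *
  have b7 : (a + ‖y - x‖) ^ 2 ≤ 2 * ((a ^ 2 + 1600 * n * T ^ 2) * c) := by
    have : a ^ 2 ≤ a ^ 2 * c := le_mul_of_one_le_right (sq_nonneg _) b5
    nlinarith [sq_nonneg (a - ‖y - x‖)]
  have b8 := mul_le_mul_of_nonneg_left b7 (sq_nonneg κ)
  have b9 : Real.exp 12 * ε ^ 2 ≤ Real.exp 12 * ε ^ 2 * c :=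
    le_mul_of_one_le_right (by positivity) b5
  rw [zeq he]; rw [mul_pow] at b6; linarith

theorem sup2 (h : Ok C u) (hn : 0 < n) {γ d₁ d₂ : ℝ} (g0 : 0 < γ) (g1 : γ ≤ 1) (d10 : 0 < d₁)
    (d20 : 0 < d₂) (x : E n) {y : E n} (k : 4 ≤ |ps u y|) (hP : PP u y ≤ γ / 10) :
    Lf u (fun y => d₁ * (ff u y ^ (-γ) * ch (γ / 20) x y) +
      d₂ * (ff u y ^ (-(1 : ℝ)) * ch (1 / 20) x y)) y + PP u y *
      (d₁ * (ff u y ^ (-γ) * ch (γ / 20) x y) + d₂ * (ff u y ^ (-(1 : ℝ)) * ch (1 / 20) x y))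
      < 0 := by
  have b1 := mul_le_mul_of_nonneg_left (baru h g0 g1 x k hP) d10.le
  have b2 := mul_le_mul_of_nonneg_left (baru h one_pos le_rfl x k (by linarith)) d20.le
  have b3 := mul_pos d10 (mul_pos g0 (p0 h hn g0.le (γ / 20) x y))
  have b4 := mul_pos d20 (p0 h hn zero_le_one (1 / 20) x y)
  rw [P134J.Lf_eq, P134J.Lb_add (contDiff_const.mul (c2 h _ _ x)).contDiffAt
    (contDiff_const.mul (c2 h _ _ x)).contDiffAt, P134J.Lb_cmul _ (c2 h _ _ x).contDiffAt,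
    P134J.Lb_cmul _ (c2 h _ _ x).contDiffAt, ← P134J.Lf_eq, ← P134J.Lf_eq]
  linarith

theorem sph (h : Ok C u) (hn : 0 < n) {e x y : E n} (he : ‖e‖ = 1) :
    1 - pe u e y ≤ 4 * Real.exp (-(1 / (20 * √n + 1) * ‖y - x‖)) * ch (1 / 20) x y := by
  have hn' : (0 : ℝ) < n := by exact_mod_cast hn
  have b1 : 1 - pe u e y ≤ 2 := by
    have := (abs_le.1 ((abs_real_inner_le_norm (pp u y) e).trans
      (mul_le_mul (h.norm_pp y) he.le (norm_nonneg _) zero_le_one))).1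
    rw [pe]; linarith
  have b2 := exp_le_ch hn (1 / 20) x y
  have b3 : 1 / (20 * √n + 1) * ‖y - x‖ ≤ 1 / 20 * ‖y - x‖ / √n := by
    have s0 : 0 < √(n : ℝ) := Real.sqrt_pos.2 hn'
    rw [show 1 / 20 * ‖y - x‖ / √(n : ℝ) = 1 / (20 * √n) * ‖y - x‖ by field_simp]
    gcongr; linarith
  calc _ ≤ (2 : ℝ) := b1
    _ = 4 * Real.exp (-(1 / (20 * √n + 1) * ‖y - x‖)) *
        (Real.exp (1 / (20 * √n + 1) * ‖y - x‖) / 2) := by
        rw [Real.exp_neg]; field_simp; norm_num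
    _ ≤ 4 * Real.exp (-(1 / (20 * √n + 1) * ‖y - x‖)) *
        (Real.exp (1 / 20 * ‖y - x‖ / √n) / 2) := by gcongr
    _ ≤ _ := by gcongr

theorem num {N κ a ε p F₁ F₂ r : ℝ} (hN : 1 ≤ N) (ha : 0 ≤ a) (hp : 0 ≤ p) (F0 : 0 ≤ F₁)
    (a1 : F₁ ≤ 2 * Real.exp 2) (a2 : F₂ ≤ 2 * Real.exp (2 * p)) :
    (κ ^ 2 * (a ^ 2 + 1600 * N * (1 + p) ^ 2) + Real.exp 12 * ε ^ 2) * (F₁ * N) +
      4 * Real.exp (-r) * (F₂ * N) ≤ 4000 * Real.exp 12 * (N + 1) ^ 2 * Real.exp 2 *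
      ((κ * (a + 1 + p)) ^ 2 + ε ^ 2 + Real.exp (2 * p - r)) := by
  have e1 : 1 ≤ Real.exp 12 := Real.one_le_exp (by norm_num)
  have e2 : 1 ≤ Real.exp 2 := Real.one_le_exp (by norm_num)
  have N0 : 0 ≤ N := by linarith
  have a3 : κ ^ 2 * (a ^ 2 + 1600 * N * (1 + p) ^ 2) + Real.exp 12 * ε ^ 2 ≤
      1600 * N * Real.exp 12 * ((κ * (a + 1 + p)) ^ 2 + ε ^ 2) := by
    have k1 : a ^ 2 + 1600 * N * (1 + p) ^ 2 ≤ 1600 * N * (a + (1 + p)) ^ 2 := by
      have : a ^ 2 ≤ 1600 * N * a ^ 2 := le_mul_of_one_le_left (sq_nonneg _) (by linarith)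
      have : 0 ≤ N * (a * (1 + p)) := by positivity
      nlinarith
    have k2 : κ ^ 2 * (a ^ 2 + 1600 * N * (1 + p) ^ 2) ≤
        1600 * N * Real.exp 12 * (κ * (a + 1 + p)) ^ 2 := by
      calc _ ≤ κ ^ 2 * (1600 * N * (a + (1 + p)) ^ 2) := by gcongr
        _ = 1600 * N * 1 * (κ * (a + 1 + p)) ^ 2 := by ring
        _ ≤ _ := by gcongr
    have k3 : Real.exp 12 * ε ^ 2 ≤ 1600 * N * Real.exp 12 * ε ^ 2 := by
      rw [mul_assoc (1600 * N)]
      exact le_mul_of_one_le_left (by positivity) (by linarith)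
    linarith
  have a4 : 4 * Real.exp (-r) * (F₂ * N) ≤ 8 * N * Real.exp (2 * p - r) := by
    calc _ ≤ 4 * Real.exp (-r) * (2 * Real.exp (2 * p) * N) := by gcongr
      _ = _ := by rw [sub_eq_add_neg, Real.exp_add]; ring
  have a5 : (κ ^ 2 * (a ^ 2 + 1600 * N * (1 + p) ^ 2) + Real.exp 12 * ε ^ 2) * (F₁ * N) ≤
      1600 * N * Real.exp 12 * ((κ * (a + 1 + p)) ^ 2 + ε ^ 2) * (2 * Real.exp 2 * N) := by
    gcongr
  have n1 : N * N ≤ (N + 1) ^ 2 := by nlinarith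
  have n2 : 8 * N ≤ 4000 * Real.exp 12 * (N + 1) ^ 2 * Real.exp 2 := by
    calc 8 * N ≤ 4000 * 1 * (N + 1) ^ 2 * 1 := by nlinarith
      _ ≤ _ := by gcongr
  have a6 : 1600 * N * Real.exp 12 * ((κ * (a + 1 + p)) ^ 2 + ε ^ 2) * (2 * Real.exp 2 * N) ≤
      4000 * Real.exp 12 * (N + 1) ^ 2 * Real.exp 2 * ((κ * (a + 1 + p)) ^ 2 + ε ^ 2) := by
    calc _ = 3200 * Real.exp 12 * (N * N) * Real.exp 2 * ((κ * (a + 1 + p)) ^ 2 + ε ^ 2) := by
          ring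
      _ ≤ _ := by gcongr; norm_num
  have a7 := mul_le_mul_of_nonneg_right n2 (Real.exp_pos (2 * p - r)).le
  linarith

end Zb

open Zb in
theorem zb : ZB := by
  intro n
  refine ⟨4000 * Real.exp 12 * (n + 1) ^ 2 * Real.exp 2, by positivity, 1 / (20 * √n + 1),
    by positivity, ?_⟩
  intro C u e x ρ κ a ε h he hρ hκ ha hε hE hs hT
  have hn : 0 < n := Nat.pos_of_ne_zero fun k => by
    subst k; simp [Subsingleton.elim e 0] at he
  have hn' : (1 : ℝ) ≤ n := by exact_mod_cast hn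
  have T1 : 1 ≤ 1 + |ps u x| := by linarith [abs_nonneg (ps u x)]
  have T0 : 0 < 1 + |ps u x| := by positivity
  have g0 : 0 < (1 + |ps u x|)⁻¹ := by positivity
  have g1 : (1 + |ps u x|)⁻¹ ≤ 1 := inv_le_one_of_one_le₀ T1
  have gε : 2 * ε ≤ (1 + |ps u x|)⁻¹ / 10 := by
    rw [le_div_iff₀ (by norm_num), ← one_div, le_div_iff₀ T0]; linarith
  have d10 : 0 < κ ^ 2 * (a ^ 2 + 1600 * n * (1 + |ps u x|) ^ 2) + Real.exp 12 * ε ^ 2 := by
    positivity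
  have d20 : 0 < 4 * Real.exp (-(1 / (20 * √n + 1) * ρ)) := by positivity
  have p1 := fun y => mul_pos d10 (p0 h hn g0.le ((1 + |ps u x|)⁻¹ / 20) x y)
  have p2 := fun y => mul_pos d20 (p0 h hn zero_le_one (1 / 20) x y)
  refine (quo h e x hρ ((contDiff_const.mul (c2 h _ _ x)).add (contDiff_const.mul (c2 h _ _ x)))
    (fun y => add_pos (p1 y) (p2 y)) (fun y hy => ?_) fun y hy => ?_).trans ?_
  · have hy' : y ∈ closedBall x ρ := by rw [mem_closedBall, dist_eq_norm]; exact hy.le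
    rcases le_total |ps u y| 4 with k | k
    · exact .inl (((low h hn he hκ ha T0 (hE y hy') k (hT y hy' k)).trans
        (mul_le_mul_of_nonneg_left (lb h g0.le _ x y) d10.le)).trans
        (le_add_of_nonneg_right (p2 y).le))
    · exact .inr (sup2 h hn g0 g1 d10 d20 x k ((Ple h hε (hE y hy')).trans gε))
  · have := sph h hn (x := x) (y := y) he
    rw [hy] at this
    exact (this.trans (mul_le_mul_of_nonneg_left (lb h zero_le_one _ x y) d20.le)).trans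
      (le_add_of_nonneg_left (p1 y).le)
  · simp only [ch_self]
    refine num hn' ha (abs_nonneg _) (Real.rpow_nonneg (h.ff_pos x).le _)
      ((fpow h x g0.le g1).trans ?_) (by simpa using fpow h x zero_le_one le_rfl)
    have : (1 + |ps u x|)⁻¹ * |ps u x| ≤ 1 := by
      rw [inv_mul_le_iff₀ T0]; linarith
    gcongr
    linarith

end Vale.Agent.P134C
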