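import Vale.Agent.P134C.DAll
import Vale.Agent.P134C.Nob
import Vale.Agent.P134C.BAND
import Vale.Agent.P134C.Bd
import Vale.Agent.P134C.DT
import Vale.Agent.P134C.E4
import Vale.Agent.P134C.GA
import Vale.Agent.P134C.GAP
import Vale.Agent.P134C.ISOG
import Vale.Agent.P134C.LIP
import Vale.Agent.P134C.LOWG
import Vale.Agent.P134C.SLO
import Vale.Agent.P134C.SU
import Vale.Agent.P134C.TILT
import Vale.Agent.P134C.TLY
import Vale.Agent.P134C.TWO
import Vale.Agent.P134C.UPG
import Vale.Agent.P134C.WO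
import Vale.Agent.P134C.ZB
import Vale.Agent.P134W.Bw
import Vale.Agent.P134W.MSC
import Vale.Agent.P134W.Mu
import Vale.Agent.P134W.Scc
import Vale.Agent.P134W.Stl
import Vale.Agent.P134W.SupA
import Vale.Agent.P134W.Supb
import Vale.Agent.P134J.E2
import Vale.Agent.P134R.E3
import Vale.Agent.P134R.Qg
import Vale.Agent.P134F.Abs
import Vale.Agent.P134F.Supp
import Vale.Agent.P134E.Par2
import Vale.Agent.P134B.Toda6

/-!
# P134C: block (c) from the test on the tubes
-/

namespace Vale.Agent.P134C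

open Vale.Agent.P134B Vale.Agent.P134W

namespace Nob2

theorem supw : P134W.SUP := fun n C u x h => by
  obtain ⟨-, m0, -, -, -, -, m⟩ := mu_all n C u h
  rcases m x with k | ⟨z, k⟩ | ⟨e, k⟩
  · refine ⟨fun _ => 0, 0, 0, ⟨⟨contDiffAt_const, k.symm, Filter.Eventually.of_forall m0⟩, ?_, ?_⟩,
      Or.inl ⟨k, rfl⟩⟩
    · simp [TT]
    · have g : gradient (fun _ : P366.Stmt.E n => (0 : ℝ)) = fun _ => 0 := funext fun _ => by simp
      simp [Lf, lap, g, k, P366W.dvg]
  · obtain ⟨φ, hφ⟩ := supa_of mu_all n C u x z h k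
    exact ⟨φ, _, _, hφ, Or.inr (Or.inl ⟨z, k, rfl, rfl⟩)⟩
  · obtain ⟨φ, a, hφ⟩ := supb_of mu_all n C u x e h k
    exact ⟨φ, a, _, hφ, Or.inr (Or.inr ⟨e, k, rfl⟩)⟩

theorem lip' : LIP := lip mu_all sym
theorem dt' : DT := dt mu_all sym lip'
theorem tly' : TLY := tly (foot seg) zt tl'
theorem sup' : P134C.SUP := P134J.sup_of mu_all supw P134R.e3
theorem wo' : WO := wo mu_all (msc_of mu_all) scc P134W.bw sym dt' lip'
theorem iso' : ISO := iso (tilt seg (foot seg) gr gd (P134E.par2 gr gd)) zb (two sym)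
theorem lowg' : LOWG := lowg mu_all sym gap (upg mu_all tly' gap) (slo tly')
theorem bd' : BD := bd mu_all sym P134F.supp0 lowg' iso'

end Nob2

open Nob2 in
/-- the bad set is empty, given the two estimates in the band -/
theorem nob_of_te (thk : THK) (te : TE) : NOB :=
  nob_of fin_all dt' (stt P134W.stl) P134F.abs0 sup' wo' (e4 dt')
    (band mu_all sym dt' cnt P134F.supp0 thk te bd') (su lip' P134F.supp0) (ga dt' P134R.nb)

end Vale.Agent.P134C
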