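import Vale.Agent.P134C.D0

/-!
# P134C: existence of the weights
-/

open MeasureTheory Metric Filter Topology Set
open scoped ContDiff RealInnerProductSpace
open Vale.Agent.P366.Stmt (E)

noncomputable section

namespace Vale.Agent.P134C

namespace WTx

variable {n : ℕ}

/-- the bracket -/
def w (a : ℝ) (x : E n) : ℝ := 1 + a ^ 2 * ‖x‖ ^ 2

theorem w_one (a : ℝ) (x : E n) : 1 ≤ w a x := le_add_of_nonneg_right (by positivity)

theorem w_pos (a : ℝ) (x : E n) : 0 < w a x := one_pos.trans_le (w_one a x)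

theorem der (a : ℝ) (m : ℕ) (x : E n) : HasFDerivAt (fun x : E n => (w a x ^ m)⁻¹)
    ((-(2 * m * a ^ 2) * (w a x ^ (m + 1))⁻¹) • innerSL ℝ x) x := by
  have h0 := (w_pos a x).ne'
  have h1 : HasDerivAt (fun t : ℝ => ((1 + a ^ 2 * t) ^ m)⁻¹)
      (-(m * (w a x) ^ (m - 1) * (a ^ 2 * 1)) / (w a x ^ m) ^ 2) (‖x‖ ^ 2) :=
    ((((hasDerivAt_id _).const_mul (a ^ 2)).const_add 1).pow m).inv (pow_ne_zero _ h0)
  have h2 := h1.comp_hasFDerivAt x (hasStrictFDerivAt_norm_sq x).hasFDerivAt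
  refine h2.congr_fderiv ?_
  rw [two_nsmul, ← two_smul ℝ, smul_smul]
  congr 1
  rcases m with _ | m
  · simp
  · rw [Nat.add_sub_cancel]; field_simp; ring

theorem grad (a : ℝ) (m : ℕ) : gradient (fun x : E n => (w a x ^ m)⁻¹) =
    fun x => (-(2 * m * a ^ 2) * (w a x ^ (m + 1))⁻¹) • x := by
  funext x
  refine HasGradientAt.gradient ?_
  rw [hasGradientAt_iff_hasFDerivAt]
  refine (der a m x).congr_fderiv ?_
  ext v
  simp

theorem cmp {a c : ℝ} {x y : E n} (m : ℕ) (h : w a y ≤ c * w a x) :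
    (w a x ^ m)⁻¹ ≤ c ^ m * (w a y ^ m)⁻¹ := by
  rw [← div_eq_mul_inv, le_div_iff₀ (pow_pos (w_pos a y) m),
    inv_mul_le_iff₀ (pow_pos (w_pos a x) m), ← mul_pow, mul_comm]
  exact pow_le_pow_left₀ (w_pos a y).le h m

theorem w_le (a : ℝ) (x y : E n) :
    w a y ≤ 1 + (a * ‖x‖ + a * ‖x - y‖) ^ 2 := by
  have h : ‖y‖ ≤ ‖x‖ + ‖x - y‖ := by
    simpa using norm_sub_le x (x - y)
  rw [← mul_add, mul_pow, w]
  gcongr

end WTx

open WTx in
theorem wt_ex : WT := by
  intro n l hl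
  obtain ⟨N, hN⟩ : ∃ N : ℝ, N = (n + 1 : ℕ) := ⟨_, rfl⟩
  have hN0 : 0 < N := by rw [hN]; positivity
  have hC : 0 < 2 * N + 4 * N * (N + 1) := by positivity
  obtain ⟨a, a0, a1, al⟩ : ∃ a : ℝ, 0 < a ∧ a ≤ 1 ∧ a * (2 * N + 4 * N * (N + 1)) ≤ l :=
    ⟨min 1 (l / _), lt_min one_pos (div_pos hl hC), min_le_left _ _,
      (le_div_iff₀ hC).1 (min_le_right _ _)⟩
  have a2 : 2 * N * a ≤ l := by nlinarith [mul_pos a0 (mul_pos hN0 (add_pos hN0 one_pos))]
  refine ⟨fun x => (w a x ^ (n + 1))⁻¹, ?_, fun x => inv_pos.2 (pow_pos (w_pos a x) _),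
    fun x => inv_le_one_of_one_le₀ (one_le_pow₀ (w_one a x)), fun x => ?_, fun x => ?_,
    fun x y => ?_, fun x y => ?_, ?_⟩
  · exact ((contDiff_const.add (contDiff_const.mul (contDiff_norm_sq ℝ))).pow _).inv
      fun x => pow_ne_zero _ (w_pos a x).ne'
  · have h0 := w_pos a x
    have h1 : a * ‖x‖ ≤ w a x := by rw [w, ← mul_pow]; nlinarith [sq_nonneg (a * ‖x‖ - 1)]
    rw [grad, norm_smul, ← hN, neg_mul, norm_neg, Real.norm_of_nonneg (by positivity)]
    calc _ = 2 * N * a * (w a x ^ (n + 1))⁻¹ * (a * ‖x‖ / w a x) := by field_simp; ring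
      _ ≤ l * (w a x ^ (n + 1))⁻¹ * 1 := by gcongr; exact (div_le_one h0).2 h1
      _ = _ := mul_one _
  · have h0 := w_pos a x
    have h1 : a ^ 2 * ‖x‖ ^ 2 ≤ w a x := by rw [w]; linarith
    have h2 := (((der a (n + 1 + 1) x).const_mul (-(2 * N * a ^ 2))).smul (hasFDerivAt_id x)).fderiv
    rw [grad, ← hN]
    refine (congrArg norm h2).trans_le ((norm_add_le _ _).trans ?_)
    rw [ContinuousLinearMap.norm_smulRight_apply, norm_smul, norm_smul, norm_smul,
      innerSL_apply_norm, neg_mul, norm_neg, norm_neg, neg_mul, norm_neg, Nat.cast_succ (n + 1), ← hN,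
      Real.norm_of_nonneg (by positivity), Real.norm_of_nonneg (by positivity),
      Real.norm_of_nonneg (by positivity)]
    have h3 : (w a x)⁻¹ ≤ 1 := inv_le_one_of_one_le₀ (w_one a x)
    calc _ ≤ 2 * N * a ^ 2 * (w a x ^ (n + 1 + 1))⁻¹ * 1 + 2 * N * a ^ 2 *
          (2 * (N + 1) * a ^ 2 * (w a x ^ (n + 1 + 1 + 1))⁻¹ * ‖x‖) * ‖x‖ := by
          gcongr
          · exact ContinuousLinearMap.norm_id_le
          · exact le_rfl
      _ = (w a x ^ (n + 1))⁻¹ * (a * (w a x)⁻¹) *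
          (a * (2 * N + 4 * N * (N + 1) * (a ^ 2 * ‖x‖ ^ 2 / w a x))) := by field_simp; ring
      _ ≤ (w a x ^ (n + 1))⁻¹ * (1 * 1) * (a * (2 * N + 4 * N * (N + 1) * 1)) := by
          gcongr; exact (div_le_one h0).2 h1
      _ ≤ (w a x ^ (n + 1))⁻¹ * (1 * 1) * l := by rw [mul_one (4 * N * (N + 1))]; gcongr
      _ = _ := by ring
  · have h1 : w a y ≤ Real.exp (2 * (a * ‖x - y‖)) * w a x := by
      have h2 : 0 ≤ a * ‖x - y‖ := by positivity
      have h3 : (1 + a * ‖x - y‖) ^ 2 ≤ Real.exp (2 * (a * ‖x - y‖)) := by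
        rw [two_mul, Real.exp_add, sq]
        have := Real.add_one_le_exp (a * ‖x - y‖)
        gcongr <;> linarith
      refine (w_le a x y).trans (le_trans ?_ (mul_le_mul_of_nonneg_right h3 (w_pos a x).le))
      rw [w, ← mul_pow]
      generalize a * ‖x - y‖ = v at h2
      generalize a * ‖x‖ = u
      nlinarith [mul_nonneg h2 (sq_nonneg (u - 1)), mul_nonneg h2 (sq_nonneg u), sq_nonneg (u * v)]
    refine (cmp _ h1).trans (mul_le_mul_of_nonneg_right ?_ (inv_pos.2 (pow_pos (w_pos a y) _)).le)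
    rw [← Real.exp_nat_mul, ← hN, Real.exp_le_exp]
    nlinarith [mul_le_mul_of_nonneg_right a2 (norm_nonneg (x - y))]
  · rw [← mul_pow]
    refine cmp _ ((w_le a x y).trans ?_)
    have h2 : (a * ‖x - y‖) ^ 2 ≤ ‖x - y‖ ^ 2 := by
      gcongr; exact mul_le_of_le_one_left (norm_nonneg _) a1
    rw [w, ← mul_pow]
    generalize a * ‖x - y‖ = v at h2
    generalize a * ‖x‖ = u
    generalize ‖x - y‖ ^ 2 = d at h2
    nlinarith [sq_nonneg (u - v), mul_nonneg (sq_nonneg u) ((sq_nonneg v).trans h2)]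
  · have h := (integrable_rpow_neg_one_add_norm_sq (E := E n) (μ := volume) (r := 2 * N) (by
      rw [finrank_euclideanSpace_fin, hN]; push_cast; linarith [Nat.cast_nonneg (α := ℝ) n])).comp_smul
      a0.ne'
    refine h.congr (Eventually.of_forall fun x => ?_)
    simp only []
    rw [show -(2 * N) / 2 = -N by ring, hN, Real.rpow_neg (by positivity), Real.rpow_natCast,
      norm_smul, Real.norm_of_nonneg a0.le, mul_pow, w]

end Vale.Agent.P134C
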