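import Vale.Agent.P134C.D0

/-!
# P134C, block (c): the abstract assembly (definitions and statements)

`h` is the weight of the operator, `V` the potential, `X` the defect, `Y` the density of the gain,
`G` the two-point function, `B` the bad set.
-/

open MeasureTheory Metric Filter Topology Set
open scoped ContDiff RealInnerProductSpace
open Vale.Agent.P366.Stmt (E)

noncomputable section

namespace Vale.Agent.P134C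

variable {n : ℕ}

/-- A quadratic inequality for test functions of class `C¹`. -/
def ST1 (h U : E n → ℝ) : Prop := ∀ ξ : E n → ℝ, ContDiff ℝ 1 ξ → HasCompactSupport ξ →
  ∫ x, U x * ξ x ^ 2 ≤ ∫ x, h x * ‖gradient ξ x‖ ^ 2

/-- The same for locally Lipschitz test functions. -/
def ST0 (h U : E n → ℝ) : Prop := ∀ ξ : E n → ℝ, LocallyLipschitz ξ → HasCompactSupport ξ →
  ∫ x, U x * ξ x ^ 2 ≤ ∫ x, h x * ‖gradient ξ x‖ ^ 2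

/-- **STL** -/
def STL : Prop := ∀ (n : ℕ) (h U : E n → ℝ), Continuous h → Continuous U → (∀ x, 0 ≤ h x) →
  ST1 h U → ST0 h U

/-- The standing data. -/
structure Dt (h V X Y G : E n → ℝ) : Prop where
  ch : Continuous h
  cV : Continuous V
  cY : Continuous Y
  mX : Measurable X
  lG : LocallyLipschitz G
  h0 : ∀ x, 0 ≤ h x
  h1 : ∀ x, h x ≤ 1
  V0 : ∀ x, 0 ≤ V x
  X0 : ∀ x, 0 ≤ X x
  G0 : ∀ x, 0 ≤ G x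
  VY : ∀ x, h x * V x ≤ Y x
  bd : ∃ C : ℝ, ∀ x, Y x ≤ C ∧ h x * X x ≤ C

/-- The band `a ≤ G ≤ b`. -/
def bnd (G : E n → ℝ) (a b : ℝ) : Set (E n) := {x | a ≤ G x ∧ G x ≤ b}

/-- INPUT (weak two-point inequality on `G ≤ 1 / s₁`, Kato constant `c`, factor `κ`). -/
def Wo (h V X G : E n → ℝ) (c κ s₁ : ℝ) : Prop := ∀ (k : ℝ → ℝ) (a : ℝ), 0 < a →
  ContDiff ℝ 1 k → (∀ t, 0 ≤ k t) → (∀ t, t ≤ a ∨ 1 / s₁ ≤ t → k t = 0) →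
  ∀ χ : E n → ℝ, ContDiff ℝ ∞ χ → HasCompactSupport χ → (∀ x, 0 ≤ χ x) →
  ∫ x, h x * ((deriv k (G x) + c * k (G x) / G x) * ‖gradient G x‖ ^ 2 -
      (κ * V x + X x) * (G x * k (G x))) * χ x ≤
    -∫ x, h x * k (G x) * ⟪gradient G x, gradient χ x⟫

/-- INPUT (the defect is absorbed by the gain or paid per cell). -/
def E4o (B : Set (E n)) (h X Y G : E n → ℝ) (b : ℝ) : Prop := ∀ η > (0 : ℝ), ∃ s' : ℝ,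
  ∀ s₁ ≥ s', ∀ s₀ ≥ s₁, ∃ M : ℝ, 1 ≤ M ∧ ∀ a > (0 : ℝ), ∃ l₀ > (0 : ℝ), ∀ (l : ℝ) (ζ : E n → ℝ),
  0 < l → l ≤ l₀ → Wt l ζ →
  ∫ x in bnd G a (1 / s₁), h x * X x * wt b s₀ (G x) * ζ x ^ 2 ≤
    η * (∫ x in {x | a / M ≤ G x}, Y x * wt b s₀ (G x) * ζ x ^ 2) + η * Xi B ζ

/-- INPUT (the gain in the band at the level `1 / s` is small). -/
def TEo (B : Set (E n)) (Y G : E n → ℝ) (b : ℝ) : Prop := ∀ M ≥ (1 : ℝ), ∀ η > (0 : ℝ), ∃ s' : ℝ,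
  ∀ s ≥ s', ∃ l₀ > (0 : ℝ), ∀ (l : ℝ) (ζ : E n → ℝ), 0 < l → l ≤ l₀ → Wt l ζ →
  ∫ x in bnd G (1 / (M * s)) (M / s), Y x * ζ x ^ 2 ≤ η * s ^ (2 * b) * Xi B ζ

/-- INPUT (the support of the test function, the slope of `G`). -/
def SUo (B : Set (E n)) (h G : E n → ℝ) : Prop := ∀ s ≥ (1 : ℝ), ∃ A : ℝ,
  (∀ x, 1 / s ≤ G x → h x * (1 + infDist x B) ^ (5 * n + 5) ≤ A) ∧
  ∀ᵐ x, x ∈ bnd G (1 / (3 * s)) (1 / s) →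
    h x * ‖gradient G x‖ ^ 2 * (1 + infDist x B) ^ (5 * n + 5) ≤ A

/-- INPUT (the gain near the bad set). -/
def GAo (B : Set (E n)) (Y G : E n → ℝ) : Prop := ∃ c > (0 : ℝ), ∀ x, infDist x B < 1 →
  c ≤ Y x ∧ c ≤ G x

/-- The profile `F` of the test function and the multiplier `k`. -/
structure Pr (b κ c η C s₁ s₀ s : ℝ) (F k : ℝ → ℝ) : Prop where
  cF : ContDiff ℝ 1 F
  ck : ContDiff ℝ 1 k
  k0 : ∀ t, 0 ≤ k t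
  hi : ∀ t, 1 / s₁ ≤ t → k t = 0
  lo : ∀ t, t ≤ 1 / (3 * s) → F t = 0 ∧ k t = 0
  F1 : ∀ t, F t ^ 2 ≤ 1
  ga : ∀ t, 1 / s ≤ t → wt b s₀ t ≤ F t ^ 2
  kw : ∀ t, 0 ≤ t → t * k t ≤ C * wt b s₀ t
  gr : ∀ t, 0 ≤ t → (1 + η) * deriv F t ^ 2 + η * (k t / t) ≤ deriv k t + c * k t / t +
    (Icc (1 / (3 * s₁)) (1 / s₁)).indicator (fun _ => C * √(s₁ / s₀) * s₁ ^ 2) t
  po : ∀ t, 0 ≤ t → κ * (t * k t) ≤ (1 - η) * F t ^ 2 +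
    (Icc (1 / (3 * s)) (C / s)).indicator (fun _ => C * (s₀ / s) ^ (2 * b)) t

/-- **PROF** -/
def PROF : Prop := ∀ b κ c : ℝ, 0 < b → 1 ≤ κ → 7 / 4 ≤ c → κ * b ^ 2 < 2 * b + c - 1 →
  ∃ η > (0 : ℝ), η ≤ 1 ∧ ∃ C : ℝ, 1 ≤ C ∧ ∀ s₁ s₀ s : ℝ, 0 < s₁ → 3 * s₁ ≤ s₀ → s₀ ≤ s →
    ∃ F k : ℝ → ℝ, Pr b κ c η C s₁ s₀ s F k

/-- **DAB**: stability against the two-point inequality, compact support. -/
def DAB : Prop := ∀ (n : ℕ) (h V X Y G : E n → ℝ) (b κ c η C s₁ s₀ s : ℝ) (F k : ℝ → ℝ),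
  Dt h V X Y G → 0 < η → η ≤ 1 → 1 ≤ C → 0 < s₀ → 0 < s → Pr b κ c η C s₁ s₀ s F k →
  ST0 h (fun x => h x * V x) → Wo h V X G c κ s₁ →
  ∀ ξ : E n → ℝ, ContDiff ℝ ∞ ξ → HasCompactSupport ξ →
  η * ∫ x, h x * ‖gradient (fun x => F (G x) * ξ x) x‖ ^ 2 ≤
    C * (∫ x in bnd G (1 / (3 * s)) (1 / s₁), h x * X x * wt b s₀ (G x) * ξ x ^ 2) +
    C * √(s₁ / s₀) * s₁ ^ 2 *
      (∫ x in bnd G (1 / (3 * s₁)) (1 / s₁), h x * ‖gradient G x‖ ^ 2 * ξ x ^ 2) +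
    C * (s₀ / s) ^ (2 * b) * (∫ x in bnd G (1 / (3 * s)) (C / s), Y x * ξ x ^ 2) +
    (3 * C / η) * ∫ x in {x | 1 / (3 * s) ≤ G x}, h x * ‖gradient ξ x‖ ^ 2

/-- **FIN**: the contradiction. -/
def FIN : Prop := ∀ (n : ℕ) (B : Set (E n)) (h V X Y G : E n → ℝ) (b κ c C₀ s' : ℝ),
  B.Nonempty → Dt h V X Y G → 0 < b → 1 ≤ κ → 7 / 4 ≤ c → κ * b ^ 2 < 2 * b + c - 1 → 0 < C₀ →
  ST1 h (fun x => h x * V x) → ST1 h (fun x => Y x / C₀) → (∀ s₁ ≥ s', Wo h V X G c κ s₁) →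
  E4o B h X Y G b → TEo B (fun x => h x * (V x + X x)) G b → SUo B h G → GAo B Y G → False

def rFIN : Prop := WT → CNT → STL → PROF → DAB → FIN

/-- **DIR**: the part of the band near the bad set. On `A` the function `ψ` is nearly affine at
the scale `r`. -/
def DIR : Prop := ∀ n : ℕ, ∃ C : ℝ, 0 < C ∧ ∀ (B A S : Set (E n)) (ψ Y ζ : E n → ℝ)
  (p : E n → E n) (r R l τ₁ τ₂ : ℝ), B.Nonempty → Wt l ζ → 0 ≤ l → l * (R + 2) ≤ 1 → 0 < r →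
  r ≤ R → 2 ≤ R → 0 ≤ τ₁ → 0 ≤ τ₂ → Continuous ψ → Continuous Y → (∀ x, 0 ≤ Y x) →
  MeasurableSet A → MeasurableSet S →
  (∀ x ∈ A, 1 / 2 ≤ ‖p x‖ ∧ ∀ y, |ψ y - ψ x - ⟪p x, y - x⟫| ≤ ‖y - x‖ ^ 2 / r) →
  (∀ x ∈ S, Y x ≤ τ₂ ∨ (x ∈ A ∧ Y x ≤ τ₁ * Real.exp (-|ψ x|))) →
  ∫ x in S ∩ {x | infDist x B ≤ R}, Y x * ζ x ^ 2 ≤ C * (τ₁ * R ^ n / r + τ₂ * R ^ n) * Xi B ζ

def rDIR : Prop := CNR → PACK → DIR

end Vale.Agent.P134C
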