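import Vale.Agent.P134C.Defs
import Vale.Agent.P134C.D1
import Vale.Agent.P134W.Defs
import Vale.Agent.P134B.Spec

/-!
# P134C, block (c): the inputs of the assembly and the rows of the band
-/

open MeasureTheory Metric Filter Topology Set
open scoped ContDiff RealInnerProductSpace
open Vale.Agent.P366.Stmt (E)

noncomputable section

namespace Vale.Agent.P134C

open Vale.Agent.P134B

variable {n : ℕ}

/-- the weight of the operator -/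
def hh (u : E n → ℝ) (x : E n) : ℝ := ft u x ^ 2
/-- the density of the defect -/
def Xd (u : E n → ℝ) (x : E n) : ℝ := if 1 / 26 ≤ df u x then 100 / 99 * df u x * Pt u x else 0
/-- the density which is delivered by the test on the tubes -/
def gn (u : E n → ℝ) (x : E n) : ℝ := ff u x ^ 2 * (PP u x + hs (SS u x))
/-- no zero on the normal ray up to the height `a` -/
def Pos (u : E n → ℝ) (y : E n) (a : ℝ) : Prop := ∀ t ∈ Icc 2 a, 0 < u (y + t • nu u y)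
/-- `y` is a foot of `x` -/
structure Ft (u : E n → ℝ) (T : ℝ) (x y : E n) (t : ℝ) : Prop where
  eq : x = y + t • nu u y
  lo : |ps u y| ≤ 1 / 2
  le : |t| ≤ T
  ne : ∀ t' ∈ uIoo 0 t, ps u (y + t' • nu u y) ≠ ps u y
/-- both gaps at each foot are at least `a`, one of them is at most `b` -/
def Bd (u : E n → ℝ) (T a b : ℝ) (x : E n) : Prop := ∀ y t, Ft u T x y t →
  Pos u y a ∧ Pos (-u) y a ∧ ¬(Pos u y b ∧ Pos (-u) y b)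

/-! ## The inputs of `FIN` -/

def DT : Prop := ∀ (n : ℕ) (C : ℝ) (u : E n → ℝ), Ok C u →
  Dt (hh u) (Pt u) (Xd u) (Gn u) (GG u)
def STT : Prop := ∀ (n : ℕ) (C : ℝ) (u : E n → ℝ), Ok C u → Stab u →
  ST1 (hh u) fun x => hh u x * Pt u x
def ABS : Prop := ∀ (n : ℕ) (C : ℝ) (u : E n → ℝ), Ok C u → Stab u →
  ∃ C₀ > (0 : ℝ), ST1 (hh u) fun x => Gn u x / C₀
def WO : Prop := ∀ (n : ℕ) (C g₀ s₁ : ℝ) (u : E n → ℝ), Ok C u → Sup (1 / 100) g₀ u → 4 ≤ s₁ →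
  1 / s₁ ≤ g₀ → Wo (hh u) (Pt u) (Xd u) (GG u) (99 / 50) (21 / 20) s₁
def E4 : Prop := ∀ (m : ℕ) (C δ : ℝ) (u : E (m + 1) → ℝ), Rt C δ u →
  E4o (Bad δ u) (hh u) (Xd u) (Gn u) (GG u) (9 / 4)
def BAND : Prop := ∀ (C δ : ℝ) (u : E 7 → ℝ), Rt C δ u →
  TEo (Bad δ u) (fun x => hh u x * (Pt u x + Xd u x)) (GG u) (9 / 4)
def SU : Prop := ∀ (m : ℕ) (C δ : ℝ) (u : E (m + 1) → ℝ), Rt C δ u →
  SUo (Bad δ u) (hh u) (GG u)
def GA : Prop := ∀ (n : ℕ) (C δ : ℝ) (u : E n → ℝ), Rt C δ u → GAo (Bad δ u) (Gn u) (GG u)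

/-- **TLY**: the solution is one-dimensional near a point of a layer far from the bad set -/
def TLY : Prop := ∀ (m : ℕ) (C δ M η : ℝ), 0 < η → ∃ d₀ > (1 : ℝ),
  ∀ (u : E (m + 1) → ℝ) (y : E (m + 1)) (D : ℝ), Rt C δ u → d₀ ≤ D → D ≤ 2 * dd δ u y →
  |ps u y| ≤ 1 / 2 → ‖nu u y‖ = 1 ∧ ∀ x ∈ ball y (M * Real.log D),
    Zn (η / Real.log D) u (nu u y) x ∧ EE u x * D ^ 2 ≤ 16 * C

def rTLY : Prop := FOOT → ZT → TL → TLY
def rLIP : Prop := P134W.MU → SYM → LIP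
def rDT : Prop := P134W.MU → SYM → LIP → DT
def rSTT : Prop := P134W.STL → STT
def rABS : Prop := P134W.STL → STT → ABS
def rWO : Prop := P134W.MU → P134W.MSC → P134W.SCC → P134W.BW → SYM → DT → LIP → WO
def rNB : Prop := P134W.MU → SYM → QG → NB
def rSU : Prop := LIP → SUPP → SU
def rGA : Prop := DT → NB → GA
def rSUPP : Prop := P134W.MU → SYM → TLY → SUPP

/-! ## The band -/

/-- **TE**: the test on the tubes -/
def TE : Prop := ∀ (C δ : ℝ) (u : E 7 → ℝ), Rt C δ u → ∃ T₀ > (0 : ℝ), ∀ M ≥ (1 : ℝ), ∃ s' : ℝ,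
  ∀ s ≥ s', ∃ l₀ > (0 : ℝ), ∀ (l : ℝ) (ζ : E 7 → ℝ) (A : Set (E 7)), 0 < l → l ≤ l₀ → Wt l ζ →
  MeasurableSet A → (∀ x ∈ A, s ^ (41 / 40 : ℝ) ≤ dd δ u x ∧
    Bd u (T₀ * Real.log (dd δ u x)) (s / M) (M * s) x) →
  ∫ x in A, gn u x * ζ x ^ 2 ≤ s ^ (22 / 5 : ℝ) * Xi (Bad δ u) ζ

/-- **THK**: the part of the band near the bad set -/
def THK : Prop := ∀ (C δ : ℝ) (u : E 7 → ℝ), Rt C δ u → ∀ M ≥ (1 : ℝ), ∃ s' : ℝ,
  ∀ s ≥ s', ∃ l₀ > (0 : ℝ), ∀ (l : ℝ) (ζ : E 7 → ℝ), 0 < l → l ≤ l₀ → Wt l ζ →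
  ∫ x in {x | GG u x ≤ M / s ∧ dd δ u x ≤ s ^ (41 / 40 : ℝ)}, EE u x * ζ x ^ 2 ≤
    s ^ (89 / 20 : ℝ) * Xi (Bad δ u) ζ

/-- **GAP**: the gaps are at least logarithmic -/
def GAP : Prop := ∀ (m : ℕ) (C δ : ℝ), ∃ c > (0 : ℝ), ∃ d₀ : ℝ,
  ∀ (u : E (m + 1) → ℝ) (y : E (m + 1)), Rt C δ u → d₀ ≤ dd δ u y → |ps u y| ≤ 1 / 2 →
  Pos u y (c * Real.log (dd δ u y))

/-- **UPG**: a short gap above the foot forces a large value of `ph u` -/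
def UPG : Prop := ∀ (m : ℕ) (C δ T : ℝ), ∃ A > (0 : ℝ), ∃ d₀ : ℝ,
  ∀ (u : E (m + 1) → ℝ) (x y : E (m + 1)) (t a : ℝ), Rt C δ u → d₀ ≤ dd δ u x →
  Ft u (T * Real.log (dd δ u x)) x y t → 0 ≤ t → 2 ≤ a → ¬Pos u y a → 1 ≤ A * a * ph u x

/-- **SLO**: below a long gap the slope stays close to one -/
def SLO : Prop := ∀ (m : ℕ) (C δ T κ : ℝ), 0 < κ → ∃ A > (0 : ℝ), ∃ d₀ : ℝ,
  ∀ (u : E (m + 1) → ℝ) (x y : E (m + 1)) (t : ℝ), Rt C δ u → d₀ ≤ dd δ u x →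
  Ft u (T * Real.log (dd δ u x)) x y t → 0 ≤ t → Pos u y (3 * t + A) →
  1 - κ ≤ pe u (nu u y) x

/-- **LOWG**: in the band both gaps are long -/
def LOWG : Prop := ∀ (m : ℕ) (C δ T : ℝ), ∃ A > (0 : ℝ), ∃ d₀ : ℝ,
  ∀ (u : E (m + 1) → ℝ) (x y : E (m + 1)) (t a : ℝ), Rt C δ u → d₀ ≤ dd δ u x →
  Ft u (T * Real.log (dd δ u x)) x y t → A * a * GG u x < 1 → Pos u y a ∧ Pos (-u) y a

/-- **ISO**: an isolated layer has a small two-point function -/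
def ISO : Prop := ∀ (m : ℕ) (C δ T B : ℝ), 0 < B → ∃ M ≥ (1 : ℝ), ∃ s' : ℝ,
  ∀ (u : E (m + 1) → ℝ) (x y : E (m + 1)) (t s : ℝ), Rt C δ u → s' ≤ s →
  s ^ (41 / 40 : ℝ) ≤ dd δ u x → Ft u (T * Real.log (dd δ u x)) x y t → |t| ≤ B * s →
  Pos u y (M * s) → Pos (-u) y (M * s) → Gam u x ≤ 1 / (B * s)

/-- **BD**: the gaps at the feet of the points of the band -/
def BD : Prop := ∀ (m : ℕ) (C δ T M : ℝ), 0 < T → 1 ≤ M → ∃ M' ≥ (1 : ℝ), ∃ s' : ℝ,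
  ∀ (u : E (m + 1) → ℝ) (x : E (m + 1)) (s : ℝ), Rt C δ u → s' ≤ s →
  s ^ (41 / 40 : ℝ) ≤ dd δ u x → x ∈ bnd (GG u) (1 / (M * s)) (M / s) →
  Bd u (T * Real.log (dd δ u x)) (s / M') (M' * s) x

def rTHK : Prop := P134W.MU → SYM → DT → QG → DIR → THK
def rUPG : Prop := P134W.MU → TLY → GAP → UPG
def rSLO : Prop := TLY → SLO
def rLOWG : Prop := P134W.MU → SYM → GAP → UPG → SLO → LOWG
def rBD : Prop := P134W.MU → SYM → SUPP → LOWG → ISO → BD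
def rBAND : Prop := P134W.MU → SYM → DT → CNT → SUPP → THK → TE → BD → BAND

/-! ## The end -/

/-- **NOB**: the bad set is empty -/
def NOB : Prop := ∀ (C δ : ℝ) (u : E 7 → ℝ), ¬Rt C δ u
def rRIG : Prop := KK → NOB → P134Y.RATE 7 → P134Y.RIG 7

end Vale.Agent.P134C
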