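import Vale.Agent.P134C.D1

/-!
# P134C, block (c): rows PACK and DIR
-/

open MeasureTheory Metric Filter Topology Set
open scoped RealInnerProductSpace ENNReal
open Vale.Agent.P366.Stmt (E)

noncomputable section

namespace Vale.Agent.P134C

namespace Pack

variable {n : ℕ}

theorem exp_le {s y : ℝ} (h : |s| ≤ 4 * |y|) : Real.exp (-|y|) ≤ 32 * (1 + s ^ 2)⁻¹ := by
  have h1 := Real.quadratic_le_exp_of_nonneg (abs_nonneg y)
  have h2 : s ^ 2 ≤ 16 * |y| ^ 2 := by nlinarith [sq_abs s, abs_nonneg s, abs_nonneg y]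
  rw [Real.exp_neg, ← div_eq_mul_inv, inv_eq_one_div, div_le_div_iff₀ (Real.exp_pos _) (by positivity)]
  nlinarith [abs_nonneg y]

theorem lint (t₀ : ℝ) : ∫⁻ t, ENNReal.ofReal (32 * (1 + (t - t₀) ^ 2)⁻¹) = ENNReal.ofReal (32 * Real.pi) := by
  rw [lintegral_sub_right_eq_self (fun t : ℝ => ENNReal.ofReal (32 * (1 + t ^ 2)⁻¹)) t₀,
    ← ofReal_integral_eq_lintegral_ofReal (integrable_inv_one_add_sq.const_mul 32)
      (ae_of_all _ fun t => by positivity), integral_const_mul, integral_univ_inv_one_add_sq]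

/-- the bound on a line -/
theorem one_d (A : Set ℝ) (φ : ℝ → ℝ) (h1 : BddAbove A) (h2 : BddBelow A)
    (h : ∀ s ∈ A, ∀ t ∈ A, s ≤ t → (t - s) / 4 ≤ φ t - φ s) :
    ∫⁻ t, A.indicator (fun t => ENNReal.ofReal (Real.exp (-|φ t|))) t ≤ ENNReal.ofReal (64 * Real.pi) := by
  have h3 : ∀ t, A.indicator (fun t => ENNReal.ofReal (Real.exp (-|φ t|))) t ≤
      ENNReal.ofReal (32 * (1 + (t - sSup {s ∈ A | φ s ≤ 0}) ^ 2)⁻¹) +
        ENNReal.ofReal (32 * (1 + (t - sInf {s ∈ A | 0 ≤ φ s}) ^ 2)⁻¹) := by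
    intro t
    by_cases ht : t ∈ A
    · rw [indicator_of_mem ht]
      rcases le_total (φ t) 0 with h0 | h0
      · refine le_add_right (ENNReal.ofReal_le_ofReal (exp_le ?_))
        have a1 : t ≤ sSup {s ∈ A | φ s ≤ 0} := le_csSup (h1.mono fun s hs => hs.1) ⟨ht, h0⟩
        have a2 : sSup {s ∈ A | φ s ≤ 0} ≤ t - 4 * φ t := csSup_le ⟨t, ht, h0⟩ fun s hs => by
          rcases le_total s t with a | a
          · linarith
          · linarith [h t ht s hs.1 a, hs.2]
        rw [abs_of_nonpos h0, abs_of_nonpos (by linarith)]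
        linarith
      · refine le_add_left (ENNReal.ofReal_le_ofReal (exp_le ?_))
        have a1 : sInf {s ∈ A | 0 ≤ φ s} ≤ t := csInf_le (h2.mono fun s hs => hs.1) ⟨ht, h0⟩
        have a2 : t - 4 * φ t ≤ sInf {s ∈ A | 0 ≤ φ s} := le_csInf ⟨t, ht, h0⟩ fun s hs => by
          rcases le_total s t with a | a
          · linarith [h s hs.1 t ht a, hs.2]
          · linarith
        rw [abs_of_nonneg h0, abs_of_nonneg (by linarith)]
        linarith
    · rw [indicator_of_notMem ht]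
      exact zero_le
  refine (lintegral_mono h3).trans ?_
  rw [lintegral_add_left (by fun_prop), lint, lint, ← ENNReal.ofReal_add (by positivity) (by positivity)]
  exact le_of_eq (congrArg _ (by ring))

/-- the volume of the unit ball -/
def V (n : ℕ) : ℝ := (volume (ball (0 : E n) 1)).toReal

theorem V_pos : 0 < V n := ENNReal.toReal_pos (measure_ball_pos _ _ one_pos).ne' measure_ball_lt_top.ne

theorem vol (x : E n) {s : ℝ} (hs : 0 < s) : volume (ball x s) = ENNReal.ofReal (s ^ n * V n) := by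
  rw [Measure.addHaar_ball_of_pos _ _ hs, finrank_euclideanSpace_fin, ENNReal.ofReal_mul (by positivity), V,
    ENNReal.ofReal_toReal measure_ball_lt_top.ne]

theorem le_div {a b : ℝ} {L : ℝ≥0∞} (ha : 0 < a) (h : L * ENNReal.ofReal a ≤ ENNReal.ofReal b) :
    L ≤ ENNReal.ofReal (b / a) := by
  rwa [ENNReal.ofReal_div_of_pos ha, ENNReal.le_div_iff_mul_le (Or.inl (by simpa using ha))
    (Or.inl ENNReal.ofReal_ne_top)]

variable {ψ : E n → ℝ} {p : E n → E n} {A : Set (E n)} {ρ : ℝ}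

/-- monotonicity in a common direction on a small set -/
theorem dir_ex (hρ : 0 < ρ)
    (h : ∀ x ∈ A, 1 / 2 ≤ ‖p x‖ ∧ ∀ y, |ψ y - ψ x - ⟪p x, y - x⟫| ≤ ‖y - x‖ ^ 2 / (100 * ρ))
    (hd : ∀ x ∈ A, ∀ y ∈ A, ‖x - y‖ ≤ ρ) {x₀ : E n} (h₀ : x₀ ∈ A) :
    ∃ e : E n, ‖e‖ = 1 ∧ ∀ x ∈ A, ∀ t : ℝ, 0 ≤ t → x + t • e ∈ A → t / 4 ≤ ψ (x + t • e) - ψ x := by
  obtain ⟨h1, h2⟩ := h x₀ h₀
  have h3 : 0 < ‖p x₀‖ := by linarith
  obtain ⟨e, he, he'⟩ : ∃ e : E n, ‖e‖ = 1 ∧ ⟪p x₀, e⟫ = ‖p x₀‖ :=
    ⟨‖p x₀‖⁻¹ • p x₀, norm_smul_inv_norm (𝕜 := ℝ) (norm_pos_iff.1 h3), by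
      rw [real_inner_smul_right, real_inner_self_eq_norm_sq]
      field_simp⟩
  refine ⟨e, he, fun x hx t ht hxt => ?_⟩
  have sq : ∀ (v : E n) (c : ℝ), ‖v‖ ≤ c * ρ → ‖v‖ ^ 2 / (100 * ρ) ≤ c ^ 2 * ρ / 100 := fun v c hv => by
    rw [div_le_div_iff₀ (by positivity) (by norm_num)]
    nlinarith [pow_le_pow_left₀ (norm_nonneg v) hv 2]
  have n1 : ‖ρ • e‖ = ρ := by rw [norm_smul, he, mul_one, Real.norm_of_nonneg hρ.le]
  have a1 := ((h x hx).2 (x + ρ • e)).trans (sq _ 1 (by rw [add_sub_cancel_left, n1, one_mul]))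
  have a2 := (h2 (x + ρ • e)).trans (sq _ 2 (by
    rw [add_sub_right_comm]
    linarith [norm_add_le (x - x₀) (ρ • e), hd x hx x₀ h₀]))
  have a3 := (h2 x).trans (sq _ 1 (by rw [one_mul]; exact hd x hx x₀ h₀))
  rw [add_sub_cancel_left, real_inner_smul_right] at a1
  rw [add_sub_right_comm, inner_add_right, real_inner_smul_right, he'] at a2
  have a4 : 3 / 8 ≤ ⟪p x, e⟫ := by
    rw [abs_le] at a1 a2 a3
    refine le_of_mul_le_mul_left ?_ hρ
    nlinarith [mul_le_mul_of_nonneg_left h1 hρ.le]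
  have n2 : ‖t • e‖ = t := by rw [norm_smul, he, mul_one, Real.norm_of_nonneg ht]
  have a5 := hd _ hxt x hx
  have a6 := (abs_le.1 ((h x hx).2 (x + t • e))).1
  rw [add_sub_cancel_left, n2] at a5 a6
  rw [real_inner_smul_right] at a6
  have a7 : t ^ 2 / (100 * ρ) ≤ t / 100 := by
    rw [div_le_div_iff₀ (by positivity) (by norm_num)]
    nlinarith [mul_le_mul_of_nonneg_left a5 ht]
  nlinarith [mul_le_mul_of_nonneg_left a4 ht]

/-- the bound on a small ball -/
theorem small (hρ : 0 < ρ) (hψ : Continuous ψ) (hA : MeasurableSet A)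
    (h : ∀ x ∈ A, 1 / 2 ≤ ‖p x‖ ∧ ∀ y, |ψ y - ψ x - ⟪p x, y - x⟫| ≤ ‖y - x‖ ^ 2 / (100 * ρ))
    {w : E n} (hw : A ⊆ ball w (ρ / 2)) :
    ∫⁻ x, A.indicator (fun x => ENNReal.ofReal (Real.exp (-|ψ x|))) x ≤
      ENNReal.ofReal (64 * Real.pi * ((2 * ρ) ^ n * V n) / ρ) := by
  rcases A.eq_empty_or_nonempty with rfl | ⟨x₀, h₀⟩
  · simp
  obtain ⟨e, he, hm⟩ := dir_ex hρ h (fun x hx y hy => by
    have a1 := mem_ball.1 (hw hx)
    have a2 := mem_ball.1 (hw hy)
    rw [← dist_eq_norm]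
    linarith [dist_triangle_right x y w]) h₀
  obtain ⟨G, hG⟩ : ∃ G : E n → ℝ≥0∞, G = A.indicator fun x => ENNReal.ofReal (Real.exp (-|ψ x|)) := ⟨_, rfl⟩
  have hGm : Measurable G := by
    rw [hG]
    exact Measurable.indicator (by fun_prop) hA
  have hn : ∀ (x : E n) (t : ℝ), x + t • e ∈ A → |t| ≤ ρ / 2 + ‖x - w‖ ∧ ‖x - w‖ < ρ / 2 + |t| := fun x t ht => by
    have a1 := mem_ball_iff_norm.1 (hw ht)
    have a2 : ‖t • e‖ = |t| := by rw [norm_smul, he, mul_one, Real.norm_eq_abs]
    have a3 := norm_sub_le (x + t • e - w) (x - w)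
    have a4 := norm_sub_le (x + t • e - w) (t • e)
    rw [show x + t • e - w - (x - w) = t • e by abel, a2] at a3
    rw [show x + t • e - w - t • e = x - w by abel, a2] at a4
    constructor <;> linarith
  rw [← hG]
  refine le_div hρ ?_
  calc (∫⁻ x, G x) * ENNReal.ofReal ρ = ∫⁻ t in Ioo 0 ρ, ∫⁻ x, G (x + t • e) := by
        simp only [lintegral_add_right_eq_self, lintegral_const, MeasurableSet.univ, Measure.restrict_apply,
          univ_inter, Real.volume_Ioo, sub_zero]
    _ = ∫⁻ x, ∫⁻ t in Ioo 0 ρ, G (x + t • e) :=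
        lintegral_lintegral_swap (hGm.comp (by fun_prop)).aemeasurable
    _ ≤ ∫⁻ x, (ball w (2 * ρ)).indicator (fun _ => ENNReal.ofReal (64 * Real.pi)) x := by
        refine lintegral_mono fun x => ?_
        by_cases hx : x ∈ ball w (2 * ρ)
        · rw [indicator_of_mem hx]
          refine (setLIntegral_le_lintegral _ _).trans (le_trans (le_of_eq ?_)
            (one_d {t | x + t • e ∈ A} (fun t => ψ (x + t • e))
              ⟨_, fun t ht => (abs_le.1 (hn x t ht).1).2⟩ ⟨_, fun t ht => (abs_le.1 (hn x t ht).1).1⟩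
              fun s hs t ht hst => ?_))
          · rw [hG]
            rfl
          · have e1 : x + s • e + (t - s) • e = x + t • e := by
              rw [sub_smul]
              abel
            have := hm _ hs (t - s) (by linarith) (by rw [e1]; exact ht)
            rwa [e1] at this
        · rw [indicator_of_notMem hx]
          refine le_of_eq (setLIntegral_eq_zero measurableSet_Ioo fun t ht => ?_)
          show G (x + t • e) = 0
          rw [hG]
          refine indicator_of_notMem (fun h' => hx (mem_ball_iff_norm.2 ?_)) _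
          have := (hn x t h').2
          rw [abs_of_pos ht.1] at this
          linarith [ht.2]
    _ = _ := by
        rw [lintegral_indicator_const measurableSet_ball, vol _ (by positivity),
          ← ENNReal.ofReal_mul (by positivity)]

theorem big (hρ : 0 < ρ) (hψ : Continuous ψ) (hA : MeasurableSet A)
    (h : ∀ x ∈ A, 1 / 2 ≤ ‖p x‖ ∧ ∀ y, |ψ y - ψ x - ⟪p x, y - x⟫| ≤ ‖y - x‖ ^ 2 / (100 * ρ))
    {z : E n} {R : ℝ} (hR : ρ ≤ R) (hz : A ⊆ ball z R) :
    ∫⁻ x, A.indicator (fun x => ENNReal.ofReal (Real.exp (-|ψ x|))) x ≤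
      ENNReal.ofReal (64 * Real.pi * ((2 * ρ) ^ n * V n) / ρ * ((2 * R) ^ n * V n) / ((ρ / 2) ^ n * V n)) := by
  classical
  have hV : 0 < V n := V_pos
  obtain ⟨G, hG⟩ : ∃ G : E n → ℝ≥0∞, G = A.indicator fun x => ENNReal.ofReal (Real.exp (-|ψ x|)) := ⟨_, rfl⟩
  have hGm : Measurable G := by
    rw [hG]
    exact Measurable.indicator (by fun_prop) hA
  rw [← hG]
  refine le_div (by positivity) ?_
  calc (∫⁻ x, G x) * ENNReal.ofReal ((ρ / 2) ^ n * V n)
      = ∫⁻ x, ∫⁻ w, if dist w x < ρ / 2 then G x else 0 := by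
        rw [← lintegral_mul_const _ hGm]
        refine lintegral_congr fun x => ?_
        rw [← vol x (half_pos hρ), ← lintegral_indicator_const measurableSet_ball]
        rfl
    _ = ∫⁻ w, ∫⁻ x, if dist w x < ρ / 2 then G x else 0 :=
        lintegral_lintegral_swap (Measurable.ite (measurableSet_lt (by fun_prop) measurable_const)
          (hGm.comp measurable_fst) measurable_const).aemeasurable
    _ ≤ ∫⁻ w, (ball z (2 * R)).indicator
          (fun _ => ENNReal.ofReal (64 * Real.pi * ((2 * ρ) ^ n * V n) / ρ)) w := by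
        refine lintegral_mono fun w => ?_
        have e1 : ∀ x, (if dist w x < ρ / 2 then G x else 0) =
            (A ∩ ball w (ρ / 2)).indicator (fun x => ENNReal.ofReal (Real.exp (-|ψ x|))) x := fun x => by
          rw [inter_comm, ← indicator_indicator, ← hG, dist_comm]
          rfl
        simp only [e1]
        by_cases hw : w ∈ ball z (2 * R)
        · rw [indicator_of_mem hw]
          exact small hρ hψ (hA.inter measurableSet_ball) (fun x hx => h x hx.1) inter_subset_right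
        · have e2 : A ∩ ball w (ρ / 2) = ∅ := eq_empty_of_forall_notMem fun x hx => hw (mem_ball.2 (by
            linarith [dist_triangle_left w z x, mem_ball.1 hx.2, mem_ball.1 (hz hx.1)]))
          simp [e2]
    _ = _ := by
        rw [lintegral_indicator_const measurableSet_ball, vol _ (by linarith),
          ← ENNReal.ofReal_mul (by positivity)]

end Pack

open Pack in
theorem pack : PACK := by
  intro n
  have hV : 0 < V n := V_pos
  refine ⟨6400 * Real.pi * 8 ^ n * V n, by positivity, fun ψ p A r hr hψ hA h z R hR => ?_⟩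
  obtain ⟨ρ, rfl⟩ : ∃ ρ, r = 100 * ρ := ⟨r / 100, by ring⟩
  have hρ : 0 < ρ := by linarith
  have hR0 : 0 < R := by linarith
  have h1 := big (p := p) hρ hψ (hA.inter (measurableSet_ball (x := z) (ε := R))) (fun x hx => h x hx.1)
    (by linarith : ρ ≤ R) inter_subset_right
  rw [lintegral_indicator (hA.inter measurableSet_ball)] at h1
  rw [integral_eq_lintegral_of_nonneg_ae (ae_of_all _ fun x => (Real.exp_pos _).le)
    (Continuous.aestronglyMeasurable (by fun_prop))]
  refine ENNReal.toReal_le_of_le_ofReal (by positivity) (h1.trans (le_of_eq (congrArg _ ?_)))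
  rw [show (8 : ℝ) = 2 * 2 * 2 by norm_num]
  simp only [mul_pow, div_pow]
  field_simp
  ring

open Pack in
theorem dir : rDIR := by
  intro h1 h2 n
  obtain ⟨C₁, c1, h1⟩ := h1 n
  obtain ⟨C₂, c2, h2⟩ := h2 n
  have hV : 0 < V n := V_pos
  refine ⟨C₁ * (2 ^ n * (C₂ + V n)), by positivity,
    fun B A S ψ Y ζ p r R l τ₁ τ₂ hB hζ hl hlR hr hrR hR t1 t2 hψ hY hY0 hA hS hp hb => ?_⟩
  have hm : MeasurableSet (S ∩ {x | infDist x B ≤ R}) :=
    hS.inter (measurableSet_le (continuous_infDist_pt B).measurable measurable_const)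
  have hI : ∀ (f : E n → ℝ) (y : E n), Continuous f → IntegrableOn f (ball y (R + 2)) := fun f y hf =>
    (hf.continuousOn.integrableOn_compact (isCompact_closedBall y (R + 2))).mono_set ball_subset_closedBall
  have h3 := (h1 B l (2 ^ n * (C₂ + V n) * (τ₁ * R ^ n / r + τ₂ * R ^ n)) R ζ
    ((S ∩ {x | infDist x B ≤ R}).indicator Y) hB hζ hl hlR (fun x => indicator_nonneg (fun x _ => hY0 x) x)
    (hY.measurable.indicator hm) (fun x hx => indicator_of_notMem (fun h => not_le.2 hx h.2) _) fun y =>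
      ⟨(hI Y y hY).indicator hm, ?_⟩).2
  · simp only [← indicator_mul_left (S ∩ {x | infDist x B ≤ R}) Y fun x => ζ x ^ 2] at h3
    rw [integral_indicator hm] at h3
    rw [mul_assoc C₁]
    exact h3
  · have i1 := (hI (fun x => Real.exp (-|ψ x|)) y (by fun_prop)).indicator hA
    have i2 := hI (fun _ => τ₂) y continuous_const
    have a1 : ∫ x in ball y (R + 2), (S ∩ {x | infDist x B ≤ R}).indicator Y x ≤
        ∫ x in ball y (R + 2), (τ₁ * A.indicator (fun x => Real.exp (-|ψ x|)) x + τ₂) := by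
      refine integral_mono ((hI Y y hY).indicator hm) ((i1.const_mul τ₁).add i2) fun x => ?_
      have b1 : 0 ≤ τ₁ * A.indicator (fun x => Real.exp (-|ψ x|)) x :=
        mul_nonneg t1 (indicator_nonneg (fun x _ => (Real.exp_pos _).le) x)
      by_cases hx : x ∈ S ∩ {x | infDist x B ≤ R}
      · rw [indicator_of_mem hx]
        rcases hb x hx.1 with b2 | ⟨b2, b3⟩
        · linarith
        · simp only [indicator_of_mem b2]
          linarith
      · rw [indicator_of_notMem hx]
        linarith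
    rw [integral_add (i1.const_mul τ₁) i2, integral_const_mul, setIntegral_indicator hA, inter_comm (ball y _),
      setIntegral_const, measureReal_def, vol _ (by linarith), ENNReal.toReal_ofReal (by positivity),
      smul_eq_mul] at a1
    have a2 := mul_le_mul_of_nonneg_left (h2 ψ p A r hr hψ hA hp y (R + 2) (by linarith)) t1
    have a3 : (R + 2) ^ n ≤ 2 ^ n * R ^ n := by
      rw [← mul_pow]
      exact pow_le_pow_left₀ (by linarith) (by linarith) n
    have a4 : τ₁ * (C₂ * (R + 2) ^ n / r) ≤ 2 ^ n * C₂ * (τ₁ * R ^ n / r) := by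
      have := mul_le_mul_of_nonneg_left a3 (show 0 ≤ τ₁ * C₂ / r by positivity)
      calc τ₁ * (C₂ * (R + 2) ^ n / r) = τ₁ * C₂ / r * (R + 2) ^ n := by ring
        _ ≤ _ := this
        _ = _ := by ring
    have a5 := mul_le_mul_of_nonneg_right a3 (show 0 ≤ V n * τ₂ by positivity)
    have hR0 : 0 < R := by linarith
    have a6 : 0 ≤ 2 ^ n * V n * (τ₁ * R ^ n / r) := by positivity
    have a7 : 0 ≤ 2 ^ n * C₂ * (τ₂ * R ^ n) := by positivity
    linarith

end Vale.Agent.P134C
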