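import Vale.Agent.P134C.Nob2
import Vale.Agent.P134C.THK3
import Vale.Agent.P134E.AllF
import Vale.Agent.P134E.PKI2

/-!
# P134C: block (c) without hypotheses
-/

namespace Vale.Agent.P134C

open Vale.Agent.P134B Vale.Agent.P134W

/-- the bad set is empty -/
theorem nob : NOB :=
  nob_of_te (thk3 mu_all sym Nob2.dt' P134R.qg dir_all) (P134E.te_ofF P134E.pki2)

end Vale.Agent.P134C
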