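import Vale.Agent.P134B.Defs

/-!
# P134C, block (c): weights, the bad set, counting (definitions and statements)
-/

open MeasureTheory Metric Filter Topology Set
open scoped ContDiff RealInnerProductSpace
open Vale.Agent.P366.Stmt (E)

noncomputable section

namespace Vale.Agent.P134C

open Vale.Agent.P134B

variable {n : ℕ}

/-- An admissible weight with logarithmic slope at most `l`. -/
structure Wt (l : ℝ) (ζ : E n → ℝ) : Prop where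
  sm : ContDiff ℝ ∞ ζ
  pos : ∀ x, 0 < ζ x
  le : ∀ x, ζ x ≤ 1
  d1 : ∀ x, ‖gradient ζ x‖ ≤ l * ζ x
  d2 : ∀ x, ‖fderiv ℝ (gradient ζ) x‖ ≤ l * ζ x
  ex : ∀ x y, ζ x ≤ Real.exp (l * ‖x - y‖) * ζ y
  pe : ∀ x y, ζ x ≤ 2 ^ (n + 1) * (1 + ‖x - y‖ ^ 2) ^ (n + 1) * ζ y
  int : Integrable ζ

/-- The bad set. -/
def Bad (δ : ℝ) (u : E n → ℝ) : Set (E n) := {x | δ < EE u x}

/-- The weighted number of cells of `B`. -/
def Xi (B : Set (E n)) (ζ : E n → ℝ) : ℝ := ∫ x in {x | infDist x B < 1}, ζ x ^ 2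

/-- The weight of the power zone: `1` for `t ≥ 1 / s₀`, `(s₀ t) ^ (2 b)` below. -/
def wt (b s₀ t : ℝ) : ℝ := min 1 ((s₀ * t) ^ (2 * b))

/-- **WT**: weights exist. -/
def WT : Prop := ∀ (n : ℕ) (l : ℝ), 0 < l → ∃ ζ : E n → ℝ, Wt l ζ

/-- **KER**: counting with a kernel. -/
def KER : Prop := ∀ n : ℕ, ∃ C : ℝ, 0 < C ∧ ∀ (B : Set (E n)) (l A : ℝ) (ζ g : E n → ℝ)
  (K : E n → E n → ℝ), B.Nonempty → Wt l ζ → (∀ x, 0 ≤ g x) → AEStronglyMeasurable g →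
  Measurable (Function.uncurry K) → (∀ x y, 0 ≤ K x y) →
  (∀ᵐ x, ∀ y, infDist y B < 1 → ‖x - y‖ < infDist x B + 2 → g x * ζ x ^ 2 ≤ K x y * ζ y ^ 2) →
  (∀ y, Integrable (fun x => K x y) ∧ ∫ x, K x y ≤ A) →
  Integrable (fun x => g x * ζ x ^ 2) ∧ ∫ x, g x * ζ x ^ 2 ≤ C * A * Xi B ζ

/-- **CNT**: payment per cell for a density with polynomial decay in the distance to `B`. -/
def CNT : Prop := ∀ n : ℕ, ∃ C : ℝ, 0 < C ∧ ∀ (B : Set (E n)) (l A : ℝ) (ζ g : E n → ℝ),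
  B.Nonempty → Wt l ζ → (∀ x, 0 ≤ g x) → AEStronglyMeasurable g →
  (∀ᵐ x, g x * (1 + infDist x B) ^ (5 * n + 5) ≤ A) →
  Integrable (fun x => g x * ζ x ^ 2) ∧ ∫ x, g x * ζ x ^ 2 ≤ C * A * Xi B ζ

/-- **CNR**: payment per cell for a density which lives within the distance `R` of `B`. -/
def CNR : Prop := ∀ n : ℕ, ∃ C : ℝ, 0 < C ∧ ∀ (B : Set (E n)) (l A R : ℝ) (ζ g : E n → ℝ),
  B.Nonempty → Wt l ζ → 0 ≤ l → l * (R + 2) ≤ 1 → (∀ x, 0 ≤ g x) → Measurable g →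
  (∀ x, R < infDist x B → g x = 0) →
  (∀ y, IntegrableOn g (ball y (R + 2)) ∧ ∫ x in ball y (R + 2), g x ≤ A) →
  Integrable (fun x => g x * ζ x ^ 2) ∧ ∫ x, g x * ζ x ^ 2 ≤ C * A * Xi B ζ

/-- **PACK**: packing of layers which are nearly affine at the scale `r`. -/
def PACK : Prop := ∀ n : ℕ, ∃ C : ℝ, 0 < C ∧ ∀ (ψ : E n → ℝ) (p : E n → E n) (A : Set (E n))
  (r : ℝ), 0 < r → Continuous ψ → MeasurableSet A →
  (∀ x ∈ A, 1 / 2 ≤ ‖p x‖ ∧ ∀ y, |ψ y - ψ x - ⟪p x, y - x⟫| ≤ ‖y - x‖ ^ 2 / r) →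
  ∀ (z : E n) (R : ℝ), r ≤ R → ∫ x in A ∩ ball z R, Real.exp (-|ψ x|) ≤ C * R ^ n / r

end Vale.Agent.P134C
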