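import Vale.Agent.P134C.D1
import Vale.Agent.P134T.Calc

/-!
# P134C, block (c): stability against the two-point inequality (row DAB)
-/

open MeasureTheory Metric Filter Topology Set
open scoped ContDiff RealInnerProductSpace
open Vale.Agent.P366.Stmt (E)
open Vale.Agent.P134T (grad_mul grad_comp)

noncomputable section

namespace Vale.Agent.P134C

namespace Dab

variable {n : ℕ} {K : Set (E n)} {f g : E n → ℝ}

/-- measurable and bounded on `K` -/
structure LB (K : Set (E n)) (f : E n → ℝ) : Prop where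
  m : Measurable f
  b : ∃ M, ∀ x ∈ K, |f x| ≤ M

theorem LB.ct (hK : IsCompact K) (h : Continuous f) : LB K f :=
  ⟨h.measurable, hK.exists_bound_of_continuousOn h.continuousOn⟩

theorem LB.mul (a : LB K f) (b : LB K g) : LB K fun x => f x * g x := by
  obtain ⟨M, h⟩ := a.b
  obtain ⟨M', h'⟩ := b.b
  refine ⟨a.m.mul b.m, M * M', fun x hx => ?_⟩
  rw [abs_mul]
  exact mul_le_mul (h x hx) (h' x hx) (abs_nonneg _) ((abs_nonneg _).trans (h x hx))

theorem LB.add (a : LB K f) (b : LB K g) : LB K fun x => f x + g x := by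
  obtain ⟨M, h⟩ := a.b
  obtain ⟨M', h'⟩ := b.b
  exact ⟨a.m.add b.m, M + M', fun x hx => (abs_add_le _ _).trans (add_le_add (h x hx) (h' x hx))⟩

theorem LB.sq (a : LB K f) : LB K fun x => f x ^ 2 := by simpa only [_root_.sq] using a.mul a

theorem LB.int (hK : IsCompact K) (a : LB K f) (z : ∀ x ∉ K, f x = 0) : Integrable f := by
  obtain ⟨M, h⟩ := a.b
  refine IntegrableOn.integrable_of_forall_notMem_eq_zero ?_ z
  exact Measure.integrableOn_of_bounded hK.measure_lt_top.ne a.m.aestronglyMeasurable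
    ((ae_restrict_mem hK.measurableSet).mono h)

theorem m_grad (f : E n → ℝ) : Measurable (gradient f) :=
  (InnerProductSpace.toDual ℝ (E n)).symm.continuous.measurable.comp (measurable_fderiv ℝ f)

theorem LB.grad (hK : IsCompact K) (h : LocallyLipschitz f) : LB K fun x => ‖gradient f x‖ := by
  obtain ⟨K', h1, h2⟩ := exists_compact_superset hK
  obtain ⟨L, hL⟩ := h.locallyLipschitzOn.exists_lipschitzOnWith_of_compact h1
  refine ⟨(m_grad f).norm, L, fun x hx => ?_⟩
  rw [abs_norm, gradient, LinearIsometryEquiv.norm_map]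
  exact norm_fderiv_le_of_lipschitzOn ℝ (mem_interior_iff_mem_nhds.1 (h2 hx)) hL

theorem LB.inn (hK : IsCompact K) (h : LocallyLipschitz f) (h' : LocallyLipschitz g) :
    LB K fun x => ⟪gradient f x, gradient g x⟫ := by
  obtain ⟨M, hM⟩ := ((LB.grad hK h).mul (LB.grad hK h')).b
  exact ⟨(m_grad f).inner (m_grad g), M, fun x hx =>
    (abs_real_inner_le_norm _ _).trans ((le_abs_self _).trans (hM x hx))⟩

theorem ae_diff (h : LocallyLipschitz f) : ∀ᵐ x, DifferentiableAt ℝ f x := by
  have : ∀ j : ℕ, ∀ᵐ x, x ∈ closedBall (0 : E n) j → DifferentiableWithinAt ℝ f (closedBall 0 j) x :=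
    fun j => by
      obtain ⟨L, hL⟩ := h.locallyLipschitzOn.exists_lipschitzOnWith_of_compact
        (isCompact_closedBall (0 : E n) j)
      exact hL.ae_differentiableWithinAt_of_mem
  filter_upwards [ae_all_iff.2 this] with x hx
  obtain ⟨j, hj⟩ := exists_nat_gt ‖x‖
  exact (hx j (mem_closedBall_zero_iff.2 hj.le)).differentiableAt
    (closedBall_mem_nhds_of_mem (mem_ball_zero_iff.2 hj))

theorem am {η : ℝ} (e0 : 0 < η) (a b : ℝ) (v w : E n) :
    2 * a * b * ⟪v, w⟫ ≤ η * a ^ 2 * ‖v‖ ^ 2 + b ^ 2 * ‖w‖ ^ 2 / η := by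
  have := sq_nonneg ‖(η * a) • v - b • w‖
  rw [norm_sub_sq_real, real_inner_smul_left, real_inner_smul_right, norm_smul, norm_smul, mul_pow,
    mul_pow, Real.norm_eq_abs, Real.norm_eq_abs, sq_abs, sq_abs] at this
  rw [← sub_le_iff_le_add', le_div_iff₀ e0]
  linarith

/-- the pointwise inequality -/
theorem pw {h V X Y t ξ F F' k k' η c κ I J : ℝ} (v w : E n) (e0 : 0 < η) (h0 : 0 ≤ h) (V0 : 0 ≤ V)
    (VY : h * V ≤ Y) (k0 : 0 ≤ k) (t0 : 0 < t ∨ k = 0) (J0 : 0 ≤ J)
    (gr : (1 + η) * F' ^ 2 + η * (k / t) ≤ k' + c * k / t + I)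
    (po : κ * (t * k) ≤ (1 - η) * F ^ 2 + J) :
    h * ‖F • w + ξ • F' • v‖ ^ 2 ≤ (h * ((k' + c * k / t) * ‖v‖ ^ 2 - (κ * V + X) * (t * k)) * ξ ^ 2 +
      h * k * ⟪v, ξ • w + ξ • w⟫) + (1 - η) * (h * V * (F * ξ) ^ 2) +
      (t * k * (h * X * ξ ^ 2) + I * (h * ‖v‖ ^ 2 * ξ ^ 2) + J * (Y * ξ ^ 2) +
        (F ^ 2 + F ^ 2 / η + t * k / η) * (h * ‖w‖ ^ 2)) := by
  have a1 := am e0 (ξ * F') F v w
  have a2 : -(2 * k * ξ * ⟪v, w⟫) ≤ η * (k / t) * ξ ^ 2 * ‖v‖ ^ 2 + t * k / η * ‖w‖ ^ 2 := by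
    rcases t0 with t0 | rfl
    · refine le_trans (le_of_eq ?_) ((mul_le_mul_of_nonneg_left (am e0 (-ξ) t v w)
        (div_nonneg k0 t0.le)).trans (le_of_eq ?_)) <;> field_simp
    · simp
  have a3 := mul_le_mul_of_nonneg_right gr (show 0 ≤ h * ‖v‖ ^ 2 * ξ ^ 2 by positivity)
  have a4 := mul_le_mul_of_nonneg_right po (show 0 ≤ h * V * ξ ^ 2 by positivity)
  have a5 := mul_le_mul_of_nonneg_right VY (show 0 ≤ J * ξ ^ 2 by positivity)
  have a6 := mul_le_mul_of_nonneg_left a1 h0
  have a7 := mul_le_mul_of_nonneg_left a2 h0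
  rw [smul_smul, norm_add_sq_real, real_inner_smul_left, real_inner_smul_right, norm_smul, norm_smul,
    mul_pow, mul_pow, Real.norm_eq_abs, Real.norm_eq_abs, sq_abs, sq_abs, inner_add_right,
    real_inner_smul_right, real_inner_comm]
  simp only [div_eq_mul_inv] at *
  linarith

end Dab

open Dab in
/-- Row DAB. -/
theorem dab : DAB := by
  intro n h V X Y G b κ c η C s₁ s₀ s F k D e0 e1 C1 s0 hs P st wo ξ ξ1 ξ2
  have cG := D.lG.continuous
  have ξ3 : ContDiff ℝ 1 ξ := ξ1.of_le (by simp)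
  have dξ := ξ3.differentiable one_ne_zero
  have lξ := ξ3.locallyLipschitz
  have lφ : LocallyLipschitz fun x => F (G x) * ξ x :=
    (show ContDiff ℝ 1 fun p : ℝ × ℝ => F p.1 * p.2 from
      (P.cF.comp contDiff_fst).mul contDiff_snd).locallyLipschitz.comp (D.lG.prodMk lξ)
  have a0 : 0 < 1 / (3 * s) := by positivity
  have W := wo k _ a0 P.ck P.k0 (fun t ht => ht.elim (fun l => (P.lo t l).2) (P.hi t))
    (fun x => ξ x ^ 2) (ξ1.pow 2) (by simp only [sq]; exact ξ2.mul_right) fun x => sq_nonneg _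
  have S := st _ lφ ξ2.mul_left
  have gχ : ∀ x, gradient (fun x => ξ x ^ 2) x = ξ x • gradient ξ x + ξ x • gradient ξ x :=
    fun x => by simpa only [sq] using grad_mul (dξ x) (dξ x)
  simp only [gχ] at W
  have K := ξ2.isCompact
  have z0 : ∀ x ∉ tsupport ξ, ξ x = 0 := fun x => image_eq_zero_of_notMem_tsupport
  have z1 : ∀ f : E n → ℝ, tsupport f ⊆ tsupport ξ → ∀ x ∉ tsupport ξ, gradient f x = 0 :=
    fun f hf x hx => by
      rw [gradient, image_eq_zero_of_notMem_tsupport fun l => hx (hf (tsupport_fderiv_subset ℝ l)),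
        map_zero]
  have w0 : ∀ x, 0 ≤ wt b s₀ (G x) ∧ wt b s₀ (G x) ≤ 1 := fun x =>
    ⟨le_min zero_le_one (Real.rpow_nonneg (mul_nonneg s0.le (D.G0 x)) _), min_le_left _ _⟩
  have bh := LB.ct K D.ch
  have bξ := LB.ct K ξ1.continuous
  have bk := LB.ct K (P.ck.continuous.comp cG)
  have bG := (LB.grad K D.lG).sq
  have bX : LB (tsupport ξ) fun x => h x * X x := ⟨D.ch.measurable.mul D.mX, D.bd.imp
    fun M hM x _ => by rw [abs_of_nonneg (mul_nonneg (D.h0 x) (D.X0 x))]; exact (hM x).2⟩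
  have bw : LB (tsupport ξ) fun x => wt b s₀ (G x) :=
    ⟨measurable_const.min ((cG.measurable.const_mul _).pow_const _), 1, fun x _ => by
      rw [abs_of_nonneg (w0 x).1]; exact (w0 x).2⟩
  have bq : LB (tsupport ξ) fun x => c * k (G x) / G x := by
    obtain ⟨M, hM⟩ := bk.b
    refine ⟨(bk.m.const_mul _).div cG.measurable, |c| * M / (1 / (3 * s)), fun x hx => ?_⟩
    have M0 := (abs_nonneg _).trans (hM x hx)
    rcases le_total (G x) (1 / (3 * s)) with l | l
    · rw [(P.lo _ l).2, mul_zero, zero_div, abs_zero]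
      positivity
    · rw [abs_div, abs_mul, abs_of_nonneg (D.G0 x)]
      gcongr
      exact hM x hx
  have i0 := (bh.mul (LB.grad K lφ).sq).int K fun x hx => by
    simp [z1 _ (tsupport_mul_subset_right (f := fun x => F (G x))) x hx]
  have i1 : Integrable fun x => h x * ((deriv k (G x) + c * k (G x) / G x) * ‖gradient G x‖ ^ 2 -
      (κ * V x + X x) * (G x * k (G x))) * ξ x ^ 2 := by
    refine (((((bh.mul ((LB.ct K ((P.ck.continuous_deriv le_rfl).comp cG)).add bq)).mul bG).add
      (((LB.ct K (f := fun x => κ * (h x * V x)) (continuous_const.mul (D.ch.mul D.cV))).add bX).mul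
        ((LB.ct K cG.neg).mul bk))).mul bξ.sq).int K fun x hx => by simp [z0 x hx]).congr
      (ae_of_all _ fun x => ?_)
    simp only [Function.comp, Pi.neg_apply]
    ring
  have i2 : Integrable fun x => h x * k (G x) *
      ⟪gradient G x, ξ x • gradient ξ x + ξ x • gradient ξ x⟫ := by
    refine (((bh.mul bk).mul ((bξ.add bξ).mul (LB.inn K D.lG lξ))).int K
      fun x hx => by simp [z0 x hx]).congr (ae_of_all _ fun x => ?_)
    simp only [Function.comp, inner_add_right, real_inner_smul_right]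
    ring
  have i3 : Integrable fun x => h x * V x * (F (G x) * ξ x) ^ 2 :=
    (LB.ct K ((D.ch.mul D.cV).mul (lφ.continuous.pow 2))).int K fun x hx => by simp [z0 x hx]
  have mb : ∀ a b, MeasurableSet (bnd G a b) := fun a b => cG.measurable measurableSet_Icc
  have mc : MeasurableSet {x | 1 / (3 * s) ≤ G x} := cG.measurable measurableSet_Ici
  have j1 := ((((bX.mul bw).mul bξ.sq).int K fun x hx => by simp [z0 x hx]).indicator
    (mb (1 / (3 * s)) (1 / s₁))).const_mul C
  have j2 := ((((bh.mul bG).mul bξ.sq).int K fun x hx => by simp [z0 x hx]).indicator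
    (mb (1 / (3 * s₁)) (1 / s₁))).const_mul (C * √(s₁ / s₀) * s₁ ^ 2)
  have j3 := ((((LB.ct K D.cY).mul bξ.sq).int K fun x hx => by simp [z0 x hx]).indicator
    (mb (1 / (3 * s)) (C / s))).const_mul (C * (s₀ / s) ^ (2 * b))
  have j4 := (((bh.mul (LB.grad K lξ).sq).int K fun x hx => by
    simp [z1 _ Subset.rfl x hx]).indicator mc).const_mul (3 * C / η)
  have key := integral_mono_ae i0 (((i1.add i2).add (i3.const_mul (1 - η))).add
    (((j1.add j2).add j3).add j4)) (by
    filter_upwards [ae_diff D.lG] with x hx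
    have dF := (P.cF.differentiable one_ne_zero (G x)).hasDerivAt
    have h0 := D.h0 x
    have X0 := D.X0 x
    have kk := P.kw _ (D.G0 x)
    simp only [Pi.add_apply]
    rw [grad_mul (f := fun x => F (G x)) (dF.differentiableAt.comp x hx) (dξ x), grad_comp dF hx]
    refine (pw (X := X x) (gradient G x) (gradient ξ x) e0 h0 (D.V0 x) (D.VY x) (P.k0 _)
      ((lt_or_ge (1 / (3 * s)) (G x)).imp a0.trans fun l => (P.lo _ l).2)
      (indicator_nonneg (fun _ _ => by positivity) _) (P.gr _ (D.G0 x)) (P.po _ (D.G0 x))).trans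
      (add_le_add le_rfl (add_le_add (add_le_add (add_le_add ?_ (le_of_eq ?_)) (le_of_eq ?_)) ?_))
    · by_cases l : x ∈ bnd G (1 / (3 * s)) (1 / s₁)
      · rw [indicator_of_mem l]
        linarith [mul_le_mul_of_nonneg_right kk (show 0 ≤ h x * X x * ξ x ^ 2 by positivity)]
      · rw [indicator_of_notMem l, (not_and_or.1 l).elim (fun l => (P.lo _ (not_le.1 l).le).2)
          fun l => P.hi _ (not_le.1 l).le]
        simp
    · by_cases l : x ∈ bnd G (1 / (3 * s₁)) (1 / s₁)
      · rw [indicator_of_mem l, indicator_of_mem (show G x ∈ Icc _ _ from l)]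
      · rw [indicator_of_notMem l, indicator_of_notMem (show G x ∉ Icc _ _ from l)]
        simp
    · by_cases l : x ∈ bnd G (1 / (3 * s)) (C / s)
      · rw [indicator_of_mem l, indicator_of_mem (show G x ∈ Icc _ _ from l)]
      · rw [indicator_of_notMem l, indicator_of_notMem (show G x ∉ Icc _ _ from l)]
        simp
    · by_cases l : x ∈ {x | 1 / (3 * s) ≤ G x}
      · rw [indicator_of_mem l]
        refine mul_le_mul_of_nonneg_right ?_ (by positivity)
        rw [add_assoc, ← add_div, ← sub_nonneg, ← sub_sub, sub_right_comm, ← sub_div, sub_nonneg,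
          le_div_iff₀ e0]
        nlinarith [P.F1 (G x), mul_le_mul_of_nonneg_left (w0 x).2 (zero_le_one.trans C1),
          sq_nonneg (F (G x))]
      · rw [indicator_of_notMem l, (P.lo _ (not_le.1 l).le).1, (P.lo _ (not_le.1 l).le).2]
        simp)
  rw [integral_add' ((i1.add i2).add (i3.const_mul _)) (((j1.add j2).add j3).add j4),
    integral_add' (i1.add i2) (i3.const_mul _), integral_add' i1 i2,
    integral_add' ((j1.add j2).add j3) j4, integral_add' (j1.add j2) j3,
    integral_add' j1 j2] at key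
  simp only [integral_const_mul, integral_indicator (mb _ _), integral_indicator mc] at key
  linarith [mul_le_mul_of_nonneg_left S (sub_nonneg.2 e1)]

end Vale.Agent.P134C
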