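import Vale.Agent.P134C.D1

/-!
# P134C: the final contradiction of block (c)
-/

open MeasureTheory Metric Filter Topology Set
open scoped ContDiff RealInnerProductSpace
open Vale.Agent.P366.Stmt (E)

noncomputable section

namespace Vale.Agent.P134C

namespace Fn

variable {n : ℕ}

theorem norm_grad (f : E n → ℝ) (x : E n) : ‖gradient f x‖ = ‖fderiv ℝ f x‖ := by
  unfold gradient
  exact LinearIsometryEquiv.norm_map _ _

/-- cut-offs of the weight -/
theorem cut {l : ℝ} {ζ : E n → ℝ} (hl : 0 < l) (w : Wt l ζ) : ∃ ξ : ℕ → E n → ℝ,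
    (∀ i, ContDiff ℝ ∞ (ξ i) ∧ HasCompactSupport (ξ i) ∧ ∀ x, ξ i x ^ 2 ≤ ζ x ^ 2 ∧
      ‖gradient (ξ i) x‖ ^ 2 ≤ 4 * l ^ 2 * ζ x ^ 2) ∧ ∀ x, ∀ᶠ i in atTop, ξ i x = ζ x := by
  let χ : ContDiffBump (0 : E n) := ⟨1, 2, by norm_num, by norm_num⟩
  have hχ : ContDiff ℝ ∞ χ := χ.contDiff
  obtain ⟨L, hL⟩ := (hχ.continuous_fderiv (by simp)).bounded_above_of_compact_support
    (χ.hasCompactSupport.fderiv ℝ)
  have hL0 : 0 ≤ L := (norm_nonneg _).trans (hL 0)
  set r : ℕ → ℝ := fun i => l / (L + 1) * (1 / ((i : ℝ) + 1)) with hr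
  have r0 : ∀ i, 0 < r i := fun i => by rw [hr]; positivity
  have r1 : ∀ i, r i * L ≤ l := fun i => by
    have h1 : 1 / ((i : ℝ) + 1) ≤ 1 := by
      rw [div_le_one (by positivity)]; linarith [Nat.cast_nonneg (α := ℝ) i]
    have h2 : r i ≤ l / (L + 1) := mul_le_of_le_one_right (by positivity) h1
    rw [le_div_iff₀ (by positivity)] at h2
    nlinarith [r0 i]
  have sm : ∀ i, ContDiff ℝ ∞ fun x : E n => χ (r i • x) := fun i =>
    hχ.comp (contDiff_id.const_smul (r i))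
  refine ⟨fun i x => ζ x * χ (r i • x), fun i => ⟨w.sm.mul (sm i), ?_, fun x => ⟨?_, ?_⟩⟩,
    fun x => ?_⟩
  · exact HasCompactSupport.mul_left (χ.hasCompactSupport.comp_smul (r0 i).ne')
  · rw [mul_pow]
    exact mul_le_of_le_one_right (sq_nonneg _) (pow_le_one₀ χ.nonneg χ.le_one)
  · have d1 := (w.sm.differentiable (by simp) x).hasFDerivAt
    have d2 := ((hχ.differentiable (by simp) (r i • x)).hasFDerivAt).comp x
      ((hasFDerivAt_id x).const_smul (r i))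
    have d3 := (d1.mul d2).fderiv
    have b1 := w.d1 x
    rw [norm_grad] at b1 ⊢
    have e : (fun x => ζ x * χ (r i • x)) = ζ * (χ ∘ HSMul.hSMul (r i)) := rfl
    have b2 : ‖(fderiv ℝ χ (r i • x)).comp (r i • ContinuousLinearMap.id ℝ (E n))‖ ≤ l := by
      refine (ContinuousLinearMap.opNorm_comp_le _ _).trans (le_trans ?_ (r1 i))
      rw [mul_comm]
      refine mul_le_mul ?_ (hL _) (norm_nonneg _) (r0 i).le
      rw [norm_smul, Real.norm_of_nonneg (r0 i).le]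
      exact mul_le_of_le_one_right (r0 i).le ContinuousLinearMap.norm_id_le
    have b3 : ‖fderiv ℝ (fun x => ζ x * χ (r i • x)) x‖ ≤ 2 * l * ζ x := by
      rw [e, d3]
      refine (norm_add_le _ _).trans ?_
      rw [norm_smul, norm_smul, Real.norm_of_nonneg (w.pos x).le]
      have b4 : ‖(χ ∘ HSMul.hSMul (r i)) x‖ ≤ 1 := by
        show ‖χ (r i • x)‖ ≤ 1
        rw [Real.norm_of_nonneg χ.nonneg]
        exact χ.le_one
      have b5 := mul_le_mul_of_nonneg_left b2 (w.pos x).le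
      have b6 := mul_le_mul b4 b1 (norm_nonneg _) zero_le_one
      linarith
    calc _ ≤ (2 * l * ζ x) ^ 2 := pow_le_pow_left₀ (norm_nonneg _) b3 2
      _ = _ := by ring
  · have t1 : Tendsto (fun i => r i * ‖x‖) atTop (𝓝 (l / (L + 1) * 0 * ‖x‖)) :=
      (tendsto_one_div_add_atTop_nhds_zero_nat.const_mul _).mul_const _
    rw [mul_zero, zero_mul] at t1
    filter_upwards [t1.eventually (Iic_mem_nhds one_pos)] with i hi
    rw [χ.one_of_mem_closedBall, mul_one]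
    rw [mem_closedBall_zero_iff, norm_smul, Real.norm_of_nonneg (r0 i).le]
    exact hi

theorem iI {l K : ℝ} {ζ g : E n → ℝ} (w : Wt l ζ) (hg : AEStronglyMeasurable g)
    (h0 : ∀ x, 0 ≤ g x) (hK : ∀ x, g x ≤ K) : Integrable fun x => g x * ζ x ^ 2 := by
  refine (w.int.const_mul K).mono' (hg.mul (w.sm.continuous.pow 2).aestronglyMeasurable)
    (Eventually.of_forall fun x => ?_)
  have h1 := w.pos x
  have h2 : ζ x ^ 2 ≤ ζ x := by nlinarith [w.le x]
  rw [Real.norm_of_nonneg (mul_nonneg (h0 x) (sq_nonneg _))]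
  exact mul_le_mul (hK x) h2 (sq_nonneg _) ((h0 x).trans (hK x))

theorem mono {S : Set (E n)} {g ξ ζ : E n → ℝ} (h0 : ∀ x, 0 ≤ g x) (hξ : ∀ x, ξ x ≤ ζ x)
    (hξ0 : ∀ x, 0 ≤ ξ x) (hi : IntegrableOn (fun x => g x * ζ x) S) :
    ∫ x in S, g x * ξ x ≤ ∫ x in S, g x * ζ x :=
  integral_mono_of_nonneg (Eventually.of_forall fun x => mul_nonneg (h0 x) (hξ0 x)) hi
    (Eventually.of_forall fun x => mul_le_mul_of_nonneg_left (hξ x) (h0 x))

theorem pay (cnt : CNT) (n : ℕ) : ∃ C : ℝ, 0 < C ∧ ∀ (B S : Set (E n)) (l A : ℝ) (ζ g : E n → ℝ),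
    B.Nonempty → Wt l ζ → MeasurableSet S → (∀ x, 0 ≤ g x) → AEStronglyMeasurable g →
    (∀ᵐ x, x ∈ S → g x * (1 + infDist x B) ^ (5 * n + 5) ≤ A) →
    IntegrableOn (fun x => g x * ζ x ^ 2) S ∧ ∫ x in S, g x * ζ x ^ 2 ≤ C * |A| * Xi B ζ := by
  obtain ⟨C, hC, h⟩ := cnt n
  refine ⟨C, hC, fun B S l A ζ g hB w hS h0 hg hA => ?_⟩
  have h1 := h B l |A| ζ (S.indicator g) hB w (fun x => indicator_nonneg (fun x _ => h0 x) x)
    (hg.indicator hS) (by
      filter_upwards [hA] with x hx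
      by_cases hx' : x ∈ S
      · rw [indicator_of_mem hx']; exact (hx hx').trans (le_abs_self _)
      · rw [indicator_of_notMem hx', zero_mul]; exact abs_nonneg _)
  have e : (fun x => S.indicator g x * ζ x ^ 2) = S.indicator fun x => g x * ζ x ^ 2 :=
    funext fun x => (indicator_mul_left S g fun x => ζ x ^ 2).symm
  rw [e, integrable_indicator_iff hS, integral_indicator hS] at h1
  exact h1

theorem Xi_pos {B : Set (E n)} {l : ℝ} {ζ : E n → ℝ} (hB : B.Nonempty) (w : Wt l ζ) :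
    0 < Xi B ζ := by
  have hi : Integrable fun x => ζ x ^ 2 := by
    simpa using iI (g := fun _ => 1) w aestronglyMeasurable_const (fun _ => zero_le_one)
      fun _ => le_rfl
  have ho : IsOpen {x | infDist x B < 1} := isOpen_lt (continuous_infDist_pt B) continuous_const
  unfold Xi
  rw [setIntegral_pos_iff_support_of_nonneg_ae (Eventually.of_forall fun x => sq_nonneg _)
    hi.integrableOn]
  have e : Function.support (fun x => ζ x ^ 2) = univ :=
    eq_univ_of_forall fun x => pow_ne_zero 2 (w.pos x).ne'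
  rw [e, univ_inter]
  obtain ⟨z, hz⟩ := hB
  exact ho.measure_pos _ ⟨z, by show infDist z B < 1; rw [infDist_zero_of_mem hz]; norm_num⟩

theorem wt_nn {b s t : ℝ} (hs : 0 ≤ s) (ht : 0 ≤ t) : 0 ≤ wt b s t :=
  le_min zero_le_one (Real.rpow_nonneg (mul_nonneg hs ht) _)

theorem wt_c {b s : ℝ} (hb : 0 < b) : Continuous (wt b s) :=
  continuous_const.min ((continuous_const.mul continuous_id).rpow_const fun _ =>
    Or.inr (by linarith))

theorem mb {G : E n → ℝ} (hG : Continuous G) (a b : ℝ) : MeasurableSet (bnd G a b) :=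
  ((isClosed_le continuous_const hG).inter (isClosed_le hG continuous_const)).measurableSet

/-- the inequality for the weight itself -/
theorem glob (dab : DAB) {h V X Y G ζ : E n → ℝ} {b κ c η C C₀ s₁ s₀ s l : ℝ} {F k : ℝ → ℝ}
    (D : Dt h V X Y G) (hb : 0 < b) (hη : 0 < η) (hη1 : η ≤ 1) (hC : 1 ≤ C) (hC₀ : 0 < C₀)
    (h0 : 0 < s₀) (hs : 0 < s) (P : Pr b κ c η C s₁ s₀ s F k) (st1 : ST0 h fun x => h x * V x)
    (st2 : ST0 h fun x => Y x / C₀) (wo : Wo h V X G c κ s₁) (hl : 0 < l) (w : Wt l ζ)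
    (i2 : IntegrableOn (fun x => h x * ‖gradient G x‖ ^ 2 * ζ x ^ 2)
      (bnd G (1 / (3 * s₁)) (1 / s₁))) :
    η / C₀ * ∫ x in {x | 1 / s ≤ G x}, Y x * wt b s₀ (G x) * ζ x ^ 2 ≤
      C * (∫ x in bnd G (1 / (3 * s)) (1 / s₁), h x * X x * wt b s₀ (G x) * ζ x ^ 2) +
      C * √(s₁ / s₀) * s₁ ^ 2 *
        (∫ x in bnd G (1 / (3 * s₁)) (1 / s₁), h x * ‖gradient G x‖ ^ 2 * ζ x ^ 2) +
      C * (s₀ / s) ^ (2 * b) * (∫ x in bnd G (1 / (3 * s)) (C / s), h x * V x * ζ x ^ 2) +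
      (3 * C / η) * (4 * l ^ 2 * ∫ x in {x | 1 / (3 * s) ≤ G x}, h x * ζ x ^ 2) := by
  obtain ⟨ξ, hξ, hlim⟩ := cut hl w
  obtain ⟨K, hK⟩ := D.bd
  have cG := D.lG.continuous
  have hV0 : ∀ x, 0 ≤ h x * V x := fun x => mul_nonneg (D.h0 x) (D.V0 x)
  have hY0 : ∀ x, 0 ≤ Y x := fun x => (hV0 x).trans (D.VY x)
  have w0 : ∀ x, 0 ≤ wt b s₀ (G x) := fun x => wt_nn h0.le (D.G0 x)
  have w1 : ∀ x, wt b s₀ (G x) ≤ 1 := fun x => min_le_left _ _
  have cw : Continuous fun x => wt b s₀ (G x) := (wt_c hb).comp cG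
  have D' : Dt h V X (fun x => h x * V x) G :=
    ⟨D.ch, D.cV, D.ch.mul D.cV, D.mX, D.lG, D.h0, D.h1, D.V0, D.X0, D.G0, fun _ => le_rfl,
      K, fun x => ⟨(D.VY x).trans (hK x).1, (hK x).2⟩⟩
  have mS : MeasurableSet {x | 1 / s ≤ G x} := (isClosed_le continuous_const cG).measurableSet
  have iY : Integrable fun x => Y x * wt b s₀ (G x) * ζ x ^ 2 :=
    iI w (D.cY.mul cw).aestronglyMeasurable (fun x => mul_nonneg (hY0 x) (w0 x)) fun x =>
      (mul_le_of_le_one_right (hY0 x) (w1 x)).trans (hK x).1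
  have lim : Tendsto (fun i => ∫ x in {x | 1 / s ≤ G x}, Y x * wt b s₀ (G x) * ξ i x ^ 2) atTop
      (𝓝 (∫ x in {x | 1 / s ≤ G x}, Y x * wt b s₀ (G x) * ζ x ^ 2)) := by
    refine tendsto_integral_of_dominated_convergence _ (fun i => ((D.cY.mul cw).mul
      ((hξ i).1.continuous.pow 2)).aestronglyMeasurable) iY.integrableOn
      (fun i => Eventually.of_forall fun x => ?_) (Eventually.of_forall fun x => ?_)
    · rw [Real.norm_of_nonneg (mul_nonneg (mul_nonneg (hY0 x) (w0 x)) (sq_nonneg _))]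
      exact mul_le_mul_of_nonneg_left ((hξ i).2.2 x).1 (mul_nonneg (hY0 x) (w0 x))
    · refine tendsto_const_nhds.congr' ?_
      filter_upwards [hlim x] with i hi
      rw [hi]
  refine le_of_tendsto' (lim.const_mul (η / C₀)) fun i => ?_
  obtain ⟨sm, cs, hx⟩ := hξ i
  have m := dab n h V X _ G b κ c η C s₁ s₀ s F k D' hη hη1 hC h0 hs P st1 wo (ξ i) sm cs
  have lF : LocallyLipschitz fun x => F (G x) * ξ i x :=
    (contDiff_mul (𝕜 := ℝ) (n := 1)).locallyLipschitz.comp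
      ((P.cF.locallyLipschitz.comp D.lG).prodMk (sm.of_le (by simp)).locallyLipschitz)
  have cF : HasCompactSupport fun x => F (G x) * ξ i x := cs.mul_left
  have m2 := st2 _ lF cF
  have m3 : ∫ x in {x | 1 / s ≤ G x}, Y x * wt b s₀ (G x) * ξ i x ^ 2 ≤
      C₀ * ∫ x, Y x / C₀ * (F (G x) * ξ i x) ^ 2 := by
    rw [← integral_const_mul, ← integral_indicator mS]
    refine integral_mono_of_nonneg (Eventually.of_forall fun x => indicator_nonneg (fun x _ =>
      mul_nonneg (mul_nonneg (hY0 x) (w0 x)) (sq_nonneg _)) x) ?_ (Eventually.of_forall fun x => ?_)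
    · refine Continuous.integrable_of_hasCompactSupport (continuous_const.mul
        ((D.cY.div_const _).mul (lF.continuous.pow 2))) ?_
      refine cF.mono' fun x hx => subset_tsupport _ fun h' => hx ?_
      simp only [h']
      ring
    · have e : C₀ * (Y x / C₀ * (F (G x) * ξ i x) ^ 2) = Y x * F (G x) ^ 2 * ξ i x ^ 2 := by
        field_simp
      show indicator _ _ x ≤ C₀ * (Y x / C₀ * (F (G x) * ξ i x) ^ 2)
      rw [e]
      by_cases hm : x ∈ {x | 1 / s ≤ G x}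
      · rw [indicator_of_mem hm]
        exact mul_le_mul_of_nonneg_right (mul_le_mul_of_nonneg_left (P.ga _ hm) (hY0 x))
          (sq_nonneg _)
      · rw [indicator_of_notMem hm]
        exact mul_nonneg (mul_nonneg (hY0 x) (sq_nonneg _)) (sq_nonneg _)
  have hX0 : ∀ x, 0 ≤ h x * X x := fun x => mul_nonneg (D.h0 x) (D.X0 x)
  have t1 := mono (S := bnd G (1 / (3 * s)) (1 / s₁)) (fun x => mul_nonneg (hX0 x) (w0 x))
    (fun x => (hx x).1) (fun x => sq_nonneg _) (iI w ((D.ch.measurable.mul D.mX).mul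
      cw.measurable).aestronglyMeasurable (fun x => mul_nonneg (hX0 x) (w0 x)) fun x =>
      (mul_le_of_le_one_right (hX0 x) (w1 x)).trans (hK x).2).integrableOn
  have t2 := mono (fun x => mul_nonneg (D.h0 x) (sq_nonneg ‖gradient G x‖)) (fun x => (hx x).1)
    (fun x => sq_nonneg _) i2
  have t3 := mono (S := bnd G (1 / (3 * s)) (C / s)) hV0 (fun x => (hx x).1)
    (fun x => sq_nonneg _) (iI w (D.ch.mul D.cV).aestronglyMeasurable hV0 fun x =>
      (D.VY x).trans (hK x).1).integrableOn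
  have t4 : ∫ x in {x | 1 / (3 * s) ≤ G x}, h x * ‖gradient (ξ i) x‖ ^ 2 ≤
      4 * l ^ 2 * ∫ x in {x | 1 / (3 * s) ≤ G x}, h x * ζ x ^ 2 := by
    rw [← integral_const_mul]
    refine integral_mono_of_nonneg (Eventually.of_forall fun x =>
      mul_nonneg (D.h0 x) (sq_nonneg _))
      ((iI w D.ch.aestronglyMeasurable D.h0 D.h1).const_mul _).integrableOn
      (Eventually.of_forall fun x => ?_)
    exact (mul_le_mul_of_nonneg_left (hx x).2 (D.h0 x)).trans_eq (by ring)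
  have u0 : η / C₀ * ∫ x in {x | 1 / s ≤ G x}, Y x * wt b s₀ (G x) * ξ i x ^ 2 ≤
      η * ∫ x, h x * ‖gradient (fun x => F (G x) * ξ i x) x‖ ^ 2 := by
    refine (mul_le_mul_of_nonneg_left (m3.trans (mul_le_mul_of_nonneg_left m2 hC₀.le))
      (div_pos hη hC₀).le).trans_eq ?_
    field_simp
  have hC0 : 0 ≤ C := by linarith
  have u1 := mul_le_mul_of_nonneg_left t1 hC0
  have u2 := mul_le_mul_of_nonneg_left t2 (show 0 ≤ C * √(s₁ / s₀) * s₁ ^ 2 by positivity)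
  have u3 := mul_le_mul_of_nonneg_left t3 (show 0 ≤ C * (s₀ / s) ^ (2 * b) by positivity)
  have u4 := mul_le_mul_of_nonneg_left t4 (show 0 ≤ 3 * C / η by positivity)
  linarith

theorem split {S S₁ S₂ : Set (E n)} {g : E n → ℝ} (h0 : ∀ x, 0 ≤ g x) (hi : Integrable g)
    (m₂ : MeasurableSet S₂) (hS : S ⊆ S₁ ∪ S₂) :
    ∫ x in S, g x ≤ (∫ x in S₁, g x) + ∫ x in S₂, g x := by
  have h1 : ∫ x in S, g x ≤ ∫ x in (S₁ \ S₂) ∪ S₂, g x :=
    setIntegral_mono_set hi.integrableOn (Eventually.of_forall h0)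
      (by rw [sdiff_union_self]; exact hS.eventuallyLE)
  rw [setIntegral_union disjoint_sdiff_left m₂ hi.integrableOn hi.integrableOn] at h1
  have h2 : ∫ x in S₁ \ S₂, g x ≤ ∫ x in S₁, g x :=
    setIntegral_mono_set hi.integrableOn (Eventually.of_forall h0) sdiff_subset.eventuallyLE
  linarith

theorem small {a e : ℝ} (ha : 0 ≤ a) (he : 0 < e) : ∃ δ > (0 : ℝ), ∀ t, t ≤ δ → a * t ≤ e := by
  refine ⟨e / (a + 1), by positivity, fun t ht => ?_⟩
  have h1 := mul_le_mul_of_nonneg_left ht ha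
  have h2 : a * (e / (a + 1)) ≤ e := by
    rw [← mul_div_assoc, div_le_iff₀ (by positivity)]; nlinarith
  linarith

/-- the band -/
theorem band {h V X Y G ζ : E n → ℝ} {b C s₁ s₀ s l M M' e τ Ξ : ℝ} (D : Dt h V X Y G)
    (hb : 0 < b) (hC0 : 0 ≤ C) (h0 : 0 < s₀) (hs : 0 < s) (hM : 1 ≤ M) (m3 : 3 ≤ M')
    (mM : M ≤ M') (mC : C ≤ M') (w : Wt l ζ) (hΞ : 0 < Ξ) (hτ' : C * (M * s₀) ^ (2 * b) * τ ≤ e)
    (te : ∫ x in bnd G (1 / (M' * s)) (M' / s), h x * (V x + X x) * ζ x ^ 2 ≤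
      τ * s ^ (2 * b) * Ξ) :
    C * (∫ x in bnd G (1 / (3 * s)) (1 / s₁), h x * X x * wt b s₀ (G x) * ζ x ^ 2) ≤
      C * (∫ x in bnd G (M / s) (1 / s₁), h x * X x * wt b s₀ (G x) * ζ x ^ 2) + e * Ξ ∧
    C * (s₀ / s) ^ (2 * b) * (∫ x in bnd G (1 / (3 * s)) (C / s), h x * V x * ζ x ^ 2) ≤
      e * Ξ := by
  obtain ⟨K, hK⟩ := D.bd
  have cG := D.lG.continuous
  have hV0 : ∀ x, 0 ≤ h x * V x := fun x => mul_nonneg (D.h0 x) (D.V0 x)
  have hX0 : ∀ x, 0 ≤ h x * X x := fun x => mul_nonneg (D.h0 x) (D.X0 x)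
  have hY0 : ∀ x, 0 ≤ Y x := fun x => (hV0 x).trans (D.VY x)
  have w0 : ∀ x, 0 ≤ wt b s₀ (G x) := fun x => wt_nn h0.le (D.G0 x)
  have w1 : ∀ x, wt b s₀ (G x) ≤ 1 := fun x => min_le_left _ _
  have cw : Continuous fun x => wt b s₀ (G x) := (wt_c hb).comp cG
  have iX : Integrable fun x => h x * X x * wt b s₀ (G x) * ζ x ^ 2 :=
    iI w ((D.ch.measurable.mul D.mX).mul cw.measurable).aestronglyMeasurable
      (fun x => mul_nonneg (hX0 x) (w0 x)) fun x =>
      (mul_le_of_le_one_right (hX0 x) (w1 x)).trans (hK x).2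
  have hT0 : ∀ x, 0 ≤ h x * (V x + X x) := fun x => by linarith [hV0 x, hX0 x]
  have iT : Integrable fun x => h x * (V x + X x) * ζ x ^ 2 :=
    iI (K := K + K) w (D.ch.measurable.mul (D.cV.measurable.add D.mX)).aestronglyMeasurable hT0
      fun x => by linarith [D.VY x, (hK x).1, (hK x).2]
  set T := ∫ x in bnd G (1 / (M' * s)) (M' / s), h x * (V x + X x) * ζ x ^ 2 with hT
  have sub : ∀ a, a ≤ M' → bnd G (1 / (3 * s)) (a / s) ⊆ bnd G (1 / (M' * s)) (M' / s) :=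
    fun a ha x hx => ⟨le_trans (by gcongr) hx.1, hx.2.trans (by gcongr)⟩
  have bT : ∀ a, a ≤ M' → ∫ x in bnd G (1 / (3 * s)) (a / s), h x * (V x + X x) * ζ x ^ 2 ≤ T :=
    fun a ha => setIntegral_mono_set iT.integrableOn (Eventually.of_forall fun x =>
      mul_nonneg (hT0 x) (sq_nonneg _)) (sub a ha).eventuallyLE
  have T0 : 0 ≤ T := integral_nonneg fun x => mul_nonneg (hT0 x) (sq_nonneg _)
  have q3 : ∫ x in bnd G (1 / (3 * s)) (C / s), h x * V x * ζ x ^ 2 ≤ T :=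
    le_trans (integral_mono_of_nonneg (Eventually.of_forall fun x =>
      mul_nonneg (hV0 x) (sq_nonneg _)) iT.integrableOn (Eventually.of_forall fun x =>
        mul_le_mul_of_nonneg_right (by linarith [hX0 x]) (sq_nonneg _))) (bT C mC)
  set r := (M * s₀ / s) ^ (2 * b) with hr
  have r0 : 0 ≤ r := by positivity
  have q1 : ∫ x in bnd G (1 / (3 * s)) (M / s), h x * X x * wt b s₀ (G x) * ζ x ^ 2 ≤ r * T := by
    refine le_trans ?_ (mul_le_mul_of_nonneg_left (bT M mM) r0)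
    rw [← integral_const_mul]
    refine setIntegral_mono_on iX.integrableOn (iT.const_mul r).integrableOn (mb cG _ _)
      fun x hx => ?_
    have a1 : wt b s₀ (G x) ≤ r := by
      refine (min_le_right _ _).trans (Real.rpow_le_rpow (mul_nonneg h0.le (D.G0 x)) ?_
        (by linarith))
      exact (mul_le_mul_of_nonneg_left hx.2 h0.le).trans_eq (by ring)
    have a2 : h x * X x * wt b s₀ (G x) ≤ h x * (V x + X x) * r :=
      mul_le_mul (by linarith [hV0 x]) a1 (w0 x) (hT0 x)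
    exact (mul_le_mul_of_nonneg_right a2 (sq_nonneg _)).trans_eq (by ring)
  have q0 := split (S := bnd G (1 / (3 * s)) (1 / s₁)) (S₁ := bnd G (M / s) (1 / s₁))
    (fun x => mul_nonneg (mul_nonneg (hX0 x) (w0 x)) (sq_nonneg (ζ x))) iX
    (mb cG (1 / (3 * s)) (M / s)) fun x hx => (le_total (M / s) (G x)).imp
      (fun a => ⟨a, hx.2⟩) fun a => ⟨hx.1, a⟩
  have rT : C * (r * T) ≤ e * Ξ := by
    have a1 : r * (τ * s ^ (2 * b) * Ξ) = (M * s₀) ^ (2 * b) * τ * Ξ := by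
      have := (Real.rpow_pos_of_pos hs (2 * b)).ne'
      rw [hr, Real.div_rpow (by positivity) hs.le]
      field_simp
    have a2 := mul_le_mul_of_nonneg_left ((mul_le_mul_of_nonneg_left te r0).trans_eq a1) hC0
    have a3 := mul_le_mul_of_nonneg_right hτ' hΞ.le
    linarith
  refine ⟨?_, ?_⟩
  · have z1 := mul_le_mul_of_nonneg_left (q0.trans (add_le_add le_rfl q1)) hC0
    linarith
  · have a1 : (s₀ / s) ^ (2 * b) ≤ r := Real.rpow_le_rpow (by positivity)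
      (div_le_div_of_nonneg_right (le_mul_of_one_le_left h0.le hM) hs.le) (by linarith)
    have a2 := mul_le_mul_of_nonneg_left q3 (show 0 ≤ C * (s₀ / s) ^ (2 * b) by positivity)
    have a3 := mul_le_mul_of_nonneg_right (mul_le_mul_of_nonneg_left a1 hC0) T0
    linarith

/-- the gain -/
theorem gain {B : Set (E n)} {h V X Y G ζ : E n → ℝ} {b c₀ s₀ s l : ℝ} (D : Dt h V X Y G)
    (hb : 0 < b) (hc₀ : 0 < c₀) (h0 : 0 < s₀) (h0s : s₀ ≤ s) (hc0 : 1 / c₀ ≤ s₀) (w : Wt l ζ)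
    (ga : ∀ x, infDist x B < 1 → c₀ ≤ Y x ∧ c₀ ≤ G x) :
    c₀ * Xi B ζ ≤ ∫ x in {x | 1 / s ≤ G x}, Y x * wt b s₀ (G x) * ζ x ^ 2 := by
  obtain ⟨K, hK⟩ := D.bd
  have hs : 0 < s := by linarith
  have hY0 : ∀ x, 0 ≤ Y x := fun x => (mul_nonneg (D.h0 x) (D.V0 x)).trans (D.VY x)
  have w0 : ∀ x, 0 ≤ wt b s₀ (G x) := fun x => wt_nn h0.le (D.G0 x)
  have w1 : ∀ x, wt b s₀ (G x) ≤ 1 := fun x => min_le_left _ _
  have cw : Continuous fun x => wt b s₀ (G x) := (wt_c hb).comp D.lG.continuous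
  have iY : Integrable fun x => Y x * wt b s₀ (G x) * ζ x ^ 2 :=
    iI w (D.cY.mul cw).aestronglyMeasurable (fun x => mul_nonneg (hY0 x) (w0 x)) fun x =>
      (mul_le_of_le_one_right (hY0 x) (w1 x)).trans (hK x).1
  have mo : MeasurableSet {x | infDist x B < 1} :=
    (isOpen_lt (continuous_infDist_pt B) continuous_const).measurableSet
  have c1 : 1 ≤ s₀ * c₀ := by rwa [div_le_iff₀ hc₀] at hc0
  have a1 : {x | infDist x B < 1} ⊆ {x | 1 / s ≤ G x} := fun x hx => by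
    refine le_trans ?_ (ga x hx).2
    rw [div_le_iff₀ hs]
    nlinarith
  refine le_trans ?_ (setIntegral_mono_set iY.integrableOn (Eventually.of_forall fun x =>
    mul_nonneg (mul_nonneg (hY0 x) (w0 x)) (sq_nonneg _)) a1.eventuallyLE)
  rw [Xi, ← integral_const_mul]
  refine setIntegral_mono_on (iI w aestronglyMeasurable_const (fun _ => hc₀.le)
    fun _ => le_rfl).integrableOn iY.integrableOn mo fun x hx => ?_
  have a2 : wt b s₀ (G x) = 1 := min_eq_left (Real.one_le_rpow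
    (c1.trans (mul_le_mul_of_nonneg_left (ga x hx).2 h0.le)) (by linarith))
  rw [a2, mul_one]
  exact mul_le_mul_of_nonneg_right (ga x hx).1 (sq_nonneg _)

end Fn

open Fn in
/-- **FIN** -/
theorem fin : rFIN := by
  intro wtx cnt stl prof dab n B h V X Y G b κ c C₀ s' hB D hb hκ hc hw hC₀ st1 st2 wo e4 te su ga
  obtain ⟨η, hη, hη1, C, hC, hP⟩ := prof b κ c hb hκ hc hw
  obtain ⟨Cn, hCn, pay⟩ := pay cnt n
  obtain ⟨c₀, hc₀, ga⟩ := ga
  have hC0 : 0 ≤ C := by linarith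
  have cG := D.lG.continuous
  set θ := η / C₀ with hθ
  have hθ0 : 0 < θ := div_pos hη hC₀
  set e := θ * c₀ / 12 with he
  have he0 : 0 < e := by positivity
  obtain ⟨ε, hε, hε'⟩ := small hC0 (lt_min he0 (half_pos hθ0))
  have hε1 := (hε' ε le_rfl).trans (min_le_left _ _)
  have hε2 := (hε' ε le_rfl).trans (min_le_right _ _)
  obtain ⟨s₄, e4⟩ := e4 ε hε
  set s₁ := max (max s' s₄) 1 with hs₁
  have h11 : 1 ≤ s₁ := le_max_right _ _
  have h1 : 0 < s₁ := by linarith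
  obtain ⟨A₁, -, su1⟩ := su s₁ h11
  obtain ⟨ρ, hρ, hρ'⟩ := small (show 0 ≤ C * s₁ ^ 2 * (Cn * |A₁|) by positivity) he0
  set s₀ := max (max (3 * s₁) (1 / c₀)) (s₁ / ρ ^ 2) with hs₀
  have h10 : 3 * s₁ ≤ s₀ := (le_max_left _ _).trans (le_max_left _ _)
  have h0 : 0 < s₀ := by linarith
  have hc0 : 1 / c₀ ≤ s₀ := (le_max_right _ _).trans (le_max_left _ _)
  have hρ1 : √(s₁ / s₀) ≤ ρ := by
    refine Real.sqrt_le_iff.2 ⟨hρ.le, ?_⟩
    have : s₁ / ρ ^ 2 ≤ s₀ := le_max_right _ _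
    rw [div_le_iff₀ (by positivity)] at this
    rw [div_le_iff₀ h0]
    linarith
  obtain ⟨M, hM, e4⟩ := e4 s₁ ((le_max_right _ _).trans (le_max_left _ _)) s₀ (by linarith)
  set M' := max (max 3 M) C with hM'
  have m3 : 3 ≤ M' := (le_max_left _ _).trans (le_max_left _ _)
  have mM : M ≤ M' := (le_max_right _ _).trans (le_max_left _ _)
  have mC : C ≤ M' := le_max_right _ _
  obtain ⟨τ, hτ, hτ'⟩ := small (show 0 ≤ C * (M * s₀) ^ (2 * b) by positivity) he0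
  obtain ⟨s₅, te⟩ := te M' (by linarith) τ hτ
  set s := max s₀ s₅ with hs'
  have h0s : s₀ ≤ s := le_max_left _ _
  have hs : 0 < s := by linarith
  obtain ⟨l₄, hl₄, e4⟩ := e4 (M / s) (by positivity)
  obtain ⟨l₅, hl₅, te⟩ := te s (le_max_right _ _)
  obtain ⟨A₂, su2, -⟩ := su (3 * s) (by linarith)
  obtain ⟨l₆, hl₆, hl₆'⟩ := small (show 0 ≤ 3 * C / η * 4 * (Cn * |A₂|) by positivity) he0
  set l := min (min l₄ l₅) (min l₆ 1) with hl'
  have hl : 0 < l := lt_min (lt_min hl₄ hl₅) (lt_min hl₆ one_pos)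
  have hl2 : l ^ 2 ≤ l₆ := by
    have a1 : l ≤ l₆ := (min_le_right _ _).trans (min_le_left _ _)
    have a2 : l ≤ 1 := (min_le_right _ _).trans (min_le_right _ _)
    nlinarith
  obtain ⟨ζ, w⟩ := wtx n l hl
  have e4 := e4 l ζ hl ((min_le_left _ _).trans (min_le_left _ _)) w
  have te := te l ζ hl ((min_le_left _ _).trans (min_le_right _ _)) w
  obtain ⟨F, k, P⟩ := hP s₁ s₀ s h1 h10 h0s
  have hΞ := Xi_pos hB w
  set Ξ := Xi B ζ with hΞd
  have mG : Measurable fun x => ‖gradient G x‖ := by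
    simp only [norm_grad]
    exact (measurable_fderiv ℝ G).norm
  obtain ⟨i2, p2⟩ := pay B _ l A₁ ζ (fun x => h x * ‖gradient G x‖ ^ 2) hB w (mb cG _ _)
    (fun x => mul_nonneg (D.h0 x) (sq_nonneg _))
    (D.ch.measurable.mul (mG.pow_const 2)).aestronglyMeasurable su1
  obtain ⟨-, p4⟩ := pay B {x | 1 / (3 * s) ≤ G x} l A₂ ζ h hB w
    (isClosed_le continuous_const cG).measurableSet D.h0 D.ch.aestronglyMeasurable
    (Eventually.of_forall su2)
  have g := glob dab D hb hη hη1 hC hC₀ h0 hs P (stl n h _ D.ch (D.ch.mul D.cV) D.h0 st1)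
    (stl n h _ D.ch (D.cY.div_const _) D.h0 st2)
    (wo s₁ ((le_max_left _ _).trans (le_max_left _ _))) hl w i2
  rw [show M / s / M = 1 / s by field_simp] at e4
  have r2 : C * √(s₁ / s₀) * s₁ ^ 2 * (∫ x in bnd G (1 / (3 * s₁)) (1 / s₁),
      h x * ‖gradient G x‖ ^ 2 * ζ x ^ 2) ≤ e * Ξ := by
    have a2 := mul_le_mul_of_nonneg_left p2 (show 0 ≤ C * √(s₁ / s₀) * s₁ ^ 2 by positivity)
    have a3 := mul_le_mul_of_nonneg_right (hρ' _ hρ1) hΞ.le
    linarith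
  have r4 : 3 * C / η * (4 * l ^ 2 * ∫ x in {x | 1 / (3 * s) ≤ G x}, h x * ζ x ^ 2) ≤ e * Ξ := by
    have a2 := mul_le_mul_of_nonneg_left p4 (show 0 ≤ 3 * C / η * 4 * l ^ 2 by positivity)
    have a3 := mul_le_mul_of_nonneg_right (hl₆' _ hl2) hΞ.le
    linarith
  obtain ⟨b1, b2⟩ := band (s₁ := s₁) D hb hC0 h0 hs hM m3 mM mC w hΞ (hτ' τ le_rfl) te
  have gn := gain D hb hc₀ h0 h0s hc0 w ga
  rw [← hΞd] at gn
  set I := ∫ x in {x | 1 / s ≤ G x}, Y x * wt b s₀ (G x) * ζ x ^ 2 with hI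
  have I0 : 0 ≤ I := (mul_pos hc₀ hΞ).le.trans gn
  have z1 := mul_le_mul_of_nonneg_left e4 hC0
  have z2 := mul_le_mul_of_nonneg_right hε2 I0
  have z3 := mul_le_mul_of_nonneg_right hε1 hΞ.le
  have z4 := mul_le_mul_of_nonneg_left gn hθ0.le
  have z5 : 0 < e * Ξ := mul_pos he0 hΞ
  have z6 : θ * (c₀ * Ξ) = 12 * (e * Ξ) := by rw [he]; ring
  linarith

end Vale.Agent.P134C
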