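import Vale.Agent.P134C.D1

/-!
# P134C: the profiles of the test function and of the multiplier
-/

open Set Filter Topology

noncomputable section

namespace Vale.Agent.P134C

namespace Prof

/-- the transition -/
abbrev T : ℝ → ℝ := Real.smoothTransition

theorem T_cd : ContDiff ℝ 2 T := Real.smoothTransition.contDiff (n := 2)

theorem T_hd (x : ℝ) : HasDerivAt T (deriv T x) x :=
  (T_cd.differentiable (by norm_num) x).hasDerivAt

theorem T'_cd : ContDiff ℝ 1 (deriv T) := by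
  have h : ContDiff ℝ (1 + 1) T := T_cd
  exact h.deriv'

theorem T'_nn (x : ℝ) : 0 ≤ deriv T x := Real.smoothTransition.monotone.deriv_nonneg

theorem T'_lo {x : ℝ} (hx : x ≤ 0) : deriv T x = 0 := by
  refine IsLocalMin.deriv_eq_zero (Eventually.of_forall fun y => ?_)
  show T x ≤ T y
  rw [show T x = 0 from Real.smoothTransition.zero_of_nonpos hx]
  exact Real.smoothTransition.nonneg y

theorem T'_hi {x : ℝ} (hx : 1 ≤ x) : deriv T x = 0 := by
  refine IsLocalMax.deriv_eq_zero (Eventually.of_forall fun y => ?_)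
  show T y ≤ T x
  rw [show T x = 1 from Real.smoothTransition.one_of_one_le hx]
  exact Real.smoothTransition.le_one y

theorem T'_bd : ∃ L : ℝ, 1 ≤ L ∧ ∀ x, deriv T x ≤ L := by
  obtain ⟨L, hL⟩ := (isCompact_Icc (a := (0 : ℝ)) (b := 1)).exists_bound_of_continuousOn
    T'_cd.continuous.continuousOn
  refine ⟨max L 1, le_max_right _ _, fun x => ?_⟩
  rcases le_total x 0 with h | h
  · rw [T'_lo h]; positivity
  rcases le_total 1 x with h' | h'
  · rw [T'_hi h']; positivity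
  exact ((le_abs_self _).trans (hL x ⟨h, h'⟩)).trans (le_max_left _ _)

/-- the primitive of the transition -/
def j (x : ℝ) : ℝ := ∫ y in (0 : ℝ)..x, T y

theorem j_hd (x : ℝ) : HasDerivAt j (T x) x :=
  (Real.smoothTransition.continuous.integral_hasStrictDerivAt 0 x).hasDerivAt

theorem j_cd : ContDiff ℝ 1 j := by
  refine contDiff_one_iff_deriv.2 ⟨fun x => (j_hd x).differentiableAt, ?_⟩
  rw [show deriv j = T from funext fun x => (j_hd x).deriv]
  exact Real.smoothTransition.continuous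

theorem j_mono : Monotone j :=
  monotone_of_deriv_nonneg (fun x => (j_hd x).differentiableAt) fun x => by
    rw [(j_hd x).deriv]; exact Real.smoothTransition.nonneg x

theorem j_lo {x : ℝ} (hx : x ≤ 0) : j x = 0 := by
  unfold j
  rw [intervalIntegral.integral_congr (g := fun _ => 0), intervalIntegral.integral_zero]
  intro y hy
  rw [uIcc_of_ge hx] at hy
  exact Real.smoothTransition.zero_of_nonpos hy.2

theorem j_nn (x : ℝ) : 0 ≤ j x := by
  rcases le_total x 0 with h | h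
  · rw [j_lo h]
  · rw [← j_lo le_rfl]; exact j_mono h

theorem j_le {x : ℝ} (hx : 0 ≤ x) : j x ≤ x := by
  have h : Monotone fun x => x - j x :=
    monotone_of_deriv_nonneg (fun x => ((hasDerivAt_id x).sub (j_hd x)).differentiableAt) fun x => by
      rw [show deriv (fun x => x - j x) x = 1 - T x from ((hasDerivAt_id x).sub (j_hd x)).deriv]
      linarith [Real.smoothTransition.le_one x]
  have := h hx
  simp only [j_lo le_rfl] at this
  linarith

theorem j_ge (x : ℝ) : x - 1 ≤ j x := by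
  rcases le_total x 1 with h | h
  · linarith [j_nn x]
  have h1 : MonotoneOn (fun x => j x - x) (Ici 1) := by
    refine monotoneOn_of_deriv_nonneg (convex_Ici 1)
      (fun x _ => ((j_hd x).sub (hasDerivAt_id x)).continuousAt.continuousWithinAt)
      (fun x _ => ((j_hd x).sub (hasDerivAt_id x)).differentiableAt.differentiableWithinAt)
      fun x hx => ?_
    rw [show deriv (fun x => j x - x) x = T x - 1 from ((j_hd x).sub (hasDerivAt_id x)).deriv]
    rw [interior_Ici] at hx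
    rw [show T x = 1 from Real.smoothTransition.one_of_one_le (le_of_lt hx)]
    norm_num
  have := h1 (mem_Ici.2 le_rfl) (mem_Ici.2 h) h
  simp only at this
  linarith [j_nn 1]

/-- from the logarithmic variable to the variable `t` -/
def ext (φ : ℝ → ℝ) (t : ℝ) : ℝ := if t ≤ 0 then 0 else φ (-Real.log t)

theorem ext_pos (φ : ℝ → ℝ) {t : ℝ} (ht : 0 < t) : ext φ t = φ (-Real.log t) :=
  if_neg (not_le.2 ht)

theorem ext_ev (φ : ℝ → ℝ) {t : ℝ} (ht : 0 < t) : ext φ =ᶠ[𝓝 t] fun t => φ (-Real.log t) := by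
  filter_upwards [Ioi_mem_nhds ht] with y hy using ext_pos φ hy

theorem ext_lo {φ : ℝ → ℝ} {x₀ : ℝ} (h : ∀ x, x₀ ≤ x → φ x = 0) {t : ℝ}
    (ht : t ≤ Real.exp (-x₀)) : ext φ t = 0 := by
  by_cases h0 : t ≤ 0
  · exact if_pos h0
  · rw [ext_pos φ (not_le.1 h0)]
    apply h
    have := Real.log_le_log (not_le.1 h0) ht
    rw [Real.log_exp] at this
    linarith

theorem ext_ev0 {φ : ℝ → ℝ} {x₀ : ℝ} (h : ∀ x, x₀ ≤ x → φ x = 0) {t : ℝ} (ht : t ≤ 0) :
    ext φ =ᶠ[𝓝 t] fun _ => 0 := by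
  filter_upwards [Iio_mem_nhds (lt_of_le_of_lt ht (Real.exp_pos (-x₀)))] with y hy
    using ext_lo h (le_of_lt hy)

theorem ext_cd {φ : ℝ → ℝ} {x₀ : ℝ} (hc : ContDiff ℝ 1 φ) (h : ∀ x, x₀ ≤ x → φ x = 0) :
    ContDiff ℝ 1 (ext φ) := by
  refine contDiff_iff_contDiffAt.2 fun t => ?_
  rcases le_or_gt t 0 with ht | ht
  · exact contDiffAt_const.congr_of_eventuallyEq (ext_ev0 h ht)
  · exact (hc.contDiffAt.comp t (Real.contDiffAt_log.2 ht.ne').neg).congr_of_eventuallyEq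
      (ext_ev φ ht)

theorem ext_deriv {φ : ℝ → ℝ} {φ' t : ℝ} (ht : 0 < t) (h : HasDerivAt φ φ' (-Real.log t)) :
    deriv (ext φ) t = -(φ' / t) := by
  rw [(ext_ev φ ht).deriv_eq]
  have h2 := h.comp t (Real.hasDerivAt_log ht.ne').neg
  rw [show deriv (fun t => φ (-Real.log t)) t = _ from h2.deriv]
  field_simp

section

variable (b γ c₁ l₁ l₀ l : ℝ)

def A (x : ℝ) : ℝ := Real.exp (-(b * j (x - l₀)))
def a (x : ℝ) : ℝ := Real.exp (-(j (l₀ - x) / 2))
def B (x : ℝ) : ℝ := 1 - T (x - l)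
def FF (x : ℝ) : ℝ := A b l₀ x * B l x
def R (x : ℝ) : ℝ := γ * FF b l₀ l x ^ 2 + c₁ * B l x
def Q (x : ℝ) : ℝ := T (x - l₁) * a l₀ x * R b γ c₁ l₀ l x

theorem A_hd (x : ℝ) : HasDerivAt (A b l₀) (-(b * T (x - l₀)) * A b l₀ x) x := by
  have h := (((j_hd (x - l₀)).comp_sub_const x l₀).const_mul b).neg.exp
  exact h.congr_deriv (by unfold A; simp only [Pi.neg_apply]; ring)

theorem a_hd (x : ℝ) : HasDerivAt (a l₀) (T (l₀ - x) / 2 * a l₀ x) x := by
  have h := (((j_hd (l₀ - x)).comp_const_sub l₀ x).div_const 2).neg.exp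
  exact h.congr_deriv (by unfold a; simp only [Pi.neg_apply]; ring)

theorem B_hd (x : ℝ) : HasDerivAt (B l) (-deriv T (x - l)) x :=
  ((T_hd (x - l)).comp_sub_const x l).const_sub 1

theorem FF_hd (x : ℝ) : HasDerivAt (FF b l₀ l)
    (-(b * T (x - l₀) * FF b l₀ l x + A b l₀ x * deriv T (x - l))) x :=
  ((A_hd b l₀ x).mul (B_hd l x)).congr_deriv (by unfold FF; ring)

/-- the derivative of `R` with the opposite sign -/
def R' (x : ℝ) : ℝ := 2 * γ * FF b l₀ l x * (b * T (x - l₀) * FF b l₀ l x +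
  A b l₀ x * deriv T (x - l)) + c₁ * deriv T (x - l)

theorem R_hd (x : ℝ) : HasDerivAt (R b γ c₁ l₀ l) (-R' b γ c₁ l₀ l x) x :=
  ((((FF_hd b l₀ l x).pow 2).const_mul γ).add ((B_hd l x).const_mul c₁)).congr_deriv
    (by unfold R'; simp only [Nat.cast_ofNat, Nat.add_one_sub_one, pow_one]; ring)

theorem Q_hd (x : ℝ) : HasDerivAt (Q b γ c₁ l₁ l₀ l)
    (deriv T (x - l₁) * a l₀ x * R b γ c₁ l₀ l x + T (l₀ - x) / 2 * Q b γ c₁ l₁ l₀ l x -
      T (x - l₁) * a l₀ x * R' b γ c₁ l₀ l x) x :=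
  ((((T_hd (x - l₁)).comp_sub_const x l₁).mul (a_hd l₀ x)).mul (R_hd b γ c₁ l₀ l x)).congr_deriv
    (by unfold Q; simp only [Pi.mul_apply]; ring)

theorem T1 : ContDiff ℝ 1 T := Real.smoothTransition.contDiff (n := 1)

theorem B_cd : ContDiff ℝ 1 (B l) := contDiff_const.sub (T1.comp (contDiff_id.sub contDiff_const))

theorem FF_cd : ContDiff ℝ 1 (FF b l₀ l) :=
  (contDiff_const.mul (j_cd.comp (contDiff_id.sub contDiff_const))).neg.exp.mul (B_cd l)

theorem Q_cd : ContDiff ℝ 1 (Q b γ c₁ l₁ l₀ l) :=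
  ((T1.comp (contDiff_id.sub contDiff_const)).mul
    ((j_cd.comp (contDiff_const.sub contDiff_id)).div_const 2).neg.exp).mul
    ((contDiff_const.mul ((FF_cd b l₀ l).pow 2)).add (contDiff_const.mul (B_cd l)))

theorem B_nn (x : ℝ) : 0 ≤ B l x := sub_nonneg.2 (Real.smoothTransition.le_one _)
theorem B_le (x : ℝ) : B l x ≤ 1 := sub_le_self _ (Real.smoothTransition.nonneg _)
theorem B_lo {x : ℝ} (h : x ≤ l) : B l x = 1 := by
  unfold B
  rw [show T (x - l) = 0 from Real.smoothTransition.zero_of_nonpos (by linarith), sub_zero]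
theorem B_hi {x : ℝ} (h : l + 1 ≤ x) : B l x = 0 := by
  unfold B
  rw [show T (x - l) = 1 from Real.smoothTransition.one_of_one_le (by linarith), sub_self]
theorem A_pos (x : ℝ) : 0 < A b l₀ x := Real.exp_pos _
theorem a_pos (x : ℝ) : 0 < a l₀ x := Real.exp_pos _
theorem a_le (x : ℝ) : a l₀ x ≤ 1 := Real.exp_le_one_iff.2 (by linarith [j_nn (l₀ - x)])

variable {b}

theorem A_le (hb : 0 < b) (x : ℝ) : A b l₀ x ≤ 1 :=
  Real.exp_le_one_iff.2 (by nlinarith [j_nn (x - l₀)])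

theorem A_anti (hb : 0 < b) {x y : ℝ} (h : x ≤ y) : A b l₀ y ≤ A b l₀ x :=
  Real.exp_le_exp.2 (by nlinarith [j_mono (show x - l₀ ≤ y - l₀ by linarith)])

theorem A_sq (x : ℝ) : A b l₀ x ^ 2 = Real.exp (-(2 * b * j (x - l₀))) := by
  unfold A
  rw [← Real.exp_nat_mul]
  congr 1
  push_cast
  ring

theorem A_up (hb : 0 < b) (x : ℝ) :
    A b l₀ x ^ 2 ≤ Real.exp (2 * b) * Real.exp (-(2 * b * (x - l₀))) := by
  rw [A_sq, ← Real.exp_add]
  exact Real.exp_le_exp.2 (by nlinarith [j_ge (x - l₀)])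

theorem FF_nn (x : ℝ) : 0 ≤ FF b l₀ l x := mul_nonneg (A_pos b l₀ x).le (B_nn l x)

theorem FF_le (x : ℝ) : FF b l₀ l x ≤ A b l₀ x :=
  mul_le_of_le_one_right (A_pos b l₀ x).le (B_le l x)

end

/-- the constants -/
structure Ks (b κ c η γ L c₂ μ m C : ℝ) : Prop where
  hb : 0 < b
  hκ : 1 ≤ κ
  hc : 7 / 4 ≤ c
  hη : 0 < η
  hη4 : η ≤ 1 / 4
  hγ0 : 0 < γ
  hγκ : κ * γ = 1 - 2 * η
  hγw : (1 + η) ^ 2 * b ^ 2 ≤ γ * (c - 1 - η + 2 * b)
  hL1 : 1 ≤ L
  hL : ∀ x, deriv T x ≤ L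
  hc₂ : c₂ = (1 + η) * (1 + 1 / η) * L
  hμ : μ = min (2 * b) (1 / 2)
  hm0 : 2 ≤ m
  hm : κ * c₂ * Real.exp (-(μ * (m - 2))) ≤ η
  hC : C = κ * L * (1 + c₂) * Real.exp (4 * b + 1)

theorem ex_ks {b κ c : ℝ} (hb : 0 < b) (hκ : 1 ≤ κ) (hc : 7 / 4 ≤ c)
    (hw : κ * b ^ 2 < 2 * b + c - 1) : ∃ η γ L c₂ μ m C, Ks b κ c η γ L c₂ μ m C := by
  obtain ⟨L, hL1, hL⟩ := T'_bd
  have hκ0 : 0 < κ := by linarith
  obtain ⟨η, hη, hη4, hηw⟩ : ∃ η : ℝ, 0 < η ∧ η ≤ 1 / 4 ∧
      κ * ((1 + η) ^ 2 * b ^ 2) < (1 - 2 * η) * (c - 1 - η + 2 * b) := by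
    have h1 : ∀ᶠ η in 𝓝 (0 : ℝ), κ * ((1 + η) ^ 2 * b ^ 2) < (1 - 2 * η) * (c - 1 - η + 2 * b) :=
      ContinuousAt.eventually_lt (f := fun η : ℝ => κ * ((1 + η) ^ 2 * b ^ 2))
        (g := fun η : ℝ => (1 - 2 * η) * (c - 1 - η + 2 * b)) (by fun_prop) (by fun_prop)
        (by linarith)
    have h2 : ∀ᶠ η in 𝓝 (0 : ℝ), η ≤ 1 / 4 := Iic_mem_nhds (by norm_num)
    obtain ⟨η, ⟨a1, a2⟩, a3⟩ := (((h1.and h2).filter_mono nhdsWithin_le_nhds).and
      (self_mem_nhdsWithin (s := Ioi (0 : ℝ)))).exists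
    exact ⟨η, a3, a2, a1⟩
  set c₂ := (1 + η) * (1 + 1 / η) * L with hc₂
  have hc₂0 : 0 < c₂ := by positivity
  set μ := min (2 * b) (1 / 2) with hμ
  have hμ0 : 0 < μ := lt_min (by linarith) (by norm_num)
  refine ⟨η, (1 - 2 * η) / κ, L, c₂, μ, 2 + κ * c₂ / η / μ, _, hb, hκ, hc, hη, hη4,
    div_pos (by linarith) hκ0, by field_simp, ?_, hL1, hL, rfl, rfl,
    le_add_of_nonneg_right (by positivity), ?_, rfl⟩
  · rw [div_mul_eq_mul_div, le_div_iff₀ hκ0]; linarith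
  · have e3 : μ * (2 + κ * c₂ / η / μ - 2) = κ * c₂ / η := by field_simp; ring
    rw [e3, Real.exp_neg, ← div_eq_mul_inv, div_le_iff₀ (Real.exp_pos _), ← div_le_iff₀' hη]
    linarith [Real.add_one_le_exp (κ * c₂ / η)]

namespace Ks

variable {b κ c η γ L c₂ μ m C : ℝ} (k : Ks b κ c η γ L c₂ μ m C)
include k

theorem c20 : 0 < c₂ := by
  have := k.hη
  have := k.hL1
  rw [k.hc₂]; positivity

theorem γ1 : γ ≤ 1 := by nlinarith [k.hγκ, k.hκ, k.hη, k.hγ0]

theorem C0 : (1 + c₂) * Real.exp (4 * b + 1) ≤ C := by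
  have := k.c20
  rw [k.hC, mul_assoc (κ * L)]
  exact le_mul_of_one_le_left (by positivity) (by nlinarith [k.hκ, k.hL1])

theorem C1 : 1 + c₂ ≤ C :=
  le_trans (le_mul_of_one_le_right (by linarith [k.c20])
    (Real.one_le_exp (by linarith [k.hb]))) k.C0

variable (l₁ l₀ l x : ℝ)

theorem c1 : 0 ≤ c₂ * A b l₀ l ^ 2 ∧ c₂ * A b l₀ l ^ 2 ≤ c₂ :=
  ⟨mul_nonneg k.c20.le (sq_nonneg _),
    mul_le_of_le_one_right k.c20.le (pow_le_one₀ (A_pos b l₀ l).le (A_le l₀ k.hb l))⟩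

theorem R0 : 0 ≤ R b γ (c₂ * A b l₀ l ^ 2) l₀ l x :=
  add_nonneg (mul_nonneg k.hγ0.le (sq_nonneg _)) (mul_nonneg (k.c1 l₀ l).1 (B_nn l x))

theorem cB : c₂ * A b l₀ l ^ 2 * B l x ≤ c₂ * A b l₀ l ^ 2 :=
  mul_le_of_le_one_right (k.c1 l₀ l).1 (B_le l x)

theorem γF : γ * FF b l₀ l x ^ 2 ≤ A b l₀ x ^ 2 :=
  (mul_le_of_le_one_left (sq_nonneg _) k.γ1).trans
    (pow_le_pow_left₀ (FF_nn l₀ l x) (FF_le l₀ l x) 2)

theorem R1 : R b γ (c₂ * A b l₀ l ^ 2) l₀ l x ≤ 1 + c₂ := by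
  have := pow_le_one₀ (n := 2) (A_pos b l₀ x).le (A_le l₀ k.hb x)
  unfold R
  linarith [k.γF l₀ l x, k.cB l₀ l x, (k.c1 l₀ l).2]

theorem Q0 : 0 ≤ Q b γ (c₂ * A b l₀ l ^ 2) l₁ l₀ l x :=
  mul_nonneg (mul_nonneg (Real.smoothTransition.nonneg _) (a_pos l₀ x).le) (k.R0 l₀ l x)

theorem Qa : Q b γ (c₂ * A b l₀ l ^ 2) l₁ l₀ l x ≤ a l₀ x * R b γ (c₂ * A b l₀ l ^ 2) l₀ l x :=
  mul_le_mul_of_nonneg_right
    (mul_le_of_le_one_left (a_pos l₀ x).le (Real.smoothTransition.le_one _)) (k.R0 l₀ l x)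

theorem QR : Q b γ (c₂ * A b l₀ l ^ 2) l₁ l₀ l x ≤ R b γ (c₂ * A b l₀ l ^ 2) l₀ l x :=
  (k.Qa l₁ l₀ l x).trans (mul_le_of_le_one_left (k.R0 l₀ l x) (a_le l₀ x))

theorem Qw : Q b γ (c₂ * A b l₀ l ^ 2) l₁ l₀ l x ≤ C * Real.exp (-(2 * b * (x - l₀))) := by
  have hb := k.hb
  have hc₂0 := k.c20
  set e := Real.exp (-(2 * b * (x - l₀))) with he
  have he0 : 0 < e := Real.exp_pos _
  have h1 : A b l₀ x ^ 2 ≤ Real.exp (4 * b + 1) * e :=
    (A_up l₀ hb x).trans (mul_le_mul_of_nonneg_right (Real.exp_le_exp.2 (by linarith)) he0.le)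
  have h2 : c₂ * A b l₀ l ^ 2 * B l x ≤ c₂ * (Real.exp (4 * b + 1) * e) := by
    rcases le_total (l + 1) x with h | h
    · rw [B_hi l h, mul_zero]; positivity
    · refine (k.cB l₀ l x).trans (mul_le_mul_of_nonneg_left ((A_up l₀ hb l).trans ?_) hc₂0.le)
      rw [he, ← Real.exp_add, ← Real.exp_add]
      exact Real.exp_le_exp.2 (by nlinarith)
  have h3 := mul_le_mul_of_nonneg_right k.C0 he0.le
  have h4 := k.QR l₁ l₀ l x
  unfold R at h4
  linarith [k.γF l₀ l x]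

theorem alg {θ F W D e z : ℝ} (hθ0 : 0 ≤ θ) (hθ1 : θ ≤ 1) (hF : 0 ≤ F) (hW : 0 ≤ W) (hz : 0 ≤ z)
    (y2 : (1 + η) * ((1 + 1 / η) * W ^ 2) ≤ e * D) :
    (1 + η) * (b * θ * F + W) ^ 2 + η * (γ * F ^ 2 + z) ≤
      (c - 1) * (γ * F ^ 2 + z) + (2 * γ * F * (b * θ * F + W) + e * D) := by
  have hη := k.hη
  have hγ0 := k.hγ0
  have hcη : 0 ≤ c - 1 - η := by linarith [k.hc, k.hη4]
  have y1 : (b * θ * F + W) ^ 2 ≤ (1 + η) * (b * θ * F) ^ 2 + (1 + 1 / η) * W ^ 2 := by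
    have : (1 + η) * (b * θ * F) ^ 2 + (1 + 1 / η) * W ^ 2 - (b * θ * F + W) ^ 2 =
        (η * (b * θ * F) - W) ^ 2 / η := by field_simp; ring
    have h5 : 0 ≤ (η * (b * θ * F) - W) ^ 2 / η := by positivity
    linarith
  have y3 : (1 + η) ^ 2 * (b * θ) ^ 2 ≤ γ * (c - 1 - η + 2 * (b * θ)) := by
    have h5 : 0 ≤ (1 + η) ^ 2 * b ^ 2 * (θ * (1 - θ)) :=
      mul_nonneg (by positivity) (mul_nonneg hθ0 (by linarith))
    have h6 := mul_le_mul_of_nonneg_left k.hγw hθ0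
    have h7 : 0 ≤ γ * (c - 1 - η) * (1 - θ) := mul_nonneg (mul_nonneg hγ0.le hcη) (by linarith)
    linarith
  have y4 := mul_le_mul_of_nonneg_right y3 (sq_nonneg F)
  have y5 := mul_le_mul_of_nonneg_left y1 (show 0 ≤ 1 + η by linarith)
  have y6 : 0 ≤ (c - 1 - η) * z := mul_nonneg hcη hz
  have y7 : 0 ≤ γ * F * W := by positivity
  linarith

theorem grad (h10 : l₁ + 1 ≤ l₀) (h0l : l₀ ≤ l) {F' Q' : ℝ} (hF' : HasDerivAt (FF b l₀ l) F' x)
    (hQ' : HasDerivAt (Q b γ (c₂ * A b l₀ l ^ 2) l₁ l₀ l) Q' x) :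
    (1 + η) * F' ^ 2 + η * Q b γ (c₂ * A b l₀ l ^ 2) l₁ l₀ l x ≤
      (c - 1) * Q b γ (c₂ * A b l₀ l ^ 2) l₁ l₀ l x - Q' +
        (Icc l₁ (l₁ + 1)).indicator (fun _ => C * Real.exp (-((l₀ - l₁) / 2))) x := by
  have hη := k.hη
  have hL1 := k.hL1
  have hc₂0 := k.c20
  have hC1 := k.C1
  have hA0 := A_pos b l₀ x
  rw [hF'.unique (FF_hd b l₀ l x), hQ'.unique (Q_hd b γ _ l₁ l₀ l x)]
  have hi0 : 0 ≤ (Icc l₁ (l₁ + 1)).indicator (fun _ => C * Real.exp (-((l₀ - l₁) / 2))) x :=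
    indicator_nonneg (fun _ _ => mul_nonneg (by linarith) (Real.exp_pos _).le) x
  rcases le_total l₀ x with h | h
  · have e1 : T (x - l₁) = 1 := Real.smoothTransition.one_of_one_le (by linarith)
    have e2 : deriv T (x - l₁) = 0 := T'_hi (by linarith)
    have e3 : a l₀ x = 1 := by unfold a; rw [j_lo (by linarith)]; simp
    have e4 : T (l₀ - x) = 0 := Real.smoothTransition.zero_of_nonpos (by linarith)
    have e5 : Q b γ (c₂ * A b l₀ l ^ 2) l₁ l₀ l x = R b γ (c₂ * A b l₀ l ^ 2) l₀ l x := by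
      unfold Q; rw [e1, e3]; ring
    rw [e1, e2, e3, e4, e5]
    unfold R R'
    have hD0 := T'_nn (x - l)
    have y2 : (1 + η) * ((1 + 1 / η) * (A b l₀ x * deriv T (x - l)) ^ 2) ≤
        c₂ * A b l₀ l ^ 2 * deriv T (x - l) := by
      rcases le_total x l with h6 | h6
      · rw [T'_lo (by linarith)]; simp
      · have h7 : A b l₀ x ^ 2 ≤ A b l₀ l ^ 2 := pow_le_pow_left₀ hA0.le (A_anti l₀ k.hb h6) 2
        have h8 : (A b l₀ x * deriv T (x - l)) ^ 2 ≤ A b l₀ l ^ 2 * (L * deriv T (x - l)) := by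
          rw [mul_pow]
          exact mul_le_mul h7 (by nlinarith [k.hL (x - l)]) (by positivity) (by positivity)
        calc _ ≤ (1 + η) * ((1 + 1 / η) * (A b l₀ l ^ 2 * (L * deriv T (x - l)))) := by gcongr
          _ = _ := by rw [k.hc₂]; ring
    have := k.alg (Real.smoothTransition.nonneg (x - l₀)) (Real.smoothTransition.le_one (x - l₀))
      (FF_nn l₀ l (b := b) x) (mul_nonneg hA0.le hD0) (mul_nonneg (k.c1 l₀ l).1 (B_nn l x)) y2
    rw [neg_sq]
    linarith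
  · have e1 : T (x - l₀) = 0 := Real.smoothTransition.zero_of_nonpos (by linarith)
    have e2 : deriv T (x - l) = 0 := T'_lo (by linarith)
    have e3 : R' b γ (c₂ * A b l₀ l ^ 2) l₀ l x = 0 := by unfold R'; rw [e1, e2]; ring
    rw [e1, e2, e3]
    have hQ0 := k.Q0 l₁ l₀ l x
    have y1 := mul_le_mul_of_nonneg_right
      (show T (l₀ - x) / 2 ≤ 1 / 2 by linarith [Real.smoothTransition.le_one (l₀ - x)]) hQ0
    have y2 := mul_nonneg (show 0 ≤ c - 1 - η - 1 / 2 by linarith [k.hc, k.hη4]) hQ0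
    have y3 : deriv T (x - l₁) * a l₀ x * R b γ (c₂ * A b l₀ l ^ 2) l₀ l x ≤
        (Icc l₁ (l₁ + 1)).indicator (fun _ => C * Real.exp (-((l₀ - l₁) / 2))) x := by
      by_cases hx : x ∈ Icc l₁ (l₁ + 1)
      · rw [indicator_of_mem hx]
        have h5 : a l₀ x ≤ Real.exp (4 * b + 1) * Real.exp (-((l₀ - l₁) / 2)) := by
          rw [← Real.exp_add]
          exact Real.exp_le_exp.2 (by linarith [j_ge (l₀ - x), hx.2, k.hb])
        have h6 : L ≤ κ * L := le_mul_of_one_le_left (by linarith) k.hκ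
        calc _ ≤ (κ * L) * (Real.exp (4 * b + 1) * Real.exp (-((l₀ - l₁) / 2))) * (1 + c₂) :=
              mul_le_mul (mul_le_mul ((k.hL _).trans h6) h5 (a_pos l₀ x).le (by linarith))
                (k.R1 l₀ l x) (k.R0 l₀ l x) (mul_nonneg (by linarith) (by positivity))
          _ = _ := by rw [k.hC]; ring
      · have : deriv T (x - l₁) = 0 := by
          rcases not_and_or.1 hx with h5 | h5
          · exact T'_lo (by linarith [not_le.1 h5])
          · exact T'_hi (by linarith [not_le.1 h5])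
        rw [this, zero_mul, zero_mul]
        exact hi0
    linarith

theorem pot : κ * Q b γ (c₂ * A b l₀ l ^ 2) l₁ l₀ l x ≤ (1 - η) * FF b l₀ l x ^ 2 +
    (Icc (l - m) (l + 1)).indicator (fun _ => C * Real.exp (-(2 * b * (l - l₀)))) x := by
  have hη := k.hη
  have hL1 := k.hL1
  have hc₂0 := k.c20
  have hκ0 : 0 < κ := by linarith [k.hκ]
  have y1 : κ * Q b γ (c₂ * A b l₀ l ^ 2) l₁ l₀ l x ≤
      (1 - 2 * η) * FF b l₀ l x ^ 2 + κ * (a l₀ x * (c₂ * A b l₀ l ^ 2 * B l x)) := by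
    have h5 : a l₀ x * (γ * FF b l₀ l x ^ 2) ≤ γ * FF b l₀ l x ^ 2 :=
      mul_le_of_le_one_left (mul_nonneg k.hγ0.le (sq_nonneg _)) (a_le l₀ x)
    have h6 := k.Qa l₁ l₀ l x
    unfold R at h6
    have h7 := mul_le_mul_of_nonneg_left (show Q b γ (c₂ * A b l₀ l ^ 2) l₁ l₀ l x ≤
      γ * FF b l₀ l x ^ 2 + a l₀ x * (c₂ * A b l₀ l ^ 2 * B l x) by linarith) hκ0.le
    rw [← k.hγκ]
    linarith
  have y0 : 0 ≤ η * FF b l₀ l x ^ 2 := by positivity
  by_cases hx : x ∈ Icc (l - m) (l + 1)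
  · rw [indicator_of_mem hx]
    have h5 : a l₀ x * (c₂ * A b l₀ l ^ 2 * B l x) ≤ c₂ * A b l₀ l ^ 2 :=
      (mul_le_of_le_one_left (mul_nonneg (k.c1 l₀ l).1 (B_nn l x)) (a_le l₀ x)).trans (k.cB l₀ l x)
    set e := Real.exp (-(2 * b * (l - l₀))) with he
    have he0 : 0 < e := Real.exp_pos _
    have h6 : c₂ * A b l₀ l ^ 2 ≤ (L * (1 + c₂)) * (Real.exp (4 * b + 1) * e) := by
      refine mul_le_mul (by nlinarith) ((A_up l₀ k.hb l).trans ?_) (by positivity) (by positivity)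
      exact mul_le_mul_of_nonneg_right (Real.exp_le_exp.2 (by linarith [k.hb])) he0.le
    have h7 := mul_le_mul_of_nonneg_left (h5.trans h6) hκ0.le
    have h8 : κ * ((L * (1 + c₂)) * (Real.exp (4 * b + 1) * e)) = C * e := by rw [k.hC]; ring
    linarith
  · rw [indicator_of_notMem hx, add_zero]
    rcases not_and_or.1 hx with h5 | h5
    · have h6 : x ≤ l - m := (not_le.1 h5).le
      have hm0 := k.hm0
      have hμ0 : 0 < μ := by rw [k.hμ]; exact lt_min (by linarith [k.hb]) (by norm_num)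
      have e1 : B l x = 1 := B_lo l (by linarith)
      have e2 : FF b l₀ l x = A b l₀ x := by unfold FF; rw [e1, mul_one]
      have u1 : 0 ≤ j (l - l₀) - j (x - l₀) := sub_nonneg.2 (j_mono (by linarith))
      have u2 := j_nn (l₀ - x)
      have u3 : m - 2 ≤ j (l - l₀) - j (x - l₀) + j (l₀ - x) := by
        have := j_ge (l - l₀)
        rcases le_total 0 (x - l₀) with h7 | h7
        · linarith [j_le h7]
        · linarith [j_lo h7, j_ge (l₀ - x)]
      have u4 : a l₀ x * A b l₀ l ^ 2 ≤ Real.exp (-(μ * (m - 2))) * A b l₀ x ^ 2 := by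
        rw [A_sq, A_sq, a, ← Real.exp_add, ← Real.exp_add]
        have h7 := mul_le_mul_of_nonneg_right (min_le_left (2 * b) (1 / 2)) u1
        have h8 := mul_le_mul_of_nonneg_right (min_le_right (2 * b) (1 / 2)) u2
        have h9 := mul_le_mul_of_nonneg_left u3 hμ0.le
        rw [← k.hμ] at h7 h8
        exact Real.exp_le_exp.2 (by linarith)
      have u6 := mul_le_mul_of_nonneg_left u4 (mul_pos hκ0 hc₂0).le
      have u7 := mul_le_mul_of_nonneg_right k.hm (sq_nonneg (A b l₀ x))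
      rw [e1, e2] at y1
      rw [e2]
      linarith
    · rw [B_hi l (not_le.1 h5).le] at y1
      simp only [mul_zero, add_zero] at y1
      linarith

end Ks

theorem one_le_log3 : 1 ≤ Real.log 3 := by
  rw [Real.le_log_iff_exp_le (by norm_num)]
  linarith [Real.exp_one_lt_d9]

theorem rp {b s t : ℝ} (hs : 0 < s) (ht : 0 < t) :
    (s * t) ^ (2 * b) = Real.exp (-(2 * b * (-Real.log t - Real.log s))) := by
  rw [Real.rpow_def_of_pos (mul_pos hs ht), Real.log_mul hs.ne' ht.ne']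
  congr 1
  ring

theorem le_iff {s t : ℝ} (hs : 0 < s) (ht : 0 < t) : 1 / s ≤ t ↔ -Real.log t ≤ Real.log s := by
  rw [← Real.log_le_log_iff (by positivity) ht, one_div, Real.log_inv]
  constructor <;> intro h <;> linarith

theorem ge_iff {s t : ℝ} (hs : 0 < s) (ht : 0 < t) : t ≤ 1 / s ↔ Real.log s ≤ -Real.log t := by
  rw [← Real.log_le_log_iff ht (by positivity), one_div, Real.log_inv]
  constructor <;> intro h <;> linarith

end Prof

open Prof in
/-- **PROF** -/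
theorem prof : PROF := by
  intro b κ c hb hκ hc hw
  obtain ⟨η, γ, L, c₂, μ, m, C, k⟩ := ex_ks hb hκ hc hw
  have hC1 : 1 ≤ C := by linarith [k.C1, k.c20]
  have hm1 : 1 ≤ Real.exp m := Real.one_le_exp (by linarith [k.hm0])
  have hCC : 9 * C ≤ 9 * C * Real.exp m := le_mul_of_one_le_right (by linarith) hm1
  have hCm : Real.exp m ≤ 9 * C * Real.exp m := le_mul_of_one_le_left (by linarith) (by linarith)
  refine ⟨η, k.hη, by linarith [k.hη4], 9 * C * Real.exp m, by linarith,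
    fun s₁ s₀ s h1 h10 h0s => ?_⟩
  have h0 : 0 < s₀ := by linarith
  have hs : 0 < s := by linarith
  set l₁ := Real.log s₁ with hl₁
  set l₀ := Real.log s₀ with hl₀
  set l := Real.log s with hl
  have l3 : ∀ r : ℝ, 0 < r → Real.log r + 1 ≤ Real.log (3 * r) := fun r hr => by
    rw [Real.log_mul (by norm_num) hr.ne']; linarith [one_le_log3]
  have g10 : l₁ + 1 ≤ l₀ := (l3 s₁ h1).trans (Real.log_le_log (by linarith) h10)
  have g0s : l₀ ≤ l := Real.log_le_log h0 h0s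
  set q := Q b γ (c₂ * A b l₀ l ^ 2) l₁ l₀ l with hq
  have zF : ∀ x, l + 1 ≤ x → FF b l₀ l x = 0 := fun x hx => by unfold FF; rw [B_hi l hx, mul_zero]
  have zq : ∀ x, l + 1 ≤ x → q x = 0 := fun x hx => by
    rw [hq]; unfold Q R; rw [zF x hx, B_hi l hx]; ring
  have zk : ∀ x, l + 1 ≤ x → q x * Real.exp x = 0 := fun x hx => by rw [zq x hx, zero_mul]
  have kp : ∀ t, 0 < t → ext (fun x => q x * Real.exp x) t = q (-Real.log t) / t := fun t ht => by
    rw [ext_pos _ ht, Real.exp_neg, Real.exp_log ht, div_eq_mul_inv]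
  have tk : ∀ t, 0 < t → t * ext (fun x => q x * Real.exp x) t = q (-Real.log t) := fun t ht => by
    rw [kp t ht]; field_simp
  have e0 : ∀ φ : ℝ → ℝ, ∀ t, t ≤ 0 → ext φ t = 0 := fun φ t ht => if_pos ht
  have wt0 : ∀ t, 0 ≤ t → 0 ≤ wt b s₀ t := fun t ht =>
    le_min zero_le_one (Real.rpow_nonneg (mul_nonneg h0.le ht) _)
  refine ⟨ext (FF b l₀ l), ext fun x => q x * Real.exp x, ext_cd (FF_cd b l₀ l) zF,
    ext_cd ((Q_cd b γ _ l₁ l₀ l).mul Real.contDiff_exp) zk, fun t => ?_, fun t ht => ?_,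
    fun t ht => ?_, fun t => ?_, fun t ht => ?_, fun t ht => ?_, fun t ht => ?_, fun t ht => ?_⟩
  · rcases le_or_gt t 0 with h | h
    · rw [e0 _ t h]
    · rw [kp t h]; exact div_nonneg (k.Q0 _ _ _ _) h.le
  · have h : 0 < t := lt_of_lt_of_le (by positivity) ht
    have := (le_iff h1 h).1 ht
    rw [kp t h, hq]
    unfold Q
    rw [show T (-Real.log t - l₁) = 0 from Real.smoothTransition.zero_of_nonpos (by linarith)]
    simp
  · rcases le_or_gt t 0 with h | h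
    · exact ⟨e0 _ t h, e0 _ t h⟩
    · have := (l3 s hs).trans ((ge_iff (by positivity) h).1 ht)
      rw [ext_pos _ h, ext_pos _ h]
      exact ⟨zF _ this, zk _ this⟩
  · rcases le_or_gt t 0 with h | h
    · rw [e0 _ t h]; norm_num
    · rw [ext_pos _ h]
      exact pow_le_one₀ (FF_nn _ _ _) ((FF_le _ _ _).trans (A_le _ hb _))
  · have h : 0 < t := lt_of_lt_of_le (by positivity) ht
    have h2 := (le_iff hs h).1 ht
    rw [ext_pos _ h]
    unfold FF
    rw [B_lo l h2, mul_one, A_sq]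
    rcases le_total (-Real.log t - l₀) 0 with h3 | h3
    · rw [j_lo h3]
      rw [mul_zero, neg_zero, Real.exp_zero]
      exact min_le_left _ _
    · refine (min_le_right _ _).trans ?_
      rw [rp h0 h]
      exact Real.exp_le_exp.2 (by nlinarith [j_le h3])
  · rcases ht.eq_or_lt with h | h
    · rw [← h, zero_mul]
      exact mul_nonneg (by linarith) (wt0 0 le_rfl)
    · rw [tk t h]
      refine le_trans ?_ (mul_le_mul_of_nonneg_right (show C ≤ _ by linarith) (wt0 t ht))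
      unfold wt
      rw [mul_min_of_nonneg _ _ (by linarith : 0 ≤ C), rp h0 h]
      exact le_min (by linarith [k.QR l₁ l₀ l (-Real.log t), k.R1 l₀ l (-Real.log t), k.C1])
        (k.Qw _ _ _ _)
  · have hi0 : 0 ≤ (Icc (1 / (3 * s₁)) (1 / s₁)).indicator
        (fun _ => 9 * C * Real.exp m * √(s₁ / s₀) * s₁ ^ 2) t :=
      indicator_nonneg (fun _ _ => by positivity) t
    rcases ht.eq_or_lt with h | h
    · rw [(ext_ev0 zF h.ge).deriv_eq, (ext_ev0 zk h.ge).deriv_eq, e0 _ t h.ge]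
      simpa using hi0
    · set x := -Real.log t with hx
      have d1 := FF_hd b l₀ l x
      have d2 := Q_hd b γ (c₂ * A b l₀ l ^ 2) l₁ l₀ l x
      have hg := k.grad l₁ l₀ l x g10 g0s d1 d2
      have d3 := d2.mul (Real.hasDerivAt_exp x)
      rw [← hq] at hg d2 d3
      have d4 := ext_deriv (φ := fun x => q x * Real.exp x) h d3
      have ex : Real.exp x = t⁻¹ := by rw [hx, Real.exp_neg, Real.exp_log h]
      rw [ext_deriv h d1, d4, kp t h, ex]
      generalize -(b * T (x - l₀) * FF b l₀ l x + A b l₀ x * deriv T (x - l)) = F' at hg ⊢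
      generalize deriv T (x - l₁) * a l₀ x * R b γ (c₂ * A b l₀ l ^ 2) l₀ l x +
        T (l₀ - x) / 2 * q x - T (x - l₁) * a l₀ x * R' b γ (c₂ * A b l₀ l ^ 2) l₀ l x = Q' at hg ⊢
      have hi : (Icc l₁ (l₁ + 1)).indicator (fun _ => C * Real.exp (-((l₀ - l₁) / 2))) x / t ^ 2 ≤
          (Icc (1 / (3 * s₁)) (1 / s₁)).indicator
            (fun _ => 9 * C * Real.exp m * √(s₁ / s₀) * s₁ ^ 2) t := by
        by_cases hm : x ∈ Icc l₁ (l₁ + 1)
        · have m1 : 1 / (3 * s₁) ≤ t := (le_iff (by positivity) h).2 (hm.2.trans (l3 s₁ h1))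
          rw [indicator_of_mem hm, indicator_of_mem (show t ∈ Icc _ _ from ⟨m1, (ge_iff h1 h).2 hm.1⟩)]
          have e1 : Real.exp (-((l₀ - l₁) / 2)) = √(s₁ / s₀) := by
            rw [Real.sqrt_eq_rpow, Real.rpow_def_of_pos (by positivity),
              Real.log_div h1.ne' h0.ne']
            congr 1
            ring
          rw [e1, div_le_iff₀ (by positivity)]
          have e2 : 1 ≤ (3 * s₁ * t) ^ 2 := by
            rw [div_le_iff₀ (by positivity)] at m1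
            exact one_le_pow₀ (by linarith)
          calc _ ≤ C * Real.exp m * √(s₁ / s₀) * (3 * s₁ * t) ^ 2 := by
                refine le_trans ?_ (le_mul_of_one_le_right (by positivity) e2)
                exact mul_le_mul_of_nonneg_right (le_mul_of_one_le_right (by linarith) hm1)
                  (Real.sqrt_nonneg _)
            _ = _ := by ring
        · rw [indicator_of_notMem hm, zero_div]
          exact hi0
      have h2 := div_le_div_of_nonneg_right hg (sq_nonneg t)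
      have e3 : (1 + η) * (-(F' / t)) ^ 2 + η * (q x / t / t) = ((1 + η) * F' ^ 2 + η * q x) / t ^ 2 := by
        field_simp
      have e4 : -((Q' * t⁻¹ + q x * t⁻¹) / t) + c * (q x / t) / t = ((c - 1) * q x - Q') / t ^ 2 := by
        field_simp; ring
      rw [e3, e4]
      exact h2.trans ((add_div _ _ _).trans_le (add_le_add le_rfl hi))
  · have hi0 : 0 ≤ (Icc (1 / (3 * s)) (9 * C * Real.exp m / s)).indicator
        (fun _ => 9 * C * Real.exp m * (s₀ / s) ^ (2 * b)) t :=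
      indicator_nonneg (fun _ _ => by positivity) t
    rcases ht.eq_or_lt with h | h
    · rw [e0 _ t h.ge, e0 _ t h.ge]
      simpa using hi0
    · rw [tk t h, ext_pos _ h]
      refine (k.pot l₁ l₀ l (-Real.log t)).trans (add_le_add le_rfl ?_)
      by_cases hm : -Real.log t ∈ Icc (l - m) (l + 1)
      · have m1 : 1 / (3 * s) ≤ t := (le_iff (by positivity) h).2 (hm.2.trans (l3 s hs))
        have m2 : t ≤ Real.exp m / s := by
          rw [← Real.log_le_log_iff h (by positivity), Real.log_div (by positivity) hs.ne',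
            Real.log_exp]
          linarith [hm.1]
        rw [indicator_of_mem hm, indicator_of_mem (show t ∈ Icc _ _ from
          ⟨m1, m2.trans (div_le_div_of_nonneg_right hCm hs.le)⟩)]
        have e1 : Real.exp (-(2 * b * (l - l₀))) = (s₀ / s) ^ (2 * b) := by
          rw [Real.rpow_def_of_pos (by positivity), Real.log_div h0.ne' hs.ne']
          congr 1
          ring
        rw [e1]
        exact mul_le_mul_of_nonneg_right (by linarith) (by positivity)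
      · rw [indicator_of_notMem hm]
        exact hi0

end Vale.Agent.P134C
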