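import Vale.Agent.P134C.D1

/-!
# P134C, row STL: from test functions of class `C¹` to Lipschitz test functions
-/

open MeasureTheory Metric Filter Topology Set
open scoped ContDiff RealInnerProductSpace Convolution NNReal
open Vale.Agent.P366.Stmt (E)

noncomputable section

namespace Vale.Agent.P134C

namespace Stl

variable {n : ℕ}

theorem lip_glob {ξ : E n → ℝ} (hξ : LocallyLipschitz ξ) (hc : HasCompactSupport ξ) :
    ∃ L : ℝ≥0, LipschitzWith L ξ ∧ ∀ x, ‖ξ x‖ ≤ L := by
  obtain ⟨R, hR⟩ := hc.isBounded.subset_closedBall (0 : E n)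
  obtain ⟨M, hM⟩ := hξ.continuous.bounded_above_of_compact_support hc
  have M0 : 0 ≤ M := (norm_nonneg _).trans (hM 0)
  obtain ⟨K, hK⟩ := (hξ.locallyLipschitzOn (s := closedBall 0 (R + 1))).exists_lipschitzOnWith_of_compact
    (isCompact_closedBall _ _)
  have h0 : ∀ x, R < ‖x‖ → ξ x = 0 := fun x hx =>
    image_eq_zero_of_notMem_tsupport fun h => not_le.2 hx (mem_closedBall_zero_iff.1 (hR h))
  have K0 := K.coe_nonneg
  refine ⟨⟨K + 2 * M, by positivity⟩, LipschitzWith.of_dist_le_mul fun x y => ?_,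
    fun x => (hM x).trans (by change M ≤ K + 2 * M; linarith)⟩
  change _ ≤ (K + 2 * M) * _
  have d0 := dist_nonneg (x := x) (y := y)
  by_cases h1 : 1 ≤ dist x y
  · have := norm_sub_le (ξ x) (ξ y)
    rw [dist_eq_norm (ξ x)]
    nlinarith [hM x, hM y]
  · by_cases h2 : ‖x‖ ≤ R + 1 ∧ ‖y‖ ≤ R + 1
    · have := hK.dist_le_mul x (mem_closedBall_zero_iff.2 h2.1) y (mem_closedBall_zero_iff.2 h2.2)
      nlinarith
    · have h3 := abs_le.1 (abs_norm_sub_norm_le x y)
      rw [← dist_eq_norm] at h3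
      have h4 : R < ‖x‖ ∧ R < ‖y‖ := by
        rcases not_and_or.1 h2 with h | h <;> constructor <;> linarith [not_le.1 h, not_le.1 h1]
      rw [h0 x h4.1, h0 y h4.2, dist_self]
      positivity

theorem conv_le {F : Type} [NormedAddCommGroup F] [NormedSpace ℝ F] (φ : ContDiffBump (0 : E n))
    {g : E n → F} {L : ℝ} (hg : ∀ x, ‖g x‖ ≤ L) (x : E n) :
    ‖(φ.normed volume ⋆[ContinuousLinearMap.lsmul ℝ ℝ, volume] g) x‖ ≤ L := by
  rw [convolution_def]
  refine (norm_integral_le_of_norm_le (g := fun t => φ.normed volume t * L)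
    (φ.integrable_normed.mul_const L) (Eventually.of_forall fun t => ?_)).trans ?_
  · rw [ContinuousLinearMap.lsmul_apply, norm_smul, Real.norm_of_nonneg (φ.nonneg_normed t)]
    exact mul_le_mul_of_nonneg_left (hg _) (φ.nonneg_normed t)
  · rw [integral_mul_const, φ.integral_normed, one_mul]

theorem conv_fderiv (φ : ContDiffBump (0 : E n)) {ξ : E n → ℝ} {L : ℝ≥0} (hL : LipschitzWith L ξ)
    (x : E n) : fderiv ℝ (φ.normed volume ⋆[ContinuousLinearMap.lsmul ℝ ℝ, volume] ξ) x =
      (φ.normed volume ⋆[ContinuousLinearMap.lsmul ℝ ℝ, volume] fderiv ℝ ξ) x := by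
  have hc := hL.continuous
  have cφ : Continuous (φ.normed volume) := φ.continuous_normed
  have h1 : ∀ᵐ a, DifferentiableAt ℝ ξ (x - a) :=
    (Measure.measurePreserving_sub_left volume x).quasiMeasurePreserving.ae hL.ae_differentiableAt
  have h2 := hasFDerivAt_integral_of_dominated_loc_of_lip' (𝕜 := ℝ) (μ := volume) (x₀ := x)
    (F := fun y a => φ.normed volume a • ξ (y - a)) (s := univ)
    (F' := fun a => φ.normed volume a • fderiv ℝ ξ (x - a))
    (bound := fun a => φ.normed volume a * L) univ_mem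
    (fun y _ => (cφ.smul (hc.comp (continuous_const.sub continuous_id))).aestronglyMeasurable)
    ((cφ.smul (hc.comp (continuous_const.sub continuous_id))).integrable_of_hasCompactSupport
      φ.hasCompactSupport_normed.smul_right)
    (cφ.aestronglyMeasurable.smul ((measurable_fderiv ℝ ξ).comp
      (measurable_const.sub measurable_id)).aestronglyMeasurable)
    (Eventually.of_forall fun a y _ => by
      rw [← smul_sub, norm_smul, Real.norm_of_nonneg (φ.nonneg_normed a), mul_assoc]
      refine mul_le_mul_of_nonneg_left ?_ (φ.nonneg_normed a)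
      simpa [dist_eq_norm] using hL.dist_le_mul (y - a) (x - a))
    (φ.integrable_normed.mul_const _)
    (h1.mono fun a ha => by
      have h3 : HasFDerivAt (fun y => ξ (y - a)) (fderiv ℝ ξ (x - a)) x := by
        simpa [Function.comp_def] using ha.hasFDerivAt.comp x ((hasFDerivAt_id x).sub_const a)
      exact h3.const_smul (φ.normed volume a))
  exact h2.2.fderiv

/-- mollification of a Lipschitz function with compact support -/
theorem moll {ξ : E n → ℝ} (hξ : LocallyLipschitz ξ) (hc : HasCompactSupport ξ) :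
    ∃ (R L : ℝ) (f : ℕ → E n → ℝ), (∀ j, ContDiff ℝ 1 (f j)) ∧
      (∀ j x, R ≤ ‖x‖ → f j x = 0 ∧ fderiv ℝ (f j) x = 0) ∧
      (∀ j x, ‖f j x‖ ≤ L ∧ ‖fderiv ℝ (f j) x‖ ≤ L) ∧
      (∀ x, Tendsto (fun j => f j x) atTop (𝓝 (ξ x))) ∧
      ∀ᵐ x, Tendsto (fun j => fderiv ℝ (f j) x) atTop (𝓝 (fderiv ℝ ξ x)) := by
  obtain ⟨L, hL, hb⟩ := lip_glob hξ hc
  obtain ⟨R, hR⟩ := hc.isBounded.subset_closedBall (0 : E n)
  have hd : ∀ x, ‖fderiv ℝ ξ x‖ ≤ L := fun x => norm_fderiv_le_of_lipschitz ℝ hL
  let φ : ℕ → ContDiffBump (0 : E n) := fun j =>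
    ⟨1 / ((j : ℝ) + 1) / 2, 1 / ((j : ℝ) + 1), by positivity, half_lt_self (by positivity)⟩
  have t1 : Tendsto (fun j => (φ j).rOut) atTop (𝓝 0) := tendsto_one_div_add_atTop_nhds_zero_nat
  have r1 : ∀ j, (φ j).rOut ≤ 1 := fun j =>
    (div_le_one (by positivity)).2 (le_add_of_nonneg_left (Nat.cast_nonneg j))
  have h0 : ∀ j x, R + 2 ≤ ‖x‖ → ∀ y ∈ ball x (φ j).rOut, y ∉ tsupport ξ := fun j x hx y hy h => by
    have h1 := mem_closedBall_zero_iff.1 (hR h)
    have h2 := (mem_ball_iff_norm.1 hy).trans_le (r1 j)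
    linarith [(abs_le.1 (abs_norm_sub_norm_le y x)).1]
  refine ⟨R + 2, L, fun j => (φ j).normed volume ⋆[ContinuousLinearMap.lsmul ℝ ℝ, volume] ξ,
    fun j => (φ j).hasCompactSupport_normed.contDiff_convolution_left _ (φ j).contDiff_normed
      hL.continuous.locallyIntegrable, fun j x hx => ?_, fun j x => ⟨conv_le _ hb x, ?_⟩,
    ContDiffBump.convolution_tendsto_right_of_continuous t1 hL.continuous, ?_⟩
  · have h1 := h0 j x hx x (mem_ball_self (φ j).rOut_pos)
    constructor
    · exact (ContDiffBump.normed_convolution_eq_right fun y hy => by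
        rw [image_eq_zero_of_notMem_tsupport (h0 j x hx y hy),
          image_eq_zero_of_notMem_tsupport h1]).trans (image_eq_zero_of_notMem_tsupport h1)
    · rw [conv_fderiv _ hL, ContDiffBump.normed_convolution_eq_right fun y hy => by
        rw [fderiv_of_notMem_tsupport ℝ (h0 j x hx y hy), fderiv_of_notMem_tsupport ℝ h1],
        fderiv_of_notMem_tsupport ℝ h1]
  · rw [conv_fderiv _ hL]
    exact conv_le _ hd x
  · simp only [conv_fderiv _ hL]
    refine ContDiffBump.ae_convolution_tendsto_right_of_locallyIntegrable (K := 2) t1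
      (Eventually.of_forall fun j => le_of_eq (by simp only [φ]; ring)) ?_
    exact (locallyIntegrable_const (L : ℝ)).mono (measurable_fderiv ℝ ξ).aestronglyMeasurable
      (Eventually.of_forall fun x => (hd x).trans (le_abs_self _))

theorem dom {w g₀ : E n → ℝ} {g : ℕ → E n → ℝ} {R L : ℝ} (hw : Continuous w)
    (hg : ∀ j, Continuous (g j)) (h0 : ∀ j x, R ≤ ‖x‖ → g j x = 0) (hb : ∀ j x, ‖g j x‖ ≤ L)
    (ht : ∀ᵐ x, Tendsto (fun j => g j x) atTop (𝓝 (g₀ x))) :
    Tendsto (fun j => ∫ x, w x * g j x ^ 2) atTop (𝓝 (∫ x, w x * g₀ x ^ 2)) := by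
  refine tendsto_integral_of_dominated_convergence
    ((closedBall (0 : E n) R).indicator fun x => ‖w x‖ * L ^ 2)
    (fun j => (hw.mul ((hg j).pow 2)).aestronglyMeasurable)
    ((integrable_indicator_iff measurableSet_closedBall).2
      ((hw.norm.mul continuous_const).continuousOn.integrableOn_compact (isCompact_closedBall _ _)))
    (fun j => Eventually.of_forall fun x => ?_) (ht.mono fun x hx => (hx.pow 2).const_mul _)
  by_cases hx : x ∈ closedBall (0 : E n) R
  · rw [indicator_of_mem hx, norm_mul, norm_pow]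
    exact mul_le_mul_of_nonneg_left (pow_le_pow_left₀ (norm_nonneg _) (hb j x) 2) (norm_nonneg _)
  · rw [indicator_of_notMem hx, h0 j x (not_le.1 fun h => hx (mem_closedBall_zero_iff.2 h)).le]
    simp

end Stl

open Stl in
theorem stl : STL := by
  intro n h U hh hU _ H ξ hξ hc
  obtain ⟨R, L, f, h1, h2, h3, h4, h5⟩ := moll hξ hc
  have ng : ∀ (g : E n → ℝ) x, ‖gradient g x‖ = ‖fderiv ℝ g x‖ := fun g x =>
    LinearIsometryEquiv.norm_map _ _
  have hs : ∀ j, HasCompactSupport (f j) := fun j =>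
    HasCompactSupport.intro (isCompact_closedBall (0 : E n) R) fun x hx =>
      (h2 j x (not_le.1 fun h => hx (mem_closedBall_zero_iff.2 h)).le).1
  have t1 := dom hU (fun j => (h1 j).continuous) (fun j x hx => (h2 j x hx).1)
    (fun j x => (h3 j x).1) (Eventually.of_forall h4)
  have t2 := dom (g := fun j x => ‖fderiv ℝ (f j) x‖) hh
    (fun j => ((h1 j).continuous_fderiv one_ne_zero).norm)
    (fun j x hx => by rw [(h2 j x hx).2, norm_zero]) (fun j x => by rw [norm_norm]; exact (h3 j x).2)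
    (h5.mono fun x hx => hx.norm)
  simp only [ng]
  refine le_of_tendsto_of_tendsto' t1 t2 fun j => ?_
  simpa only [ng] using H (f j) (h1 j) (hs j)

end Vale.Agent.P134C
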