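import Vale.Agent.P134C.WT
import Vale.Agent.P134C.Ker
import Vale.Agent.P134C.Pack
import Vale.Agent.P134C.Stl
import Vale.Agent.P134C.Dab
import Vale.Agent.P134C.Prof
import Vale.Agent.P134C.Fin

/-!
# P134C: the abstract assembly without hypotheses
-/

namespace Vale.Agent.P134C

/-- the final contradiction -/
theorem fin_all : FIN := fin wt_ex cnt stl prof dab

/-- the direct part of the band -/
theorem dir_all : DIR := dir cnr pack

end Vale.Agent.P134C
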