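import Vale.Agent.P134C.E3a
import Vale.Agent.P134R.Defs

/-!
# P134C, row E3: the remainder of the two-point inequality is small in the active branches
-/

open Real
open scoped RealInnerProductSpace
open Vale.Agent.P366.Stmt (E)
open Vale.Agent.P366W (trc inner_eq_sum)
open Vale.Agent.P134B Vale.Agent.P134T
open Vale.Agent.P134W (CA CB RA RB m1 TT MU)

noncomputable section

namespace Vale.Agent.P134C.E3b

variable {n : ℕ} {C R : ℝ} {u : E n → ℝ} {x : E n}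

/-- `R` is the remainder of a support at `x` -/
def Rm (u : E n → ℝ) (x : E n) (R : ℝ) : Prop :=
  (∃ z, CA u x z ∧ R = RA u x z) ∨ ∃ e, CB u x e ∧ R = RB u x e

theorem m1_eq (u : E n → ℝ) (x : E n) : m1 u x = mu u x := rfl

theorem mu_nn (u : E n → ℝ) (x : E n) : 0 ≤ mu u x := Real.iSup_nonneg' ⟨0, by simp [Zq]⟩

theorem th_bd (h : Ok C u) (x : E n) : 1 / 2 ≤ th u x ∧ th u x ≤ 1 := by
  have := h.q0 x
  have := qq_le u x
  unfold th
  constructor <;> linarith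

theorem ph_alg {θ ψ μ : ℝ} (hθ : 0 < θ) (hμ : 0 ≤ μ) :
    0 ≤ μ / max (θ + ψ * μ) μ ∧ μ / max (θ + ψ * μ) μ ≤ 1 ∧ (μ / max (θ + ψ * μ) μ < 1 →
      μ < θ + ψ * μ ∧ μ / max (θ + ψ * μ) μ * (θ + ψ * μ) = μ) := by
  refine ⟨div_nonneg hμ (hμ.trans (le_max_right _ _)),
    div_le_one_of_le₀ (le_max_right _ _) (hμ.trans (le_max_right _ _)), fun h => ?_⟩
  have k : μ < θ + ψ * μ := by
    by_contra k
    rcases hμ.eq_or_lt with e | e
    · rw [← e] at k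
      exact k (by simpa using hθ)
    · rw [max_eq_right (not_lt.1 k), div_self e.ne'] at h
      exact h.false
  exact ⟨k, by rw [max_eq_left k.le, div_mul_cancel₀ _ (hμ.trans_lt k).ne']⟩

theorem trc_sq (A : E n →L[ℝ] E n) : trc A ^ 2 ≤ n * hs A := by
  refine (sq_sum_le_card_mul_sum_sq (s := Finset.univ)).trans ?_
  rw [Finset.card_univ, Fintype.card_fin]
  refine mul_le_mul_of_nonneg_left (Finset.sum_le_sum fun i _ => ?_) (Nat.cast_nonneg n)
  rw [← sq_abs, ← Real.norm_eq_abs]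
  exact pow_le_pow_left₀ (norm_nonneg _) (PiLp.norm_apply_le _ i) 2

theorem hs_nn (A : E n →L[ℝ] E n) : 0 ≤ hs A := Finset.sum_nonneg fun _ _ => sq_nonneg _

theorem hs_le_Pt (h : Ok C u) (x : E n) : hs (SS u x) ≤ Pt u x := by
  have h1 := th_bd h x
  have h2 : 0 ≤ PP u x * qq u x :=
    mul_nonneg (mul_nonneg (mul_nonneg (sqrt_nonneg _) (h.tff_pos x).le) (h.q0 x)) (h.q0 x)
  rw [Pt, le_div_iff₀ (by linarith)]
  nlinarith [hs_nn (SS u x)]

theorem trace_le (hm : MU) (h : Ok C u) (x : E n) : √2 * u x * qq u x ≤ n * mu u x := by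
  have k : 0 ≤ ∑ i : Fin n, ⟪EuclideanSpace.single i (1 : ℝ), TT u x (EuclideanSpace.single i 1)⟫ :=
    Finset.sum_nonneg fun i _ => (hm n C u h).2.2.2.2.1 x _
  simp only [TT, EuclideanSpace.inner_single_left, conj_trivial, one_mul, PiLp.add_apply,
    PiLp.smul_apply, PiLp.single_apply, if_true, smul_eq_mul, mul_one,
    Finset.sum_add_distrib, Finset.sum_const, Finset.card_univ, Fintype.card_fin,
    nsmul_eq_mul, m1_eq] at k
  have := h.tr x
  unfold trc at this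
  linarith

theorem dt (h : Ok C u) (x y : E n) : E3a.Dt (u x) (u y - u x) ((ps u y - ps u x) / √2) := by
  have k := E3a.inc (ps u x / √2) ((ps u y - ps u x) / √2)
  rw [← add_div, add_sub_cancel, ← h.th, ← h.th] at k
  exact ⟨h.lt x, k.1, k.2⟩

theorem r1 (h : Ok C u) (hR : Rm u x R) (hq : qq u x ≤ √2 * mu u x) : 0 ≤ R := by
  have s2 : √2 * √2 = 2 := mul_self_sqrt (by norm_num)
  have s0 : 0 < √2 := by positivity
  rcases hR with ⟨z, -, rfl⟩ | ⟨e, -, rfl⟩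
  · have d := dt h x (x + z)
    refine mul_nonneg (by positivity) ?_
    obtain ⟨τ, hτ⟩ : ∃ τ, ps u (x + z) - ps u x = √2 * τ := ⟨_, (mul_div_cancel₀ _ s0.ne').symm⟩
    rw [hτ, mul_div_cancel_left₀ _ s0.ne'] at d
    have e : ff u x * (√2 * τ) = (1 - u x ^ 2) * τ := by unfold ff; field_simp
    rw [hτ, e, m1_eq]
    nlinarith [mul_le_mul_of_nonneg_left d.g1 (h.q0 x), mul_le_mul_of_nonneg_right hq d.sg]
  · refine mul_nonneg (mul_nonneg (h.tff_pos x).le (sq_nonneg _)) ?_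
    rw [m1_eq]
    nlinarith [(abs_lt.1 (h.lt x)).2, h.q0 x]

theorem r2 (h : Ok C u) (hR : Rm u x R) (hμ : 0 < mu u x) (hq : u x ≤ 0 ∨ qq u x ≤ n * mu u x) :
    -(2 * (2 + exp n * exp n) * (qq u x * ff u x)) ≤ R := by
  have s2 : √2 * √2 = 2 := mul_self_sqrt (by norm_num)
  have s0 : 0 < √2 := by positivity
  have qf := mul_nonneg (h.q0 x) (h.tff_pos x).le
  have e0 : 0 < exp n * exp n := by positivity
  rcases hR with ⟨z, hz, rfl⟩ | ⟨e, he, rfl⟩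
  · have d := dt h x (x + z)
    obtain ⟨τ, hτ⟩ : ∃ τ, ps u (x + z) - ps u x = √2 * τ := ⟨_, (mul_div_cancel₀ _ s0.ne').symm⟩
    rw [hτ, mul_div_cancel_left₀ _ s0.ne'] at d
    have e : ff u x * (√2 * τ) = (1 - u x ^ 2) * τ := by unfold ff; field_simp
    have e' : 1 - u x ^ 2 = √2 * ff u x := by unfold ff; field_simp
    have w := mul_nonneg d.w.le (sq_nonneg τ)
    have k : -((2 + exp n * exp n) * ((1 - u x ^ 2) * τ ^ 2)) ≤
        u (x + z) - u x - (1 - u x ^ 2) * τ := by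
      rcases le_total 0 τ with k | k
      · nlinarith [d.g2 k]
      rcases hq with hq | hq
      · nlinarith [d.g3 k hq]
      · have a := hz.qy
        rw [hτ, m1_eq] at a
        have b : -(n : ℝ) ≤ τ := by
          refine le_of_mul_le_mul_left ?_ hμ
          nlinarith [h.q0 (x + z), one_lt_sqrt_two, mul_nonneg hμ.le (neg_nonneg.2 k)]
        nlinarith [d.g4 k b]
    have z0 : 0 < ‖z‖ ^ 2 := pow_pos (norm_pos_iff.2 hz.ne) 2
    have l : 2 * τ ^ 2 ≤ ‖z‖ ^ 2 := by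
      have := h.tlip x (x + z)
      rw [add_sub_cancel_left, hτ] at this
      nlinarith [sq_le_sq' (abs_le.1 this).1 (abs_le.1 this).2]
    rw [RA, hτ, e, m1_eq, div_mul_eq_mul_div, le_div_iff₀ z0]
    have a1 := mul_le_mul_of_nonneg_left k (h.q0 x)
    have a2 : 0 ≤ 2 * mu u x * (√2 * τ) * (u (x + z) - u x) := by
      have := mul_nonneg (mul_nonneg hμ.le s0.le) d.sg
      nlinarith
    have a3 := mul_le_mul_of_nonneg_left l (mul_nonneg (by linarith : 0 ≤ 2 + exp n * exp n) qf)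
    have a4 : √2 * (qq u x * -((2 + exp n * exp n) * ((1 - u x ^ 2) * τ ^ 2))) =
        -((2 + exp n * exp n) * (qq u x * ff u x) * (2 * τ ^ 2)) := by
      rw [e']
      linear_combination (-(qq u x * (2 + exp n * exp n) * ff u x * τ ^ 2)) * s2
    nlinarith [mul_le_mul_of_nonneg_left (add_le_add a1 a2) s0.le]
  · have p1 : pe u e x ^ 2 ≤ 1 := by
      rw [sq_le_one_iff_abs_le_one]
      refine (abs_real_inner_le_norm _ _).trans ?_
      rw [he.one, mul_one]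
      exact h.tpp_le x
    have a1 : -(2 * qq u x) ≤ 4 * √2 * mu u x - 2 * u x * qq u x := by
      nlinarith [(abs_lt.1 (h.lt x)).2, h.q0 x, mul_pos s0 hμ]
    rw [RB, m1_eq]
    nlinarith [mul_le_mul_of_nonneg_left a1 (mul_nonneg (h.tff_pos x).le (sq_nonneg (pe u e x))),
      mul_le_mul_of_nonneg_left p1 qf, mul_nonneg e0.le qf]

theorem ps_neg' (u : E n → ℝ) (x : E n) : ps (-u) x = -ps u x := by
  simp only [ps, Pi.neg_apply, sub_neg_eq_add, ← sub_eq_add_neg]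
  ring

theorem th_neg (u : E n → ℝ) (x : E n) : th (-u) x = th u x := by
  have : ps (-u) = -ps u := funext (ps_neg' u)
  simp [th, qq, pp, this, gradient, fderiv_neg]

theorem deep_alg {ι K G P W B θ q f p μ N R a : ℝ} (a0 : 0 < a) (hι : 0 < ι) (hK : 0 < K) (g0 : 0 < G)
    (N0 : 0 < N) (W0 : 0 < W) (B1 : 1 ≤ B) (t1 : 0 ≤ θ) (t2 : θ ≤ 1) (q0 : 0 ≤ q) (f0 : 0 ≤ f)
    (p0 : 0 ≤ p) (ha : G ≤ a * p) (w2 : p * W = μ) (WB : 1 ≤ 2 * (W * B)) (hq : μ ≤ q)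
    (k : -(K * (q * f)) ≤ R) (P1 : q ^ 2 ≤ N * P) (hd : f * B ^ 3 * (8 * a * K * N) ≤ ι * G ^ 2) :
    -(ι * P * G) ≤ θ * R / W ^ 2 := by
  have P2 : G ≤ 2 * a * B * q := by
    have : p ≤ 2 * B * q := by
      nlinarith [mul_le_mul_of_nonneg_left WB p0, mul_le_mul_of_nonneg_left hq (by linarith : 0 ≤ B)]
    nlinarith
  have P3 : 4 * K * (q * f) * B ^ 2 ≤ ι * P * G := by
    refine le_of_mul_le_mul_right ?_ (show 0 < 2 * a * B * N by positivity)
    calc _ = q * (f * B ^ 3 * (8 * a * K * N)) := by ring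
      _ ≤ q * (ι * G ^ 2) := by gcongr
      _ = ι * G * (q * G) := by ring
      _ ≤ ι * G * (q * (2 * a * B * q)) := by gcongr
      _ = ι * G * (2 * a * B) * q ^ 2 := by ring
      _ ≤ ι * G * (2 * a * B) * (N * P) := by gcongr
      _ = _ := by ring
  rw [le_div_iff₀ (by positivity)]
  have a0 : 0 ≤ K * (q * f) := by positivity
  have a1 : 1 ≤ (2 * (W * B)) ^ 2 := one_le_pow₀ WB
  nlinarith [mul_le_mul_of_nonneg_right P3 (sq_nonneg W), mul_le_mul_of_nonneg_left a1 a0,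
    mul_le_mul_of_nonneg_left k t1, mul_le_mul_of_nonneg_right t2 a0]

theorem u_sq (h : Ok C u) (hf : ff u x ≤ 1 / 4) : 1 / 2 ≤ u x ^ 2 := by
  have : 1 - u x ^ 2 = √2 * ff u x := by unfold ff; field_simp
  have b2 : √2 ≤ 3 / 2 := sqrt_le_iff.2 ⟨by norm_num, by norm_num⟩
  nlinarith [h.tff_pos x]

theorem q_sq (h : Ok C u) (u2 : 1 / 2 ≤ u x ^ 2) : qq u x ^ 2 ≤ (n + 1) * Pt u x := by
  have s2 : √2 * √2 = 2 := mul_self_sqrt (by norm_num)
  have a := trc_sq (SS u x)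
  rw [h.tr] at a
  have b : (-(√2 * u x * qq u x)) ^ 2 = 2 * u x ^ 2 * qq u x ^ 2 := by
    linear_combination (u x ^ 2 * qq u x ^ 2) * s2
  nlinarith [mul_le_mul_of_nonneg_left (hs_le_Pt h x) (Nat.cast_nonneg (α := ℝ) n),
    (hs_nn _).trans (hs_le_Pt h x), mul_le_mul_of_nonneg_right u2 (sq_nonneg (qq u x))]

theorem deep (hm : MU) (h : Ok C u) {ι K g a : ℝ} (a0 : 0 < a) (hι : 0 < ι) (hK : 0 < K) (g0 : 0 < g)
    (g1 : g < 1) (p1 : ph u x ≤ g) (ha : g ≤ a * ph u x) (hR : Rm u x R)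
    (eK : K = 2 * (2 + exp n * exp n)) (hf : ff u x ≤ 1 / 4)
    (hd : ff u x * (1 + |ps u x|) ^ 3 * (8 * a * K * (n + 1)) ≤ ι * g ^ 2)
    (hq : √2 * mu u x ≤ qq u x) :
    -(ι * Pt u x * g) ≤ th u x * R / (th u x + ps u x * mu u x) ^ 2 := by
  obtain ⟨t1, t2⟩ := th_bd h x
  obtain ⟨w1, w2⟩ := (ph_alg (ψ := ps u x) (by linarith : 0 < th u x) (mu_nn u x)).2.2
    (p1.trans_lt g1)
  change ph u x * _ = _ at w2
  have W0 := (mu_nn u x).trans_lt w1
  have p0 : 0 < ph u x := pos_of_mul_pos_right (g0.trans_le ha) a0.le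
  have m0 : 0 < mu u x := w2 ▸ mul_pos p0 W0
  have u2 := u_sq h hf
  refine deep_alg a0 hι hK g0 (by positivity) W0 (le_add_of_nonneg_right (abs_nonneg _))
    (by linarith) t2 (h.q0 x) (h.tff_pos x).le p0.le ha w2 ?_ (by nlinarith [one_lt_sqrt_two]) ?_
    (q_sq h u2) hd
  · have := mul_le_mul_of_nonneg_left w1.le (abs_nonneg (ps u x))
    nlinarith [mul_le_mul_of_nonneg_right (neg_abs_le (ps u x)) m0.le]
  · rw [eK]
    refine r2 h hR m0 ((le_or_gt (u x) 0).imp_right fun k => ?_)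
    have : 1 ≤ √2 * u x := by
      refine (sq_le_sq₀ zero_le_one (by positivity)).1 ?_
      rw [mul_pow, sq_sqrt (by norm_num)]
      linarith
    nlinarith [trace_le hm h x, h.q0 x]

theorem mu_bd {θ ψ μ G : ℝ} (t1 : 1 / 2 ≤ θ) (t2 : θ ≤ 1) (hμ : 0 ≤ μ)
    (hG : μ / max (θ + ψ * μ) μ ≤ G) (g1 : G < 1) (hψ : |ψ| * G ≤ 1 / 2) :
    μ ≤ 2 * G ∧ μ / max (θ + ψ * μ) μ ≤ 3 * μ := by
  obtain ⟨p0, -, p2⟩ := ph_alg (ψ := ψ) (by linarith : 0 < θ) hμ
  obtain ⟨w1, w2⟩ := p2 (hG.trans_lt g1)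
  set p := μ / max (θ + ψ * μ) μ
  have a : |ψ * p| ≤ 1 / 2 := by
    rw [abs_mul, abs_of_nonneg p0]
    nlinarith [abs_nonneg ψ]
  have := abs_le.1 a
  constructor <;> nlinarith

theorem dep1 (h : Ok C u) {c g : ℝ} (g0 : 0 < g) (g3 : g ≤ c / 192000)
    (d : c * g ^ 2 ≤ ff u x * (1 + |ps u x|) ^ 3) : |ps u x| ≤ 3 * lg (4 * g) := by
  have a : c * g ^ 2 ≤ 3000 * exp (-|ps u x|) := by
    have b := E3a.pw _ (abs_nonneg (ps u x))
    have b2 : √2 ≤ 3 / 2 := sqrt_le_iff.2 ⟨by norm_num, by norm_num⟩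
    nlinarith [mul_le_mul_of_nonneg_right (h.fhi x) (by positivity : 0 ≤ (1 + |ps u x|) ^ 3),
      mul_le_mul b2 b (by positivity) (by norm_num)]
  have b : (4 * g) ^ 3 ≤ exp (-|ps u x|) := by nlinarith [sq_nonneg g]
  have := log_le_log (by positivity) b
  rw [log_exp, log_pow] at this
  unfold lg
  push_cast at this
  linarith

theorem dep2 {y g : ℝ} (g0 : 0 < g) (l1 : y ≤ 3 * lg (4 * g)) (sγ : √(4 * g) ≤ 1 / 3) :
    y * g ≤ 1 / 2 := by
  have γ0 : 0 < 4 * g := by positivity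
  have s0 : 0 < √(4 * g) := sqrt_pos.2 γ0
  have ss := mul_self_sqrt γ0.le
  have a : lg (4 * g) * √(4 * g) ≤ 2 := by
    have b := one_sub_inv_le_log_of_pos s0
    rw [log_sqrt γ0.le] at b
    have := mul_le_mul_of_nonneg_right b s0.le
    rw [sub_mul, inv_mul_cancel₀ s0.ne'] at this
    unfold lg
    linarith
  nlinarith [mul_le_mul_of_nonneg_right l1 g0.le, mul_le_mul_of_nonneg_right a s0.le]

theorem dep3 {A a g t q μ p : ℝ} (a0 : 0 < a) (g0 : 0 < g) (ht : 0 < t) (m0 : 0 ≤ μ)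
    (ht' : t * (12 * ((|A| + 1) * (a + 1))) = 1) (sγ : √(4 * g) ≤ t) (ha : g ≤ a * p)
    (m2 : p ≤ 3 * μ) (a1 : q ≤ A * (4 * g * √(4 * g))) : q ≤ √2 * μ := by
  have b1 : A * (4 * g * √(4 * g)) ≤ (|A| + 1) * (4 * g * t) :=
    mul_le_mul (by linarith [le_abs_self A]) (by gcongr) (by positivity) (by positivity)
  have b2 : g ≤ (a + 1) * (3 * μ) := by nlinarith
  have b3 : (|A| + 1) * (4 * g * t) ≤ (|A| + 1) * (4 * ((a + 1) * (3 * μ)) * t) := by gcongr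
  have b4 : (|A| + 1) * (4 * ((a + 1) * (3 * μ)) * t) = μ := by linear_combination μ * ht'
  nlinarith [one_lt_sqrt_two]

theorem main (hm : MU) (hq : QG) (n : ℕ) (C ι a : ℝ) (hι : 0 < ι) (a0 : 0 < a) :
    ∃ g₁ > (0 : ℝ), g₁ < 1 ∧ ∀ (u : E n → ℝ) (x : E n) (g R : ℝ), Ok C u → Stab u → 0 < g →
    g ≤ g₁ → ph u x ≤ g → ph (-u) x ≤ g → g ≤ a * ph u x → Rm u x R →
    -(ι * Pt u x * g) ≤ th u x * R / (th u x + ps u x * mu u x) ^ 2 := by
  obtain ⟨A, γ₀, h0, hA⟩ := hq n C 3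
  obtain ⟨K, eK⟩ : ∃ K : ℝ, K = 2 * (2 + exp n * exp n) := ⟨_, rfl⟩
  have hK : 0 < K := by rw [eK]; positivity
  obtain ⟨c, ec⟩ : ∃ c : ℝ, c = ι / (8 * a * K * (n + 1)) := ⟨_, rfl⟩
  have hc : 0 < c := by rw [ec]; positivity
  obtain ⟨t, et⟩ : ∃ t : ℝ, t = 1 / (12 * ((|A| + 1) * (a + 1))) := ⟨_, rfl⟩
  have ht : 0 < t := by rw [et]; positivity
  have ht' : t * (12 * ((|A| + 1) * (a + 1))) = 1 := by rw [et]; field_simp
  have t3 : t ≤ 1 / 3 := by nlinarith [abs_nonneg A, mul_nonneg (abs_nonneg A) a0.le]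
  refine ⟨min (min (t ^ 2 / 4) (γ₀ / 4)) (min (c / 192000) (1 / (4 * (c + 1)))), by positivity,
    ((min_le_left _ _).trans (min_le_left _ _)).trans_lt (by nlinarith),
    fun u x g R h hs g0 hg p1 p2 ha hR => ?_⟩
  simp only [le_min_iff] at hg
  obtain ⟨⟨g1, g2⟩, g3, g4⟩ := hg
  have g5 : g < 1 := by nlinarith
  obtain ⟨t1, t2⟩ := th_bd h x
  have P0 : 0 ≤ ι * Pt u x * g := by
    have := (hs_nn _).trans (hs_le_Pt h x)
    positivity
  rcases le_total (qq u x) (√2 * mu u x) with k | k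
  · exact (neg_nonpos.2 P0).trans (div_nonneg (mul_nonneg (by linarith) (r1 h hR k)) (sq_nonneg _))
  have B1 : 1 ≤ (1 + |ps u x|) ^ 3 := one_le_pow₀ (le_add_of_nonneg_right (abs_nonneg _))
  rcases le_total (ff u x * (1 + |ps u x|) ^ 3) (c * g ^ 2) with d | d
  · refine deep hm h a0 hι hK g0 g5 p1 ha hR eK ?_ ?_ k
    · rw [le_div_iff₀ (by positivity)] at g4
      nlinarith [h.tff_pos x, mul_pos hc g0]
    · rw [ec, div_mul_eq_mul_div, le_div_iff₀ (by positivity)] at d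
      exact d
  have γ0 : 0 < 4 * g := by positivity
  have sγ : √(4 * g) ≤ t := sqrt_le_iff.2 ⟨ht.le, by linarith⟩
  have l1 := dep1 h g0 g3 d
  have l2 := dep2 g0 l1 (sγ.trans t3)
  obtain ⟨m1, m2⟩ := mu_bd t1 t2 (mu_nn u x) p1 g5 l2
  obtain ⟨m3, -⟩ := mu_bd (ψ := ps (-u) x) (by rwa [th_neg]) (by rwa [th_neg]) (mu_nn (-u) x)
    p2 g5 (by rwa [ps_neg', abs_neg])
  have a1 := hA u x _ h hs γ0 (by linarith) (by unfold Gam; linarith) l1
  have b := dep3 a0 g0 ht (mu_nn u x) ht' sγ ha m2 a1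
  exact (neg_nonpos.2 P0).trans (div_nonneg (mul_nonneg (by linarith) (r1 h hR b)) (sq_nonneg _))

/-- **E3** -/
theorem e3 (hm : MU) (hq : QG) : P134R.E3 := fun n C A η hη => by
  have a0 : 0 < |A| + 1 := by positivity
  obtain ⟨g₁, h0, h1, H⟩ := main hm hq n C (η / (|A| + 1)) (|A| + 1) (by positivity) a0
  refine ⟨g₁, h0, fun u x g R h hs g0 hg p1 p2 ha hR => ?_⟩
  obtain ⟨p0, -, p3⟩ := ph_alg (ψ := ps u x) (by linarith [(th_bd h x).1] : 0 < th u x) (mu_nn u x)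
  obtain ⟨w1, w2⟩ := p3 (p1.trans_lt (hg.trans_lt h1))
  change 0 ≤ ph u x at p0
  change ph u x * _ = _ at w2
  have ha' : g ≤ (|A| + 1) * ph u x := ha.trans (by nlinarith [le_abs_self A])
  have W0 := (mu_nn u x).trans_lt w1
  have m0 : 0 < mu u x := w2 ▸ mul_pos (pos_of_mul_pos_right (g0.trans_le ha') a0.le) W0
  have P0 := (hs_nn _).trans (hs_le_Pt h x)
  calc _ = -(η / (|A| + 1) * Pt u x * ((|A| + 1) * ph u x)) := by field_simp
    _ ≤ -(η / (|A| + 1) * Pt u x * g) := by gcongr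
    _ ≤ _ := H u x g R h hs g0 hg p1 p2 ha' hR
    _ = _ := by
        rw [(eq_div_iff W0.ne').2 w2]
        field_simp

end Vale.Agent.P134C.E3b
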