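import Mathlib

/-!
# P134C: the one-dimensional inequalities for the remainder
-/

open Real

noncomputable section

namespace Vale.Agent.P134C.E3a

theorem sh_le (b : ℝ) (hb : 0 ≤ b) : sinh b ≤ b * cosh b := by
  have h : ∀ t, HasDerivAt (fun t => t * cosh t - sinh t) (t * sinh t) t := fun t =>
    (((hasDerivAt_id t).mul (hasDerivAt_cosh t)).sub (hasDerivAt_sinh t)).congr_deriv (by simp)
  have m : MonotoneOn (fun t => t * cosh t - sinh t) (Set.Ici 0) :=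
    monotoneOn_of_deriv_nonneg (convex_Ici 0) (fun t _ => (h t).continuousAt.continuousWithinAt)
      (fun t _ => (h t).differentiableAt.differentiableWithinAt) fun t ht => by
        rw [(h t).deriv]
        rw [interior_Ici] at ht
        exact mul_nonneg (le_of_lt ht) (sinh_nonneg_iff.2 (le_of_lt ht))
  have := m (Set.mem_Ici.2 le_rfl) (Set.mem_Ici.2 hb) hb
  simp at this
  linarith

theorem le_sh (b : ℝ) (hb : 0 ≤ b) : b * cosh b ≤ (1 + b) * sinh b := by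
  have h1 := cosh_sub_sinh b
  have h2 := self_le_sinh_iff.2 hb
  have h3 : exp (-b) ≤ 1 := exp_le_one_iff.2 (by linarith)
  nlinarith

/-- the increment of `tanh` -/
theorem inc (σ τ : ℝ) : 0 < cosh τ + tanh σ * sinh τ ∧
    (tanh (σ + τ) - tanh σ) * (cosh τ + tanh σ * sinh τ) = (1 - tanh σ ^ 2) * sinh τ := by
  have h1 := cosh_pos σ
  have h2 := cosh_pos (σ + τ)
  have e : cosh τ + tanh σ * sinh τ = cosh (σ + τ) / cosh σ := by
    rw [tanh_eq_sinh_div_cosh, cosh_add]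
    field_simp
  refine ⟨e ▸ by positivity, ?_⟩
  rw [e, tanh_eq_sinh_div_cosh, tanh_eq_sinh_div_cosh, sinh_add]
  have := cosh_sq σ
  field_simp
  rw [cosh_add]
  ring

variable {a D τ : ℝ}

/-- the data: `a = tanh σ`, `D = tanh (σ + τ) - tanh σ` -/
structure Dt (a D τ : ℝ) : Prop where
  lt : |a| < 1
  dn : 0 < cosh τ + a * sinh τ
  eq : D * (cosh τ + a * sinh τ) = (1 - a ^ 2) * sinh τ

theorem Dt.w (h : Dt a D τ) : 0 < 1 - a ^ 2 := by
  have := abs_lt.1 h.lt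
  nlinarith

theorem Dt.sg (h : Dt a D τ) : 0 ≤ τ * D := by
  refine nonneg_of_mul_nonneg_left ?_ h.dn
  rw [mul_assoc, h.eq]
  have : 0 ≤ τ * sinh τ := by
    rcases le_total 0 τ with k | k
    · exact mul_nonneg k (sinh_nonneg_iff.2 k)
    · exact mul_nonneg_of_nonpos_of_nonpos k (sinh_nonpos_iff.2 k)
  nlinarith [h.w]

theorem Dt.g1 (h : Dt a D τ) : (1 - a ^ 2) * τ ≤ D * (1 + 2 * τ) := by
  refine le_of_mul_le_mul_right ?_ h.dn
  rw [mul_right_comm D, h.eq, mul_assoc, mul_assoc]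
  refine mul_le_mul_of_nonneg_left ?_ h.w.le
  have a1 := (abs_lt.1 h.lt).2
  rcases le_total 0 τ with k | k
  · nlinarith [le_sh τ k, mul_nonneg k (sinh_nonneg_iff.2 k)]
  · have := sh_le (-τ) (by linarith)
    rw [sinh_neg, cosh_neg] at this
    nlinarith [mul_nonneg_of_nonpos_of_nonpos k (sinh_nonpos_iff.2 k)]

theorem Dt.g2 (h : Dt a D τ) (k : 0 ≤ τ) : -(2 * (1 - a ^ 2) * τ ^ 2) ≤ D - (1 - a ^ 2) * τ := by
  have h1 := h.g1
  have h2 : 0 < 1 + 2 * τ := by linarith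
  refine le_of_mul_le_mul_right ?_ h2
  nlinarith [mul_nonneg h.w.le (pow_nonneg k 3)]

theorem Dt.g3 (h : Dt a D τ) (k : τ ≤ 0) (ha : a ≤ 0) : 0 ≤ D - (1 - a ^ 2) * τ := by
  refine nonneg_of_mul_nonneg_left ?_ h.dn
  rw [sub_mul, h.eq, mul_assoc, ← mul_sub]
  refine mul_nonneg h.w.le ?_
  have := sh_le (-τ) (by linarith)
  rw [sinh_neg, cosh_neg] at this
  nlinarith [mul_nonneg_of_nonpos_of_nonpos k (sinh_nonpos_iff.2 k)]

theorem Dt.g4 (h : Dt a D τ) (k : τ ≤ 0) {N : ℝ} (hN : -N ≤ τ) :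
    -(exp N * exp N * (1 - a ^ 2) * τ ^ 2) ≤ D - (1 - a ^ 2) * τ := by
  have a1 := (abs_lt.1 h.lt).2
  have s0 : sinh τ ≤ 0 := sinh_nonpos_iff.2 k
  have h1 := sh_le (-τ) (by linarith)
  rw [sinh_neg, cosh_neg] at h1
  have e1 : exp (-τ) ≤ exp N := exp_le_exp.2 (by linarith)
  have e2 : exp (-τ) * exp τ = 1 := by rw [← exp_add]; simp
  have h2 : exp τ ≤ cosh τ + a * sinh τ := by nlinarith [cosh_add_sinh τ]
  have h3 : 1 ≤ exp N * (cosh τ + a * sinh τ) := by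
    rw [← e2]
    exact mul_le_mul e1 h2 (exp_pos _).le (exp_pos _).le
  have h4 : cosh τ ≤ exp N := by nlinarith [cosh_sub_sinh τ]
  refine le_of_mul_le_mul_right ?_ h.dn
  rw [sub_mul, h.eq]
  have h5 : -(τ ^ 2 * cosh τ) ≤ sinh τ - τ * (cosh τ + a * sinh τ) := by
    have : τ * sinh τ ≤ τ ^ 2 * cosh τ := by nlinarith
    nlinarith [mul_nonneg_of_nonpos_of_nonpos k s0]
  have h6 : τ ^ 2 * cosh τ ≤ exp N * exp N * τ ^ 2 * (cosh τ + a * sinh τ) := by
    have := mul_le_mul h4 h3 zero_le_one (exp_pos N).le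
    nlinarith [sq_nonneg τ]
  nlinarith [h.w]

theorem pw (t : ℝ) (ht : 0 ≤ t) : (1 + t) ^ 3 * exp (-(√2 * t)) ≤ 1000 * exp (-t) := by
  have h1 : 1 + t ≤ 10 * exp (t / 10) := by nlinarith [add_one_le_exp (t / 10)]
  have h2 : (1 + t) ^ 3 ≤ (10 * exp (t / 10)) ^ 3 := by gcongr
  have h3 : (13 / 10 : ℝ) ≤ √2 := le_sqrt_of_sq_le (by norm_num)
  calc _ ≤ (10 * exp (t / 10)) ^ 3 * exp (-(√2 * t)) := by gcongr
    _ = 1000 * exp (3 * (t / 10) + -(√2 * t)) := by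
        rw [exp_add, mul_pow, ← exp_nat_mul]
        push_cast
        ring
    _ ≤ _ := by
        gcongr
        nlinarith

end Vale.Agent.P134C.E3a
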