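import Vale.Agent.P134C.Top
import Vale.Agent.P134E.Defs

/-!
# P134C, block (c): the rows of `ISO`
-/

open MeasureTheory Metric Filter Topology Set
open scoped ContDiff RealInnerProductSpace
open Vale.Agent.P366.Stmt (E)

noncomputable section

namespace Vale.Agent.P134C

open Vale.Agent.P134B

/-- **TILT**: the tilt of the cores near an isolated point of a layer -/
def TILT : Prop := ∀ (m : ℕ) (C A : ℝ), ∃ K > (0 : ℝ), ∃ β > (0 : ℝ),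
  ∀ (u : E (m + 1) → ℝ) (ε G : ℝ) (y : E (m + 1)), Ok C u → 0 < ε → Gd u ε y (4 / ε) →
  |ps u y| ≤ 1 / 2 → K ≤ G → G * ε ≤ β → Pos u y G → Pos (-u) y G →
  ‖nu u y‖ = 1 ∧ ∀ w ∈ ball y (G / 2), |ps u w| ≤ A → ‖pp u w - nu u y‖ ≤ K * ε * (1 + ‖w - y‖)

/-- **ZB**: the tilt in the tails -/
def ZB : Prop := ∀ (n : ℕ), ∃ K > (0 : ℝ), ∃ c > (0 : ℝ), ∀ (C : ℝ) (u : E n → ℝ) (e x : E n)
  (ρ κ a ε : ℝ), Ok C u → ‖e‖ = 1 → 0 ≤ ρ → 0 ≤ κ → 0 ≤ a → 0 < ε →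
  (∀ w ∈ closedBall x ρ, EE u w ≤ ε ^ 2) → 20 * ε * (1 + |ps u x|) ≤ 1 →
  (∀ w ∈ closedBall x ρ, |ps u w| ≤ 4 → ‖pp u w - e‖ ≤ κ * (a + ‖w - x‖)) →
  1 - pe u e x ≤ K * ((κ * (a + 1 + |ps u x|)) ^ 2 + ε ^ 2 + Real.exp (2 * |ps u x| - c * ρ))

/-- **TWO**: from the tilt to the two-point function -/
def TWO : Prop := ∀ (n : ℕ) (C R σ : ℝ) (u : E n → ℝ) (e x : E n), Ok C u → ‖e‖ = 1 → 1 ≤ R →
  0 ≤ σ → (∀ w ∈ closedBall x R, 1 - pe u e w ≤ (σ * (1 + ‖w - x‖)) ^ 2) →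
  Gam u x ≤ 2 * max (24 * C * σ) (4 / R)

def rTILT : Prop := SEG → FOOT → GR → GD → P134E.PAR2 → TILT
def rTWO : Prop := SYM → TWO
def rISO : Prop := TILT → ZB → TWO → ISO

end Vale.Agent.P134C
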