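import Vale.Agent.P134C.Top

/-!
# P134C, row RIG: no bad set and the rate give the rigidity
-/

open MeasureTheory Metric Filter Topology Set
open scoped ContDiff RealInnerProductSpace
open Vale.Agent.P366.Stmt (E)

noncomputable section

namespace Vale.Agent.P134C

open Vale.Agent.P134B

variable {n : ℕ}

theorem ok_mono {C C' : ℝ} {u : E n → ℝ} (h : Ok C u) (hC : C ≤ C') : Ok C' u :=
  ⟨h.C1.trans hC, h.sm, h.lt, h.eq, h.smp, h.th, h.flo, h.fhi, h.gu, h.gf, h.tr, h.sy, h.q0, h.gq,
    h.gp, h.jac, h.lE,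
    fun x => (h.S0 x).trans (mul_le_mul_of_nonneg_right hC (Real.sqrt_nonneg _)),
    fun x => (h.S1 x).trans (mul_le_mul_of_nonneg_right hC (Real.sqrt_nonneg _)),
    fun x => (h.S2 x).trans (mul_le_mul_of_nonneg_right hC (h.q0 x)),
    fun x => (h.q1 x).trans (mul_le_mul_of_nonneg_right hC (h.q0 x)),
    fun x => (h.q2 x).trans (mul_le_mul_of_nonneg_right hC (h.q0 x)),
    fun x r hr hy => (h.dec x r hr hy).trans
      (mul_le_mul_of_nonneg_right hC (Real.exp_pos _).le)⟩

theorem rig_dist {x : E n} {y : Fin n → ℝ} {d : ℝ} (hd : 0 ≤ d) (hy : y ∈ P134.SM.eb x.ofLp d) :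
    dist x (WithLp.toLp 2 y) ≤ d := by
  rw [EuclideanSpace.dist_eq]
  refine Real.sqrt_le_iff.2 ⟨hd, ?_⟩
  refine le_trans (le_of_eq ?_) (P134.SM.mem_eb.1 hy)
  refine Finset.sum_congr rfl fun i _ => ?_
  rw [Real.dist_eq, sq_abs]
  simp only
  ring

theorem rig : rRIG := by
  intro kk nob ⟨δ, C, hδ, hC, hR⟩ v hv x
  obtain ⟨C₁, hk⟩ := kk 7
  obtain ⟨ok, st, he⟩ := hk v hv
  have hq : ∀ z, 0 ≤ EE (up v) z := fun z => mul_nonneg (sq_nonneg _) (ok.q0 z)
  have hB : ¬(Bad δ (up v)).Nonempty := fun hne => by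
    refine nob (max C₁ (4 * C)) δ (up v) ⟨ok_mono ok (le_max_left _ _), st, hδ, hne, fun z => ?_⟩
    refine le_trans ?_ (le_max_right _ _)
    have hd : 0 ≤ dd δ (up v) z := infDist_nonneg
    rcases hd.eq_or_lt with h0 | h0
    · rw [← h0]
      nlinarith
    · have h1 := hR v hv z.ofLp (dd δ (up v) z / 2) (by linarith) fun y hy => by
        by_contra hc
        have h2 : (WithLp.toLp 2 y : E 7) ∈ Bad δ (up v) := by
          simpa [Bad, he] using not_le.1 hc
        have h3 : dd δ (up v) z ≤ _ := infDist_le_dist_of_mem h2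
        linarith [rig_dist (by linarith) hy]
      rw [← he, le_div_iff₀ (by positivity)] at h1
      nlinarith
  have hle : ∀ y, P134.defi v y ≤ δ := fun y => by
    by_contra hc
    exact hB ⟨WithLp.toLp 2 y, by simpa [Bad, he] using not_le.1 hc⟩
  have h0 : 0 ≤ P134.defi v x := by simpa [he] using hq (WithLp.toLp 2 x)
  refine le_antisymm ?_ h0
  by_contra hc
  have hp : 0 < P134.defi v x := not_le.1 hc
  have h1 := hR v hv x (C / P134.defi v x + 1) (by positivity) fun y _ => hle y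
  rw [le_div_iff₀ (by positivity)] at h1
  have h2 : P134.defi v x * (C / P134.defi v x) = C := by field_simp
  have h3 : 0 < C / P134.defi v x := by positivity
  nlinarith [mul_pos hp h3, mul_pos (mul_pos hp h3) h3]

end Vale.Agent.P134C
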