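import Vale.Agent.P134C.DT
import Vale.Agent.P134W.Loc

/-!
# P134C, row WO: the weak form of the two-point inequality
-/

open MeasureTheory Filter Topology Metric
open scoped ContDiff RealInnerProductSpace
open Vale.Agent.P366.Stmt (E)
open Vale.Agent.P134B Vale.Agent.P134T Vale.Agent.P134J
open Vale.Agent.P134W (SC MU MSC SCC)

noncomputable section

namespace Vale.Agent.P134C

variable {n : ℕ} {C : ℝ} {u : E n → ℝ} {x : E n}

namespace Woa

open Dta

theorem sc_ph (hm : MU) (ms : MSC) (sc : SCC) (h : Ok C u) (h1 : ph u x < 1) : SC (ph u) x := by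
  have key : ∀ y, ph u y < 1 → mu u y < th u y + ps u y * mu u y := fun y hy => by
    by_contra k
    have e := max_eq_right (not_lt.1 k)
    have p := dn_pos u y
    rw [ph, e, div_self (e ▸ p).ne'] at hy
    exact hy.false
  refine (sc n x).2.1 _ _ ((sc n x).2.2.2.2.2.1 (mu u) (th u) (ps u) (ms n C u h x)
    (c2 (cd_th h)).contDiffAt (c2 h.smp).contDiffAt (th_pos u x)
    ((mu_nn u x).trans_lt (key x h1))) ?_
  filter_upwards [(c_ph hm h).continuousAt.eventually_lt continuousAt_const h1] with y hy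
  rw [ph, max_eq_left (key y hy).le]

theorem sc_GG (hm : MU) (ms : MSC) (sc : SCC) (h : Ok C u) (h' : Ok C (-u)) (h1 : GG u x < 1) :
    SC (GG u) x := by
  have k : ph u x + ph (-u) x < 1 := (le_max_left _ _).trans_lt h1
  have a := sc_ph hm ms sc h (x := x) (by linarith [(ph_bd (-u) x).1])
  have b := sc_ph hm ms sc h' (x := x) (by linarith [(ph_bd u x).1])
  obtain ⟨-, -, s3, s4, s5, -⟩ := sc n x
  refine s4 _ _ (s3 _ _ a b) (s5 _ (fun t => 101 / 100 * t) (s4 _ _ a b) (by fun_prop)
    (Eventually.of_forall fun t => ?_))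
  rw [((hasDerivAt_id' t).const_mul (101 / 100 : ℝ)).deriv]
  norm_num

/-- measurable functions with a continuous majorant -/
def Mj (f : E n → ℝ) : Prop := Measurable f ∧ ∃ g : E n → ℝ, Continuous g ∧ ∀ x, |f x| ≤ g x

variable {f g : E n → ℝ}

theorem Mj.of (h : Continuous f) : Mj f := ⟨h.measurable, _, h.abs, fun _ => le_rfl⟩

theorem Mj.add (h : Mj f) (k : Mj g) : Mj fun x => f x + g x := by
  obtain ⟨m, a, ha, h⟩ := h
  obtain ⟨m', b, hb, k⟩ := k
  exact ⟨m.add m', _, ha.add hb, fun x => (abs_add_le _ _).trans (add_le_add (h x) (k x))⟩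

theorem Mj.mul (h : Mj f) (k : Mj g) : Mj fun x => f x * g x := by
  obtain ⟨m, a, ha, h⟩ := h
  obtain ⟨m', b, hb, k⟩ := k
  exact ⟨m.mul m', _, ha.mul hb, fun x => (abs_mul _ _).trans_le
    (mul_le_mul (h x) (k x) (abs_nonneg _) ((abs_nonneg _).trans (h x)))⟩

theorem Mj.sub (h : Mj f) (k : Mj g) : Mj fun x => f x - g x := by
  simpa only [neg_mul, one_mul, ← sub_eq_add_neg] using h.add ((Mj.of (continuous_const (y := -1))).mul k)

theorem Mj.int (h : Mj f) {K : Set (E n)} (hK : IsCompact K) (h0 : ∀ x ∉ K, f x = 0) :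
    Integrable f := by
  obtain ⟨m, a, ha, h⟩ := h
  exact (integrableOn_iff_integrable_of_support_subset (Function.support_subset_iff'.2 h0)).1
    ((ha.continuousOn.integrableOn_compact hK).mono' m.aestronglyMeasurable
      (Eventually.of_forall h))

theorem m_grad (f : E n → ℝ) : Measurable (gradient f) :=
  (InnerProductSpace.toDual ℝ (E n)).symm.continuous.measurable.comp (measurable_fderiv ℝ f)

theorem grad_GG {A : ℝ} (hA : Lip A u) (x : E n) :
    ‖gradient (GG u) x‖ ≤ |A| * (1 + |ps u x|) ^ 3 := by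
  rw [gradient, LinearIsometryEquiv.norm_map]
  refine norm_fderiv_le_of_lip' ℝ (by positivity) ?_
  filter_upwards [closedBall_mem_nhds x one_pos] with y hy
  rw [mem_closedBall', dist_eq_norm] at hy
  rw [Real.norm_eq_abs, abs_sub_comm, norm_sub_rev]
  exact (hA x y hy).trans (by gcongr; exact le_abs_self A)

end Woa

open Dta Woa

theorem wo : rWO := fun hm ms sc bw sy hd lip n C g₀ s₁ u h hs s4 hg k a a0 hk k0 kz χ hχ hc χ0 => by
  have h' := (sy.1 n u).2.1 C h
  obtain ⟨A, hA⟩ := lip n C
  have D := hd n C u h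
  have cG := D.lG.continuous
  have cχ := hχ.continuous
  have ck := hk.continuous.comp cG
  have cB : Continuous fun x => |A| * (1 + |ps u x|) ^ 3 :=
    continuous_const.mul ((continuous_const.add h.smp.continuous.abs).pow 3)
  have s1 : 1 / s₁ ≤ 1 / 4 := one_div_le_one_div_of_le (by norm_num) s4
  have kin : ∀ t, k t ≠ 0 → a < t ∧ t < 1 / s₁ := fun t ht =>
    ⟨not_le.1 fun e => ht (kz t (.inl e)), not_le.1 fun e => ht (kz t (.inr e))⟩
  have bN : Mj fun x => ‖gradient (GG u) x‖ :=
    ⟨(m_grad _).norm, _, cB, fun x => (abs_norm _).trans_le (grad_GG (hA u h) x)⟩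
  have bN2 : Mj fun x => ‖gradient (GG u) x‖ ^ 2 := by simpa only [sq] using bN.mul bN
  have bQ : Mj fun x => k (GG u x) / GG u x := by
    refine ⟨ck.measurable.div cG.measurable, fun x => k (GG u x) / a, ck.div_const a, fun x => ?_⟩
    rw [abs_of_nonneg (div_nonneg (k0 _) (D.G0 x))]
    by_cases e : k (GG u x) = 0
    · simp [e]
    · exact div_le_div_of_nonneg_left (k0 _) a0 (kin _ e).1.le
  have bX : Mj (Xd u) := ⟨D.mX, fun x => 2 * |ps u x| * Pt u x,
    (continuous_const.mul h.smp.continuous.abs).mul D.cV,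
    fun x => (abs_of_nonneg (D.X0 x)).trans_le (Xd_bd h x).2⟩
  have ck' : Continuous fun x => deriv k (GG u x) := (hk.continuous_deriv le_rfl).comp cG
  have cgχ : Continuous (gradient χ) := (P366W.smooth_gradient hχ).continuous
  have bI : Mj fun x => ⟪gradient (GG u) x, gradient χ x⟫ :=
    ⟨(m_grad _).inner cgχ.measurable, _, cB.mul cgχ.norm, fun x => (abs_real_inner_le_norm _ _).trans
      (mul_le_mul_of_nonneg_right (grad_GG (hA u h) x) (norm_nonneg _))⟩
  have z0 : ∀ x ∉ tsupport χ, χ x = 0 := fun x => image_eq_zero_of_notMem_tsupport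
  have z1 : ∀ x ∉ tsupport χ, gradient χ x = 0 := fun x hx => by
    rw [(notMem_tsupport_iff_eventuallyEq.1 hx).gradient_eq]
    exact grad_const 0 x
  have i1 : Integrable fun x => hh u x * deriv k (GG u x) * ‖gradient (GG u) x‖ ^ 2 * χ x :=
    (((Mj.of (D.ch.mul ck')).mul bN2).mul (.of cχ)).int hc fun x hx => by rw [z0 x hx, mul_zero]
  have i2 : Integrable fun x => hh u x * k (GG u x) * ⟪gradient (GG u) x, gradient χ x⟫ :=
    ((Mj.of (D.ch.mul ck)).mul bI).int hc fun x hx => by rw [z1 x hx, inner_zero_right, mul_zero]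
  set r : E n → ℝ := fun x => hh u x * (99 / 50 * ‖gradient (GG u) x‖ ^ 2 / GG u x -
    (21 / 20 * Pt u x + Xd u x) * GG u x) with hr
  have er : (fun x => k (GG u x) * χ x * r x) = fun x => hh u x * (99 / 50 * (k (GG u x) / GG u x) *
      ‖gradient (GG u) x‖ ^ 2 - (21 / 20 * Pt u x + Xd u x) * (GG u x * k (GG u x))) * χ x :=
    funext fun x => by simp only [hr]; ring
  have i3 : Integrable fun x => k (GG u x) * χ x * r x := by
    rw [er]
    exact (((Mj.of D.ch).mul ((((Mj.of continuous_const).mul bQ).mul bN2).sub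
      (((Mj.of (continuous_const.mul D.cV)).add bX).mul (.of (cG.mul ck))))).mul (.of cχ)).int hc
      fun x hx => by rw [z0 x hx, mul_zero]
  have lz : LocallyLipschitz fun x => k (GG u x) * χ x :=
    ((hk.comp contDiff_fst).mul (contDiff_snd (E := ℝ) (F := ℝ))).locallyLipschitz.comp
      (D.lG.prodMk (hχ.of_le (by simp) : ContDiff ℝ 1 χ).locallyLipschitz)
  have key := bw n (GG u) (hh u) (fun x => k (GG u x) * χ x) r (fun x hx => ?_)
    (((cd_ft h).pow 2).of_le (by simp)) D.h0 lz hc.mul_left (fun x => mul_nonneg (k0 _) (χ0 x)) i3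
    (Eventually.of_forall fun x hx hdx ε hε => ?_)
  · have e2 : ∫ x, hh u x * ⟪gradient (fun x => k (GG u x) * χ x) x, gradient (GG u) x⟫ =
        (∫ x, hh u x * deriv k (GG u x) * ‖gradient (GG u) x‖ ^ 2 * χ x) +
          ∫ x, hh u x * k (GG u x) * ⟪gradient (GG u) x, gradient χ x⟫ := by
      rw [← integral_add i1 i2]
      refine integral_congr_ae ?_
      filter_upwards [P134W.rad D.lG] with x hx
      have dk := (hk.differentiable (by simp) (GG u x)).hasDerivAt
      rw [grad_mul (f := fun y => k (GG u y)) (dk.differentiableAt.comp x hx) (hχ.differentiable (by simp) x),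
        grad_comp dk hx, inner_add_left, real_inner_smul_left, real_inner_smul_left,
        real_inner_smul_left, real_inner_self_eq_norm_sq, real_inner_comm]
      ring
    have e3 : ∫ x, hh u x * ((deriv k (GG u x) + 99 / 50 * k (GG u x) / GG u x) *
        ‖gradient (GG u) x‖ ^ 2 - (21 / 20 * Pt u x + Xd u x) * (GG u x * k (GG u x))) * χ x =
        (∫ x, hh u x * deriv k (GG u x) * ‖gradient (GG u) x‖ ^ 2 * χ x) +
          ∫ x, k (GG u x) * χ x * r x := by
      rw [← integral_add i1 i3]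
      refine integral_congr_ae (Eventually.of_forall fun x => ?_)
      simp only [hr]
      ring
    linarith
  · have : tsupport (fun x => k (GG u x) * χ x) ⊆ {x | GG u x ≤ 1 / 4} :=
      closure_minimal (fun y hy => ((kin _ (left_ne_zero_of_mul hy)).2.le.trans s1 :))
        (isClosed_le cG continuous_const)
    exact sc_GG hm ms sc h h' (lt_of_le_of_lt (this hx) (by norm_num))
  · obtain ⟨l1, l2⟩ := kin _ (left_ne_zero_of_mul hx)
    obtain ⟨φ, p1, p2, p3, p4⟩ := hs x (a0.trans l1) (l2.le.trans hg) ε hε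
    have lw : P134W.Low (GG u) φ x := ⟨p1, p2, p3⟩
    refine ⟨φ, lw, ?_⟩
    rw [hh_Lt h, hr]
    rw [lw.grad hdx] at p4
    have b : (1 + 1 / 100 + 100 / 99 * df u x) * Pt u x ≤ 21 / 20 * Pt u x + Xd u x := by
      have := D.V0 x
      unfold Xd
      split_ifs with e
      · nlinarith
      · nlinarith
    nlinarith [mul_le_mul_of_nonneg_left p4 (D.h0 x), mul_le_mul_of_nonneg_right (D.h1 x) hε.le,
      mul_le_mul_of_nonneg_left (mul_le_mul_of_nonneg_right b (D.G0 x)) (D.h0 x)]

end Vale.Agent.P134C
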